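import Mathlib

/-! Smooth compactly supported approximation in `W^{1,1}(ℝ^d)` (helper for P137). -/

open MeasureTheory Filter Topology Set Metric Function
open scoped ContDiff RealInnerProductSpace Convolution

noncomputable section

namespace Vale.Agent.P137

abbrev Eu (d : ℕ) := EuclideanSpace ℝ (Fin d)

variable {d : ℕ}

/-- `G` is a weak gradient of `f`. -/
def IsWeakGrad (f : Eu d → ℝ) (G : Eu d → Eu d) : Prop :=
  ∀ φ : Eu d → ℝ, ContDiff ℝ ∞ φ → HasCompactSupport φ → ∀ v : Eu d,
    ∫ x, f x * fderiv ℝ φ x v = -∫ x, φ x * ⟪G x, v⟫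

section Conv

variable {F : Type*} [NormedAddCommGroup F] [NormedSpace ℝ F]

/-- mollification -/
def moll (φ : Eu d → ℝ) (g : Eu d → F) : Eu d → F :=
  φ ⋆[ContinuousLinearMap.lsmul ℝ ℝ, volume] g

theorem moll_apply (φ : Eu d → ℝ) (g : Eu d → F) (x : Eu d) :
    moll φ g x = ∫ t, φ (x - t) • g t :=
  convolution_lsmul_swap

theorem integrable_smul_comp_sub {φ : Eu d → ℝ} (hφ : Continuous φ) (hφc : HasCompactSupport φ)
    {g : Eu d → F} (hg : Integrable g) (x : Eu d) : Integrable fun t => φ (x - t) • g t := by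
  obtain ⟨C, hC⟩ := hφc.exists_bound_of_continuous hφ
  exact hg.bdd_smul C
    ((hφ.comp (continuous_const.sub continuous_id)).aestronglyMeasurable)
    (Eventually.of_forall fun t => hC _)

theorem integrable_moll {φ : Eu d → ℝ} (hφ : Integrable φ) {g : Eu d → F} (hg : Integrable g) :
    Integrable (moll φ g) :=
  hφ.integrable_convolution _ hg

/-- Young's inequality for a probability kernel. -/
theorem integral_norm_moll_le {φ : Eu d → ℝ} (hφ : Continuous φ) (hφc : HasCompactSupport φ)
    (h0 : ∀ x, 0 ≤ φ x) (h1 : ∫ x, φ x = 1) {g : Eu d → F} (hg : Integrable g) :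
    ∫ x, ‖moll φ g x‖ ≤ ∫ x, ‖g x‖ := by
  have hi : Integrable φ := hφ.integrable_of_hasCompactSupport hφc
  calc ∫ x, ‖moll φ g x‖
      ≤ ∫ x, moll φ (fun t => ‖g t‖) x := by
        refine integral_mono (integrable_moll hi hg).norm (integrable_moll hi hg.norm) fun x => ?_
        simp only [moll_apply]
        refine (norm_integral_le_integral_norm _).trans (le_of_eq ?_)
        congr 1
        ext t
        rw [norm_smul, Real.norm_of_nonneg (h0 _), smul_eq_mul]
    _ = ∫ x, ‖g x‖ := by
        unfold moll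
        rw [integral_convolution (L := ContinuousLinearMap.lsmul ℝ ℝ) hi hg.norm, h1]
        simp

theorem moll_sub {φ : Eu d → ℝ} (hφ : Continuous φ) (hφc : HasCompactSupport φ)
    {g h : Eu d → F} (hg : Integrable g) (hh : Integrable h) (x : Eu d) :
    moll φ (fun t => g t - h t) x = moll φ g x - moll φ h x := by
  simp only [moll_apply, smul_sub]
  exact integral_sub (integrable_smul_comp_sub hφ hφc hg x) (integrable_smul_comp_sub hφ hφc hh x)

variable [CompleteSpace F]

/-- the standard mollifier -/
def bump (n : ℕ) : ContDiffBump (0 : Eu d) where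
  rIn := 1 / (2 * ((n : ℝ) + 1))
  rOut := 1 / ((n : ℝ) + 1)
  rIn_pos := by positivity
  rIn_lt_rOut := by
    have : (0 : ℝ) < (n : ℝ) + 1 := by positivity
    rw [div_lt_div_iff₀ (by positivity) this]
    linarith

def ker (n : ℕ) : Eu d → ℝ := (bump (d := d) n).normed volume

theorem ker_nonneg (n : ℕ) (x : Eu d) : 0 ≤ ker n x := (bump n).nonneg_normed x

theorem ker_integral (n : ℕ) : ∫ x, ker (d := d) n x = 1 := (bump n).integral_normed

theorem ker_contDiff (n : ℕ) : ContDiff ℝ ∞ (ker (d := d) n) := (bump n).contDiff_normed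

theorem ker_hasCompactSupport (n : ℕ) : HasCompactSupport (ker (d := d) n) :=
  (bump n).hasCompactSupport_normed

theorem ker_support (n : ℕ) :
    support (ker (d := d) n) = ball (0 : Eu d) (1 / ((n : ℝ) + 1)) :=
  (bump n).support_normed_eq

theorem tendsto_integral_norm_moll_sub_of_continuous {h : Eu d → F} (hh : Continuous h)
    (hhc : HasCompactSupport h) :
    Tendsto (fun n => ∫ x, ‖moll (ker n) h x - h x‖) atTop (𝓝 0) := by
  obtain ⟨R, hR⟩ := hhc.isCompact.isBounded.subset_closedBall (0 : Eu d)
  have huc := hhc.uniformContinuous_of_continuous hh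
  have hhi : Integrable h := hh.integrable_of_hasCompactSupport hhc
  rw [Metric.tendsto_atTop]
  intro ε hε
  set V : ℝ := volume.real (closedBall (0 : Eu d) (R + 1)) with hV
  have hV0 : 0 ≤ V := measureReal_nonneg
  obtain ⟨δ, hδ, hδ'⟩ := Metric.uniformContinuous_iff.1 huc (ε / (V + 1)) (by positivity)
  obtain ⟨N, hN⟩ := exists_nat_one_div_lt hδ
  refine ⟨N, fun n hn => ?_⟩
  have hrad : (1 : ℝ) / ((n : ℝ) + 1) < δ := by
    refine lt_of_le_of_lt ?_ hN
    gcongr
  have hrad1 : (1 : ℝ) / ((n : ℝ) + 1) ≤ 1 := by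
    rw [div_le_one (by positivity)]
    have : (0 : ℝ) ≤ n := n.cast_nonneg
    linarith
  have hbound : ∀ x, ‖moll (ker n) h x - h x‖ ≤ ε / (V + 1) := by
    intro x
    rw [← dist_eq_norm]
    refine dist_convolution_le (μ := volume) (R := 1 / ((n : ℝ) + 1)) (by positivity)
      (ker_support n).subset (ker_nonneg n) (ker_integral n) hh.aestronglyMeasurable ?_
    intro y hy
    exact (hδ' (lt_of_lt_of_le (mem_ball.1 hy) hrad.le)).le
  have hzero : ∀ x ∉ closedBall (0 : Eu d) (R + 1), ‖moll (ker n) h x - h x‖ = 0 := by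
    intro x hx
    have hx' : R + 1 < ‖x‖ := by simpa using hx
    have hz : ∀ y, dist y x < 1 / ((n : ℝ) + 1) → h y = 0 := by
      intro y hy
      by_contra hne
      have hy' := hR (subset_tsupport _ hne)
      rw [mem_closedBall, dist_zero_right] at hy'
      have := norm_le_norm_add_norm_sub' x y
      rw [← dist_eq_norm, dist_comm] at this
      linarith
    have h1 : h x = 0 := hz x (by rw [dist_self]; positivity)
    have h2 : moll (ker n) h x = 0 := by
      unfold moll
      rw [convolution_def]
      refine integral_eq_zero_of_ae (Eventually.of_forall fun t => ?_)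
      simp only [ContinuousLinearMap.lsmul_apply, Pi.zero_apply]
      by_cases ht : t ∈ support (ker (d := d) n)
      · rw [ker_support, mem_ball, dist_zero_right] at ht
        rw [hz (x - t) (by simpa [dist_eq_norm] using ht), smul_zero]
      · rw [notMem_support.1 ht, zero_smul]
    simp [h1, h2]
  have hle : ∫ x, ‖moll (ker n) h x - h x‖ ≤ V * (ε / (V + 1)) := by
    rw [← setIntegral_eq_integral_of_forall_compl_eq_zero hzero]
    calc ∫ x in closedBall (0 : Eu d) (R + 1), ‖moll (ker n) h x - h x‖
        ≤ ∫ _ in closedBall (0 : Eu d) (R + 1), ε / (V + 1) := by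
          refine setIntegral_mono_on ?_ ?_ measurableSet_closedBall fun x _ => hbound x
          · exact ((integrable_moll ((ker_contDiff n).continuous.integrable_of_hasCompactSupport
              (ker_hasCompactSupport n)) hhi).sub hhi).norm.integrableOn
          · exact integrableOn_const measure_closedBall_lt_top.ne
      _ = V * (ε / (V + 1)) := by rw [setIntegral_const, smul_eq_mul]
  rw [Real.dist_eq, sub_zero, abs_of_nonneg (integral_nonneg fun x => norm_nonneg _)]
  refine lt_of_le_of_lt hle ?_
  rw [mul_div_assoc', div_lt_iff₀ (by positivity)]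
  nlinarith

theorem tendsto_integral_norm_moll_sub {g : Eu d → F} (hg : Integrable g) :
    Tendsto (fun n => ∫ x, ‖moll (ker n) g x - g x‖) atTop (𝓝 0) := by
  rw [Metric.tendsto_atTop]
  intro ε hε
  obtain ⟨h, hhc, hgh, hh, hhi⟩ :=
    hg.exists_hasCompactSupport_integral_sub_le (ε := ε / 4) (by positivity)
  obtain ⟨N, hN⟩ := Metric.tendsto_atTop.1
    (tendsto_integral_norm_moll_sub_of_continuous hh hhc) (ε / 4) (by positivity)
  refine ⟨N, fun n hn => ?_⟩
  have hk : Continuous (ker (d := d) n) := (ker_contDiff n).continuous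
  have hkc := ker_hasCompactSupport (d := d) n
  have hki : Integrable (ker (d := d) n) := hk.integrable_of_hasCompactSupport hkc
  have h3 := hN n hn
  rw [Real.dist_eq, sub_zero, abs_of_nonneg (integral_nonneg fun x => norm_nonneg _)] at h3 ⊢
  have hA : Integrable fun x => ‖moll (ker n) (fun t => g t - h t) x‖ :=
    (integrable_moll hki (hg.sub hhi)).norm
  have hB : Integrable fun x => ‖moll (ker n) h x - h x‖ :=
    ((integrable_moll hki hhi).sub hhi).norm
  have hC : Integrable fun x => ‖g x - h x‖ := (hg.sub hhi).norm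
  calc ∫ x, ‖moll (ker n) g x - g x‖
      ≤ ∫ x, (‖moll (ker n) (fun t => g t - h t) x‖ + ‖moll (ker n) h x - h x‖ + ‖g x - h x‖) := by
        refine integral_mono ((integrable_moll hki hg).sub hg).norm ((hA.add hB).add hC) fun x => ?_
        rw [moll_sub hk hkc hg hhi]
        calc ‖moll (ker n) g x - g x‖
            = ‖(moll (ker n) g x - moll (ker n) h x) + (moll (ker n) h x - h x) - (g x - h x)‖ := by
              congr 1; abel
          _ ≤ _ := (norm_sub_le _ _).trans (by gcongr; exact norm_add_le _ _)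
    _ = (∫ x, ‖moll (ker n) (fun t => g t - h t) x‖) + (∫ x, ‖moll (ker n) h x - h x‖)
          + ∫ x, ‖g x - h x‖ := by
        have hAB : Integrable fun x =>
            ‖moll (ker n) (fun t => g t - h t) x‖ + ‖moll (ker n) h x - h x‖ := hA.add hB
        rw [integral_add hAB hC, integral_add hA hB]
    _ < ε := by
        have h4 : ∫ x, ‖moll (ker n) (fun t => g t - h t) x‖ ≤ ∫ x, ‖g x - h x‖ :=
          integral_norm_moll_le hk hkc (ker_nonneg n) (ker_integral n) (hg.sub hhi)
        linarith

end Conv

theorem contDiff_moll {φ f : Eu d → ℝ} (hφ : ContDiff ℝ ∞ φ) (hφc : HasCompactSupport φ)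
    (hf : Integrable f) : ContDiff ℝ ∞ (moll φ f) :=
  hφc.contDiff_convolution_left _ hφ hf.locallyIntegrable

theorem hasCompactSupport_moll {φ f : Eu d → ℝ} (hφc : HasCompactSupport φ)
    (hfc : HasCompactSupport f) : HasCompactSupport (moll φ f) :=
  HasCompactSupport.convolution _ hφc hfc

/-- The gradient of a mollification is the mollification of the weak gradient. -/
theorem gradient_moll {φ f : Eu d → ℝ} (hφ : ContDiff ℝ ∞ φ) (hφc : HasCompactSupport φ)
    (hf : Integrable f) {G : Eu d → Eu d} (hG : Integrable G) (hw : IsWeakGrad f G) (x : Eu d) :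
    gradient (moll φ f) x = moll φ G x := by
  have hd := hφc.hasFDerivAt_convolution_left (ContinuousLinearMap.lsmul ℝ ℝ)
    (hφ.of_le (by simp)) (μ := volume) hf.locallyIntegrable x
  refine ext_inner_right ℝ fun v => ?_
  rw [gradient, InnerProductSpace.toDual_symm_apply]
  rw [show moll φ f = φ ⋆[ContinuousLinearMap.lsmul ℝ ℝ, volume] f from rfl, hd.fderiv,
    convolution_eq_swap]
  have hdc : Continuous (fderiv ℝ φ) := hφ.continuous_fderiv (by simp)
  obtain ⟨C, hC⟩ := (hφc.fderiv ℝ).exists_bound_of_continuous hdc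
  have hint : Integrable fun t => f t • fderiv ℝ φ (x - t) :=
    hf.smul_bdd C ((hdc.comp (continuous_const.sub continuous_id)).aestronglyMeasurable)
      (Eventually.of_forall fun t => hC _)
  have heq : (fun t => (ContinuousLinearMap.lsmul ℝ ℝ).precompL (Eu d) (fderiv ℝ φ (x - t)) (f t))
      = fun t => f t • fderiv ℝ φ (x - t) := by
    ext t w
    simp [mul_comm]
  rw [heq, ContinuousLinearMap.integral_apply hint]
  simp only [smul_apply, smul_eq_mul]
  have hψ : ContDiff ℝ ∞ fun t => φ (x - t) := hφ.comp (contDiff_const.sub contDiff_id)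
  have hψc : HasCompactSupport fun t => φ (x - t) :=
    hφc.comp_homeomorph (Homeomorph.subLeft x)
  have hder : ∀ t, fderiv ℝ (fun t => φ (x - t)) t v = - fderiv ℝ φ (x - t) v := by
    intro t
    have h1 : HasFDerivAt (fun t => φ (x - t)) ((fderiv ℝ φ (x - t)).comp
        (-ContinuousLinearMap.id ℝ (Eu d))) t :=
      ((hφ.differentiable (by simp)).differentiableAt.hasFDerivAt).comp t
        ((hasFDerivAt_id t).const_sub x)
    rw [h1.fderiv]
    simp
  have := hw (fun t => φ (x - t)) hψ hψc v
  simp only [hder, mul_neg, integral_neg, neg_inj] at this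
  rw [this, moll_apply, ← integral_inner (integrable_smul_comp_sub hφ.continuous hφc hG x) v |>.trans
    (real_inner_comm _ _).symm]
  simp [real_inner_smul_right, real_inner_comm]

/-- cut-off -/
def cutBump : ContDiffBump (0 : Eu d) := ⟨1, 2, one_pos, one_lt_two⟩

def cutoff (n : ℕ) (x : Eu d) : ℝ := cutBump (((n : ℝ) + 1)⁻¹ • x)

theorem cutoff_contDiff (n : ℕ) : ContDiff ℝ ∞ (cutoff (d := d) n) :=
  cutBump.contDiff.comp (contDiff_id.const_smul _)

theorem cutoff_abs_le (n : ℕ) (x : Eu d) : |cutoff n x| ≤ 1 := by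
  rw [cutoff, abs_of_nonneg cutBump.nonneg]
  exact cutBump.le_one

theorem cutoff_hasCompactSupport (n : ℕ) : HasCompactSupport (cutoff (d := d) n) :=
  cutBump.hasCompactSupport.comp_smul (by positivity)

theorem cutoff_tendsto (x : Eu d) : Tendsto (fun n => cutoff n x) atTop (𝓝 1) := by
  refine tendsto_const_nhds.congr' ?_
  filter_upwards [eventually_ge_atTop ⌈‖x‖⌉₊] with n hn
  refine (cutBump.one_of_mem_closedBall ?_).symm
  rw [mem_closedBall, dist_zero_right, norm_smul, Real.norm_of_nonneg (by positivity),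
    inv_mul_le_iff₀ (by positivity)]
  have h1 : ‖x‖ ≤ n := (Nat.le_ceil _).trans (by exact_mod_cast hn)
  show ‖x‖ ≤ ((n : ℝ) + 1) * (1 : ℝ)
  linarith

theorem cutoff_gradient_bound :
    ∃ C : ℝ, 0 ≤ C ∧ ∀ (n : ℕ) (x : Eu d), ‖gradient (cutoff n) x‖ ≤ C / ((n : ℝ) + 1) := by
  have hc : ContDiff ℝ ∞ (cutBump : Eu d → ℝ) := cutBump.contDiff
  obtain ⟨C, hC⟩ := (cutBump.hasCompactSupport.fderiv ℝ).exists_bound_of_continuous
    (hc.continuous_fderiv (by simp))
  refine ⟨max C 0, le_max_right _ _, fun n x => ?_⟩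
  set c : ℝ := ((n : ℝ) + 1)⁻¹
  have h1 : HasFDerivAt (cutoff n) ((fderiv ℝ (cutBump : Eu d → ℝ) (c • x)).comp
      (c • ContinuousLinearMap.id ℝ (Eu d))) x :=
    ((hc.differentiable (by simp)).differentiableAt.hasFDerivAt).comp x
      ((hasFDerivAt_id x).const_smul c)
  rw [gradient, LinearIsometryEquiv.norm_map, h1.fderiv, ContinuousLinearMap.comp_smul,
    ContinuousLinearMap.comp_id, norm_smul, Real.norm_of_nonneg (by positivity), div_eq_inv_mul]
  exact mul_le_mul_of_nonneg_left ((hC _).trans (le_max_left _ _)) (by positivity)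

/-- product rule for weak gradients -/
theorem IsWeakGrad.mul_smooth {f : Eu d → ℝ} {G : Eu d → Eu d} (hf : Integrable f)
    (hG : Integrable G) (hw : IsWeakGrad f G) {χ : Eu d → ℝ} (hχ : ContDiff ℝ ∞ χ)
    (hχc : HasCompactSupport χ) :
    IsWeakGrad (fun x => χ x * f x) (fun x => χ x • G x + f x • gradient χ x) := by
  intro φ hφ hφc v
  have hχd := hχ.continuous_fderiv (n := ∞) (by simp)
  have hφd := hφ.continuous_fderiv (n := ∞) (by simp)
  obtain ⟨A, hA⟩ := hχc.exists_bound_of_continuous hχ.continuous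
  obtain ⟨A', hA'⟩ := (hχc.fderiv ℝ).exists_bound_of_continuous hχd
  obtain ⟨B, hB⟩ := hφc.exists_bound_of_continuous hφ.continuous
  obtain ⟨B', hB'⟩ := (hφc.fderiv ℝ).exists_bound_of_continuous hφd
  have hGv : Integrable fun x => ⟪G x, v⟫ := hG.inner_const v
  have i1 : Integrable fun x => f x * (χ x * fderiv ℝ φ x v) := by
    refine hf.mul_bdd (c := A * (B' * ‖v‖)) ?_ (Eventually.of_forall fun x => ?_)
    · exact (hχ.continuous.mul (hφd.clm_apply continuous_const)).aestronglyMeasurable
    · rw [norm_mul]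
      exact mul_le_mul (hA x) ((ContinuousLinearMap.le_opNorm _ _).trans
        (mul_le_mul_of_nonneg_right (hB' x) (norm_nonneg _))) (norm_nonneg _)
        ((norm_nonneg _).trans (hA x))
  have i2 : Integrable fun x => f x * (φ x * fderiv ℝ χ x v) := by
    refine hf.mul_bdd (c := B * (A' * ‖v‖)) ?_ (Eventually.of_forall fun x => ?_)
    · exact (hφ.continuous.mul (hχd.clm_apply continuous_const)).aestronglyMeasurable
    · rw [norm_mul]
      exact mul_le_mul (hB x) ((ContinuousLinearMap.le_opNorm _ _).trans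
        (mul_le_mul_of_nonneg_right (hA' x) (norm_nonneg _))) (norm_nonneg _)
        ((norm_nonneg _).trans (hB x))
  have i3 : Integrable fun x => (χ x * φ x) * ⟪G x, v⟫ := by
    refine hGv.bdd_mul (c := A * B) (hχ.continuous.mul hφ.continuous).aestronglyMeasurable
      (Eventually.of_forall fun x => ?_)
    rw [norm_mul]
    exact mul_le_mul (hA x) (hB x) (norm_nonneg _) ((norm_nonneg _).trans (hA x))
  have hp : ∀ x, fderiv ℝ (fun y => χ y * φ y) x v
      = χ x * fderiv ℝ φ x v + φ x * fderiv ℝ χ x v := by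
    intro x
    rw [fderiv_fun_mul ((hχ.differentiable (by simp)).differentiableAt)
      ((hφ.differentiable (by simp)).differentiableAt)]
    simp
  have key := hw (fun y => χ y * φ y) (hχ.mul hφ) (hχc.mul_right) v
  simp only [hp, mul_add] at key
  rw [integral_add i1 i2] at key
  have e1 : ∫ x, χ x * f x * fderiv ℝ φ x v = ∫ x, f x * (χ x * fderiv ℝ φ x v) :=
    integral_congr_ae (Eventually.of_forall fun x => by ring)
  have e2 : ∫ x, φ x * ⟪χ x • G x + f x • gradient χ x, v⟫
      = (∫ x, (χ x * φ x) * ⟪G x, v⟫) + ∫ x, f x * (φ x * fderiv ℝ χ x v) := by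
    rw [← integral_add i3 i2]
    refine integral_congr_ae (Eventually.of_forall fun x => ?_)
    simp only [inner_add_left, real_inner_smul_left, gradient,
      InnerProductSpace.toDual_symm_apply]
    ring
  rw [e1, e2]
  linarith

/-- Smooth compactly supported functions are dense in `W^{1,1}`. -/
theorem exists_smooth_approx {f : Eu d → ℝ} {G : Eu d → Eu d} (hf : Integrable f)
    (hG : Integrable G) (hw : IsWeakGrad f G) :
    ∃ F : ℕ → Eu d → ℝ, (∀ n, ContDiff ℝ ∞ (F n)) ∧ (∀ n, HasCompactSupport (F n)) ∧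
      Tendsto (fun n => ∫ x, |F n x - f x|) atTop (𝓝 0) ∧
      Tendsto (fun n => ∫ x, ‖gradient (F n) x - G x‖) atTop (𝓝 0) := by
  obtain ⟨C, hC0, hC⟩ := cutoff_gradient_bound (d := d)
  set f' : ℕ → Eu d → ℝ := fun n x => cutoff n x * f x with hf'
  set G' : ℕ → Eu d → Eu d := fun n x => cutoff n x • G x + f x • gradient (cutoff n) x with hG'
  have hgc : ∀ n, Continuous (gradient (cutoff (d := d) n)) := fun n =>
    (InnerProductSpace.toDual ℝ (Eu d)).symm.continuous.comp
      ((cutoff_contDiff n).continuous_fderiv (by simp))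
  have hf'i : ∀ n, Integrable (f' n) := fun n =>
    hf.bdd_mul (c := 1) (cutoff_contDiff n).continuous.aestronglyMeasurable
      (Eventually.of_forall fun x => cutoff_abs_le n x)
  have hG'i : ∀ n, Integrable (G' n) := fun n =>
    (hG.bdd_smul 1 (cutoff_contDiff n).continuous.aestronglyMeasurable
      (Eventually.of_forall fun x => cutoff_abs_le n x)).add
      (hf.smul_bdd (C / ((n : ℝ) + 1)) (hgc n).aestronglyMeasurable
        (Eventually.of_forall fun x => hC n x))
  have hf'c : ∀ n, HasCompactSupport (f' n) := fun n => (cutoff_hasCompactSupport n).mul_right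
  have hdiv : Tendsto (fun n : ℕ => C / ((n : ℝ) + 1)) atTop (𝓝 0) :=
    tendsto_const_nhds.div_atTop
      (tendsto_natCast_atTop_atTop.atTop_add tendsto_const_nhds)
  have hA : Tendsto (fun n => ∫ x, |f' n x - f x|) atTop (𝓝 0) := by
    have h := tendsto_integral_of_dominated_convergence (F := fun n x => |f' n x - f x|)
      (f := fun _ => (0 : ℝ)) (fun x => 2 * |f x|)
      (fun n => (((hf'i n).sub hf).norm.aestronglyMeasurable)) (hf.abs.const_mul 2)
      (fun n => Eventually.of_forall fun x => by
        rw [Real.norm_eq_abs, abs_abs]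
        calc |f' n x - f x| ≤ |f' n x| + |f x| := abs_sub _ _
          _ ≤ 1 * |f x| + |f x| := by
              rw [hf']; simp only [abs_mul]; gcongr; exact cutoff_abs_le n x
          _ = 2 * |f x| := by ring)
      (Eventually.of_forall fun x => by
        have := (((cutoff_tendsto x).mul_const (f x)).sub_const (f x)).abs
        simpa [hf'] using this)
    simpa using h
  have hB : Tendsto (fun n => ∫ x, ‖G' n x - G x‖) atTop (𝓝 0) := by
    have h := tendsto_integral_of_dominated_convergence (F := fun n x => ‖G' n x - G x‖)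
      (f := fun _ => (0 : ℝ)) (fun x => 2 * ‖G x‖ + C * |f x|)
      (fun n => (((hG'i n).sub hG).norm.aestronglyMeasurable))
      ((hG.norm.const_mul 2).add (hf.abs.const_mul C))
      (fun n => Eventually.of_forall fun x => by
        rw [norm_norm]
        calc ‖G' n x - G x‖ ≤ ‖G' n x‖ + ‖G x‖ := norm_sub_le _ _
          _ ≤ (‖cutoff n x • G x‖ + ‖f x • gradient (cutoff n) x‖) + ‖G x‖ := by
              gcongr; exact norm_add_le _ _
          _ ≤ (1 * ‖G x‖ + |f x| * C) + ‖G x‖ := by
              rw [norm_smul, norm_smul, Real.norm_eq_abs, Real.norm_eq_abs]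
              gcongr
              · exact cutoff_abs_le n x
              · exact (hC n x).trans (div_le_self hC0 (by
                  have : (0 : ℝ) ≤ n := n.cast_nonneg
                  linarith))
          _ = 2 * ‖G x‖ + C * |f x| := by ring)
      (Eventually.of_forall fun x => by
        have h1 := ((cutoff_tendsto x).smul_const (G x))
        have h2 : Tendsto (fun n => f x • gradient (cutoff n) x) atTop (𝓝 0) := by
          simpa using (squeeze_zero_norm (fun n => hC n x) hdiv).const_smul (f x)
        have := ((h1.add h2).sub_const (G x)).norm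
        simpa [hG'] using this)
    simpa using h
  have hk : ∀ n, ∀ m, Integrable (ker (d := d) m) ∧ ContDiff ℝ ∞ (moll (ker m) (f' n)) ∧
      gradient (moll (ker m) (f' n)) = moll (ker m) (G' n) := fun n m =>
    ⟨(ker_contDiff m).continuous.integrable_of_hasCompactSupport (ker_hasCompactSupport m),
      contDiff_moll (ker_contDiff m) (ker_hasCompactSupport m) (hf'i n),
      funext fun x => gradient_moll (ker_contDiff m) (ker_hasCompactSupport m) (hf'i n) (hG'i n)
        (hw.mul_smooth hf hG (cutoff_contDiff n) (cutoff_hasCompactSupport n)) x⟩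
  have hm : ∀ n : ℕ, ∃ m, ∫ x, |moll (ker m) (f' n) x - f' n x| ≤ 1 / ((n : ℝ) + 1) ∧
      ∫ x, ‖moll (ker m) (G' n) x - G' n x‖ ≤ 1 / ((n : ℝ) + 1) := fun n =>
    (((tendsto_integral_norm_moll_sub (hf'i n)).eventually_le_const
      (show (0 : ℝ) < 1 / ((n : ℝ) + 1) by positivity)).and
      ((tendsto_integral_norm_moll_sub (hG'i n)).eventually_le_const
      (show (0 : ℝ) < 1 / ((n : ℝ) + 1) by positivity))).exists
  choose m hm1 hm2 using hm
  refine ⟨fun n => moll (ker (m n)) (f' n), fun n => (hk n (m n)).2.1,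
    fun n => hasCompactSupport_moll (ker_hasCompactSupport _) (hf'c n), ?_, ?_⟩
  · refine squeeze_zero (g := fun n : ℕ => 1 / ((n : ℝ) + 1) + ∫ x, |f' n x - f x|)
      (fun n => integral_nonneg fun x => abs_nonneg _) (fun n => ?_)
      (by simpa using tendsto_one_div_add_atTop_nhds_zero_nat.add hA)
    have i1 : Integrable fun x => |moll (ker (m n)) (f' n) x - f' n x| :=
      ((integrable_moll (hk n (m n)).1 (hf'i n)).sub (hf'i n)).abs
    have i2 : Integrable fun x => |f' n x - f x| := ((hf'i n).sub hf).abs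
    calc ∫ x, |moll (ker (m n)) (f' n) x - f x|
        ≤ ∫ x, (|moll (ker (m n)) (f' n) x - f' n x| + |f' n x - f x|) :=
          integral_mono ((integrable_moll (hk n (m n)).1 (hf'i n)).sub hf).abs (i1.add i2)
            fun x => abs_sub_le _ _ _
      _ ≤ _ := by rw [integral_add i1 i2]; exact add_le_add_left (hm1 n) _
  · refine squeeze_zero (g := fun n : ℕ => 1 / ((n : ℝ) + 1) + ∫ x, ‖G' n x - G x‖)
      (fun n => integral_nonneg fun x => norm_nonneg _) (fun n => ?_)
      (by simpa using tendsto_one_div_add_atTop_nhds_zero_nat.add hB)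
    simp only [(hk n (m n)).2.2]
    have i1 : Integrable fun x => ‖moll (ker (m n)) (G' n) x - G' n x‖ :=
      ((integrable_moll (hk n (m n)).1 (hG'i n)).sub (hG'i n)).norm
    have i2 : Integrable fun x => ‖G' n x - G x‖ := ((hG'i n).sub hG).norm
    calc ∫ x, ‖moll (ker (m n)) (G' n) x - G x‖
        ≤ ∫ x, (‖moll (ker (m n)) (G' n) x - G' n x‖ + ‖G' n x - G x‖) :=
          integral_mono ((integrable_moll (hk n (m n)).1 (hG'i n)).sub hG).norm (i1.add i2)
            fun x => norm_sub_le_norm_sub_add_norm_sub _ _ _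
      _ ≤ _ := by rw [integral_add i1 i2]; exact add_le_add_left (hm2 n) _

end Vale.Agent.P137
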