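import Vale.Agent.P137.Defs

/-!
Basic properties of the truncated maximal functions `gmax`, `gn` and of `maxFn` (P137).
-/

open MeasureTheory Metric Set Filter
open scoped InnerProductSpace ENNReal Topology

noncomputable section

namespace Vale.Agent.P137.GmaxBasic

variable {d : ℕ} {f : E d → ℝ}

theorem δs_pos (n : ℕ) : 0 < δs n := by unfold δs; positivity

theorem δs_anti {m n : ℕ} (h : m ≤ n) : δs n ≤ δs m := by
  unfold δs
  exact one_div_le_one_div_of_le (by positivity) (by exact_mod_cast Nat.succ_le_succ h)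

theorem tendsto_δs : Tendsto δs atTop (𝓝 0) := tendsto_one_div_add_atTop_nhds_zero_nat

theorem vol_pos (c : E d) {r : ℝ} (hr : 0 < r) : 0 < (volume (closedBall c r)).toReal :=
  ENNReal.toReal_pos (measure_closedBall_pos volume c hr).ne' measure_closedBall_lt_top.ne

theorem vol_eq (c : E d) {r : ℝ} (hr : 0 ≤ r) :
    (volume (closedBall c r)).toReal = r ^ d * (volume (closedBall (0 : E d) 1)).toReal := by
  rw [Measure.addHaar_closedBall' volume c hr, finrank_euclideanSpace_fin, ENNReal.toReal_mul,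
    ENNReal.toReal_ofReal (pow_nonneg hr d)]

theorem avg_nonneg (h0 : ∀ y, 0 ≤ f y) (c : E d) (r : ℝ) : 0 ≤ avg f c r :=
  div_nonneg (integral_nonneg h0) ENNReal.toReal_nonneg

theorem avg_le_div (h0 : ∀ y, 0 ≤ f y) (hi : Integrable f) (c : E d) {r δ : ℝ} (hδ : 0 < δ)
    (hr : δ ≤ r) : avg f c r ≤ (∫ y, f y) / (volume (closedBall (0 : E d) δ)).toReal := by
  refine div_le_div₀ (integral_nonneg h0)
    (setIntegral_le_integral hi (Eventually.of_forall h0)) (vol_pos _ hδ) ?_
  rw [vol_eq c (hδ.le.trans hr), vol_eq (0 : E d) hδ.le]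
  exact mul_le_mul_of_nonneg_right (pow_le_pow_left₀ hδ.le hr d) ENNReal.toReal_nonneg

theorem bddAbove_avgs (h0 : ∀ y, 0 ≤ f y) (hi : Integrable f) {δ : ℝ} (hδ : 0 < δ) (x : E d) :
    BddAbove {a : ℝ | ∃ c r, δ ≤ r ∧ dist x c ≤ r ∧ a = avg f c r} := by
  refine ⟨(∫ y, f y) / (volume (closedBall (0 : E d) δ)).toReal, ?_⟩
  rintro a ⟨c, r, hr, -, rfl⟩
  exact avg_le_div h0 hi c hδ hr

theorem avgs_nonempty {δ : ℝ} (hδ : 0 < δ) (x : E d) :
    {a : ℝ | ∃ c r, δ ≤ r ∧ dist x c ≤ r ∧ a = avg f c r}.Nonempty :=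
  ⟨_, x, δ, le_rfl, by simp [hδ.le], rfl⟩

theorem avg_le_gmax (h0 : ∀ y, 0 ≤ f y) (hi : Integrable f) {δ : ℝ} (hδ : 0 < δ) {x c : E d}
    {r : ℝ} (hr : δ ≤ r) (hx : dist x c ≤ r) : avg f c r ≤ gmax f δ x :=
  le_csSup (bddAbove_avgs h0 hi hδ x) ⟨c, r, hr, hx, rfl⟩

theorem gmax_le {δ : ℝ} (hδ : 0 < δ) {x : E d} {a : ℝ}
    (h : ∀ c r, δ ≤ r → dist x c ≤ r → avg f c r ≤ a) : gmax f δ x ≤ a := by
  refine csSup_le (avgs_nonempty hδ x) ?_
  rintro b ⟨c, r, hr, hx, rfl⟩
  exact h c r hr hx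

theorem gmax_nonneg (h0 : ∀ y, 0 ≤ f y) (hi : Integrable f) {δ : ℝ} (hδ : 0 < δ) (x : E d) :
    0 ≤ gmax f δ x :=
  (avg_nonneg h0 x δ).trans (avg_le_gmax h0 hi hδ le_rfl (by simp [hδ.le]))

theorem gmax_le_div (h0 : ∀ y, 0 ≤ f y) (hi : Integrable f) {δ : ℝ} (hδ : 0 < δ) (x : E d) :
    gmax f δ x ≤ (∫ y, f y) / (volume (closedBall (0 : E d) δ)).toReal :=
  gmax_le hδ fun c _ hr _ => avg_le_div h0 hi c hδ hr

theorem gmax_anti (h0 : ∀ y, 0 ≤ f y) (hi : Integrable f) {δ δ' : ℝ} (hδ : 0 < δ) (h : δ ≤ δ')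
    (x : E d) : gmax f δ' x ≤ gmax f δ x :=
  gmax_le (hδ.trans_le h) fun _ _ hr hx => avg_le_gmax h0 hi hδ (h.trans hr) hx

theorem gn_mono (h0 : ∀ y, 0 ≤ f y) (hi : Integrable f) {m n : ℕ} (h : m ≤ n) (x : E d) :
    gn f m x ≤ gn f n x :=
  gmax_anti h0 hi (δs_pos n) (δs_anti h) x

theorem gn_nonneg (h0 : ∀ y, 0 ≤ f y) (hi : Integrable f) (n : ℕ) (x : E d) : 0 ≤ gn f n x :=
  gmax_nonneg h0 hi (δs_pos n) x

/-- Enlarging a ball loses at most the volume factor. -/
theorem avg_mul_le (h0 : ∀ y, 0 ≤ f y) (hi : Integrable f) (c : E d) {r r' : ℝ} (hr : 0 < r)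
    (hr' : r ≤ r') : avg f c r * (r / r') ^ d ≤ avg f c r' := by
  have hv := vol_pos (0 : E d) one_pos
  have hr'0 : 0 < r' := hr.trans_le hr'
  unfold avg
  rw [vol_eq c hr.le, vol_eq c hr'0.le, div_pow]
  have e : (∫ y in closedBall c r, f y) / (r ^ d * (volume (closedBall (0 : E d) 1)).toReal) *
      (r ^ d / r' ^ d) =
      (∫ y in closedBall c r, f y) / (r' ^ d * (volume (closedBall (0 : E d) 1)).toReal) := by
    field_simp
  rw [e]
  refine div_le_div_of_nonneg_right ?_ (by positivity)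
  exact setIntegral_mono_set hi.integrableOn (Eventually.of_forall h0)
    (closedBall_subset_closedBall hr').eventuallyLE

theorem gmax_lipschitz (h0 : ∀ y, 0 ≤ f y) (hi : Integrable f) {δ : ℝ} (hδ : 0 < δ) :
    ∃ K : NNReal, LipschitzWith K (gmax f δ) := by
  set M := (∫ y, f y) / (volume (closedBall (0 : E d) δ)).toReal with hM
  have hM0 : 0 ≤ M := div_nonneg (integral_nonneg h0) ENNReal.toReal_nonneg
  refine ⟨Real.toNNReal ((d : ℝ) * M / δ), LipschitzWith.of_le_add_mul' _ fun x y => ?_⟩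
  refine gmax_le hδ fun c r hr hx => ?_
  have hh : 0 ≤ dist x y := dist_nonneg
  have hr0 : 0 < r := hδ.trans_le hr
  set r' := r + dist x y with hr'
  have hr'0 : 0 < r' := by linarith
  have hy : dist y c ≤ r' := by linarith [dist_triangle_left y c x]
  have h1 : avg f c r' ≤ gmax f δ y := avg_le_gmax h0 hi hδ (by linarith) hy
  have h2 := avg_mul_le h0 hi c hr0 (show r ≤ r' by linarith)
  have e : r / r' = 1 + -(dist x y / r') := by field_simp; ring
  have hd' : dist x y / r' ≤ 1 := by rw [div_le_one hr'0]; linarith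
  have h3 : 1 - (d : ℝ) * (dist x y / r') ≤ (r / r') ^ d := by
    rw [e]
    have := one_add_mul_le_pow (show -2 ≤ -(dist x y / r') by linarith) d
    linarith
  have hA := avg_nonneg h0 c r
  have hAM : avg f c r ≤ M := avg_le_div h0 hi c hδ hr
  have h4 : avg f c r * (1 - (d : ℝ) * (dist x y / r')) ≤ gmax f δ y :=
    (mul_le_mul_of_nonneg_left h3 hA).trans (h2.trans h1)
  have h5 : dist x y / r' ≤ dist x y / δ := div_le_div_of_nonneg_left hh hδ (by linarith)
  have h6 : avg f c r * ((d : ℝ) * (dist x y / r')) ≤ M * ((d : ℝ) * (dist x y / δ)) :=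
    mul_le_mul hAM (mul_le_mul_of_nonneg_left h5 (Nat.cast_nonneg _))
      (mul_nonneg (Nat.cast_nonneg _) (div_nonneg hh hr'0.le)) hM0
  have h7 : (d : ℝ) * M / δ * dist x y = M * ((d : ℝ) * (dist x y / δ)) := by ring
  rw [h7]
  linarith [h4, h6]

theorem gn_lipschitz (h0 : ∀ y, 0 ≤ f y) (hi : Integrable f) (n : ℕ) :
    ∃ K : NNReal, LipschitzWith K (gn f n) :=
  gmax_lipschitz h0 hi (δs_pos n)

theorem continuous_gn (h0 : ∀ y, 0 ≤ f y) (hi : Integrable f) (n : ℕ) : Continuous (gn f n) :=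
  (gn_lipschitz h0 hi n).elim fun _ h => h.continuous

theorem measurable_gn (h0 : ∀ y, 0 ≤ f y) (hi : Integrable f) (n : ℕ) : Measurable (gn f n) :=
  (continuous_gn h0 hi n).measurable

theorem ae_differentiableAt_gn (h0 : ∀ y, 0 ≤ f y) (hi : Integrable f) (n : ℕ) :
    ∀ᵐ x : E d, DifferentiableAt ℝ (gn f n) x :=
  (gn_lipschitz h0 hi n).elim fun _ h => h.ae_differentiableAt

theorem continuousAt_avg (hi : Integrable f) {p : E d × ℝ} (hp : 0 < p.2) :
    ContinuousAt (fun q : E d × ℝ => avg f q.1 q.2) p := by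
  have hnum : ContinuousAt (fun q : E d × ℝ => ∫ y in closedBall q.1 q.2, f y) p := by
    simp only [← integral_indicator measurableSet_closedBall]
    refine continuousAt_of_dominated (bound := fun y => ‖f y‖)
      (Eventually.of_forall fun q => hi.aestronglyMeasurable.indicator measurableSet_closedBall)
      (Eventually.of_forall fun q => Eventually.of_forall fun y => norm_indicator_le_norm_self _ _)
      hi.norm ?_
    have hs : volume (sphere p.1 p.2) = 0 := Measure.addHaar_sphere_of_ne_zero volume _ hp.ne'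
    filter_upwards [measure_eq_zero_iff_ae_notMem.1 hs] with y hy
    have hc : Continuous fun q : E d × ℝ => dist y q.1 - q.2 := by fun_prop
    have hne : dist y p.1 - p.2 ≠ 0 := sub_ne_zero.2 (fun e => hy (mem_sphere.2 e))
    rcases lt_or_gt_of_ne hne with h | h
    · refine continuousAt_const.congr (f := fun _ => f y) ?_
      filter_upwards [hc.continuousAt.eventually_lt continuousAt_const h] with q hq
      exact (indicator_of_mem (mem_closedBall.2 (by linarith)) _).symm
    · refine continuousAt_const.congr (f := fun _ => (0 : ℝ)) ?_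
      filter_upwards [continuousAt_const.eventually_lt hc.continuousAt h] with q hq
      exact (indicator_of_notMem (by rw [mem_closedBall]; linarith) _).symm
  have hev : (fun q : E d × ℝ => avg f q.1 q.2) =ᶠ[𝓝 p] fun q =>
      (∫ y in closedBall q.1 q.2, f y) /
        (q.2 ^ d * (volume (closedBall (0 : E d) 1)).toReal) := by
    filter_upwards [continuousAt_const.eventually_lt continuous_snd.continuousAt hp] with q hq
    rw [avg, vol_eq _ hq.le]
  refine ContinuousAt.congr ?_ hev.symm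
  exact hnum.div ((continuous_snd.continuousAt.pow d).mul continuousAt_const)
    (mul_pos (pow_pos hp d) (vol_pos _ one_pos)).ne'

theorem exists_maximizer (hd : 0 < d) (h0 : ∀ y, 0 ≤ f y) (hi : Integrable f) {δ : ℝ}
    (hδ : 0 < δ) (x : E d) :
    ∃ c r, δ ≤ r ∧ dist x c ≤ r ∧ avg f c r = gmax f δ x := by
  rcases (gmax_nonneg h0 hi hδ x).eq_or_lt with hg | hg
  · refine ⟨x, δ, le_rfl, by simp [hδ.le], le_antisymm (avg_le_gmax h0 hi hδ le_rfl
      (by simp [hδ.le])) ?_⟩
    rw [← hg]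
    exact avg_nonneg h0 x δ
  set g := gmax f δ x
  set v := (volume (closedBall (0 : E d) 1)).toReal
  have hv : 0 < v := vol_pos _ one_pos
  set N := max (max δ 1) (2 * (∫ y, f y) / (v * g))
  have hN1 : δ ≤ N := (le_max_left _ _).trans (le_max_left _ _)
  set S : Set (E d × ℝ) := {q | δ ≤ q.2 ∧ q.2 ≤ N ∧ dist x q.1 ≤ q.2}
  have hScl : IsClosed S :=
    (isClosed_le continuous_const continuous_snd).inter
      ((isClosed_le continuous_snd continuous_const).inter
        (isClosed_le (continuous_const.dist continuous_fst) continuous_snd))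
  have hSc : IsCompact S :=
    ((isCompact_closedBall x N).prod (isCompact_Icc (a := δ) (b := N))).of_isClosed_subset hScl
      fun q hq => ⟨mem_closedBall.2 (by rw [dist_comm]; exact hq.2.2.trans hq.2.1), hq.1, hq.2.1⟩
  have hne : S.Nonempty := ⟨(x, δ), le_rfl, hN1, by simp [hδ.le]⟩
  obtain ⟨q, hq, hmax⟩ := hSc.exists_isMaxOn hne
    (fun q hq => (continuousAt_avg hi (hδ.trans_le hq.1)).continuousWithinAt :
      ContinuousOn (fun q : E d × ℝ => avg f q.1 q.2) S)
  refine ⟨q.1, q.2, hq.1, hq.2.2, le_antisymm (avg_le_gmax h0 hi hδ hq.1 hq.2.2) ?_⟩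
  have hsup : g ≤ max (avg f q.1 q.2) (g / 2) := by
    refine gmax_le hδ fun c r hr hx => ?_
    by_cases hrN : r ≤ N
    · exact le_max_of_le_left (isMaxOn_iff.1 hmax (c, r) ⟨hr, hrN, hx⟩)
    refine le_max_of_le_right ?_
    have hrN' : N ≤ r := (not_le.1 hrN).le
    have hr1 : 1 ≤ r := ((le_max_right δ 1).trans (le_max_left _ _)).trans hrN'
    have hI : 2 * (∫ y, f y) ≤ r * (v * g) :=
      (div_le_iff₀ (mul_pos hv hg)).1 ((le_max_right _ _).trans hrN')
    have hpow : r ≤ r ^ d := le_self_pow₀ hr1 hd.ne'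
    rw [avg, vol_eq c (zero_le_one.trans hr1), div_le_iff₀ (mul_pos (by positivity) hv)]
    have hmul : r * (v * g) ≤ r ^ d * (v * g) :=
      mul_le_mul_of_nonneg_right hpow (mul_nonneg hv.le hg.le)
    have hint := setIntegral_le_integral (s := closedBall c r) hi (Eventually.of_forall h0)
    linarith
  rcases le_max_iff.1 hsup with h | h
  · exact h
  · linarith

theorem exists_maximizer_gn (hd : 0 < d) (h0 : ∀ y, 0 ≤ f y) (hi : Integrable f) (n : ℕ)
    (x : E d) : ∃ c r, δs n ≤ r ∧ dist x c ≤ r ∧ avg f c r = gn f n x :=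
  exists_maximizer hd h0 hi (δs_pos n) x

theorem ofReal_avg (h0 : ∀ y, 0 ≤ f y) (hi : Integrable f) (c : E d) {r : ℝ} (hr : 0 < r) :
    ENNReal.ofReal (avg f c r) =
      (∫⁻ y in ball c r, ENNReal.ofReal |f y|) / volume (ball c r) := by
  have he : ball c r =ᵐ[volume] closedBall c r := by
    refine ae_eq_set.2 ⟨by simp [sdiff_eq_empty.2 ball_subset_closedBall], ?_⟩
    rw [closedBall_sdiff_ball]
    exact Measure.addHaar_sphere_of_ne_zero volume c hr.ne'
  rw [avg, ENNReal.ofReal_div_of_pos (vol_pos c hr),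
    ENNReal.ofReal_toReal measure_closedBall_lt_top.ne,
    ofReal_integral_eq_lintegral_ofReal hi.integrableOn (Eventually.of_forall h0),
    setLIntegral_congr he, measure_congr he]
  simp only [fun y => abs_of_nonneg (h0 y)]

theorem maxFn_congr {g : E d → ℝ} (h : (fun x => |f x|) =ᵐ[volume] fun x => |g x|) :
    maxFn f = maxFn g := by
  funext x
  unfold maxFn
  refine iSup_congr fun c => iSup_congr fun r => iSup_congr fun _ => ?_
  congr 1
  refine lintegral_congr_ae (ae_restrict_of_ae ?_)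
  filter_upwards [h] with y hy
  rw [hy]

/-- The maximal function is the increasing limit of the `gn`. -/
theorem maxFn_eq_iSup (h0 : ∀ y, 0 ≤ f y) (hi : Integrable f) (x : E d) :
    maxFn f x = ⨆ n, ENNReal.ofReal (gn f n x) := by
  refine le_antisymm ?_ ?_
  · refine iSup_le fun c => iSup_le fun r => iSup_le fun hx => ?_
    have hr : 0 < r := dist_nonneg.trans_lt (mem_ball.1 hx)
    obtain ⟨n, hn⟩ := ((tendsto_δs.eventually_le_const hr)).exists
    rw [← ofReal_avg h0 hi c hr]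
    exact le_iSup_of_le n
      (ENNReal.ofReal_le_ofReal (avg_le_gmax h0 hi (δs_pos n) hn (mem_ball.1 hx).le))
  · refine iSup_le fun n => ?_
    rcases eq_or_ne (maxFn f x) ⊤ with htop | htop
    · rw [htop]; exact le_top
    refine ENNReal.ofReal_le_of_le_toReal (gmax_le (δs_pos n) fun c r hr hx => ?_)
    have hr0 : 0 < r := (δs_pos n).trans_le hr
    have key : ∀ k : ℕ, avg f c r * (r / (r + δs k)) ^ d ≤ (maxFn f x).toReal := by
      intro k
      have hk := δs_pos k
      refine (avg_mul_le h0 hi c hr0 (by linarith)).trans ?_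
      refine (ENNReal.ofReal_le_iff_le_toReal htop).1 ?_
      rw [ofReal_avg h0 hi c (by linarith)]
      exact le_iSup_of_le c (le_iSup_of_le (r + δs k)
        (le_iSup_of_le (mem_ball.2 (by linarith)) le_rfl))
    have hlim : Tendsto (fun k => avg f c r * (r / (r + δs k)) ^ d) atTop (𝓝 (avg f c r)) := by
      have h1 : Tendsto (fun k => r / (r + δs k)) atTop (𝓝 1) := by
        have := (tendsto_const_nhds (x := r)).div (tendsto_δs.const_add r)
          (by rw [add_zero]; exact hr0.ne')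
        rwa [add_zero, div_self hr0.ne'] at this
      simpa using (h1.pow d).const_mul (avg f c r)
    exact le_of_tendsto' hlim key

theorem ofReal_gn_le_maxFn (h0 : ∀ y, 0 ≤ f y) (hi : Integrable f) (n : ℕ) (x : E d) :
    ENNReal.ofReal (gn f n x) ≤ maxFn f x :=
  (maxFn_eq_iSup h0 hi x).symm ▸ le_iSup (fun n => ENNReal.ofReal (gn f n x)) n

theorem measurable_maxFn (h0 : ∀ y, 0 ≤ f y) (hi : Integrable f) : Measurable (maxFn f) := by
  rw [funext (maxFn_eq_iSup h0 hi)]
  exact .iSup fun n => (measurable_gn h0 hi n).ennreal_ofReal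

theorem gn_le_toReal (h0 : ∀ y, 0 ≤ f y) (hi : Integrable f) {x : E d} (h : maxFn f x ≠ ⊤)
    (n : ℕ) : gn f n x ≤ (maxFn f x).toReal :=
  (ENNReal.ofReal_le_iff_le_toReal h).1 (ofReal_gn_le_maxFn h0 hi n x)

theorem tendsto_gn_toReal (h0 : ∀ y, 0 ≤ f y) (hi : Integrable f) {x : E d}
    (h : maxFn f x ≠ ⊤) :
    Tendsto (fun n => gn f n x) atTop (𝓝 (maxFn f x).toReal) := by
  have hb : BddAbove (range fun n => gn f n x) :=
    ⟨_, forall_mem_range.2 fun n => gn_le_toReal h0 hi h n⟩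
  have hm : Monotone fun n => gn f n x := fun m n hmn => gn_mono h0 hi hmn x
  have h1 := tendsto_atTop_ciSup hm hb
  have h2 : Tendsto (fun n => ENNReal.ofReal (gn f n x)) atTop (𝓝 (maxFn f x)) := by
    rw [maxFn_eq_iSup h0 hi x]
    exact tendsto_atTop_iSup fun m n hmn => ENNReal.ofReal_le_ofReal (hm hmn)
  have h3 := tendsto_nhds_unique h2 (ENNReal.tendsto_ofReal h1)
  have h4 : (maxFn f x).toReal = ⨆ n, gn f n x := by
    rw [h3]
    exact ENNReal.toReal_ofReal ((gn_nonneg h0 hi 0 x).trans (le_ciSup hb 0))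
  rwa [h4]

/-- At almost every point, `f ≤ maxFn f < ∞`, and the supremum is attained by some `gn` if the
inequality is strict. -/
theorem ae_maxFn (h0 : ∀ y, 0 ≤ f y) (hi : Integrable f) :
    ∀ᵐ x : E d, maxFn f x ≠ ⊤ ∧ f x ≤ (maxFn f x).toReal ∧
      (f x < (maxFn f x).toReal → ∃ N, ∀ n, N ≤ n → gn f n x = (maxFn f x).toReal) := by
  filter_upwards [IsUnifLocDoublingMeasure.ae_tendsto_average (μ := (volume : Measure (E d)))
    hi.locallyIntegrable 1] with x hx
  have hT : ∀ (w : ℕ → E d) (ρ : ℕ → ℝ), (∀ k, 0 < ρ k) → Tendsto ρ atTop (𝓝 0) →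
      (∀ k, dist x (w k) ≤ ρ k) → Tendsto (fun k => avg f (w k) (ρ k)) atTop (𝓝 (f x)) := by
    intro w ρ hp hl hd'
    refine (hx w ρ (tendsto_nhdsWithin_iff.2 ⟨hl, Eventually.of_forall hp⟩)
      (Eventually.of_forall fun k => by simpa using hd' k)).congr fun k => ?_
    rw [setAverage_eq, smul_eq_mul, avg, div_eq_inv_mul]
    rfl
  have hsmall : ∀ ε : ℝ, 0 < ε →
      ∃ ρ : ℝ, 0 < ρ ∧ ∀ c r, 0 < r → r < ρ → dist x c ≤ r → avg f c r ≤ f x + ε := by
    intro ε hε
    by_contra hcon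
    push Not at hcon
    choose w ρ hp hlt hd' hbig using fun k : ℕ => hcon (δs k) (δs_pos k)
    have hl : Tendsto ρ atTop (𝓝 0) := squeeze_zero (fun k => (hp k).le) (fun k => (hlt k).le)
      tendsto_δs
    have := le_of_tendsto_of_tendsto' tendsto_const_nhds (hT w ρ hp hl hd')
      (fun k => (hbig k).le)
    linarith
  have hsplit : ∀ ε : ℝ, 0 < ε → ∃ m, ∀ n, gn f n x ≤ max (f x + ε) (gn f m x) := by
    intro ε hε
    obtain ⟨ρ, hρ, hb⟩ := hsmall ε hε
    obtain ⟨m, hm⟩ := (tendsto_δs.eventually_le_const hρ).exists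
    refine ⟨m, fun n => gmax_le (δs_pos n) fun c r hr hxc => ?_⟩
    rcases lt_or_ge r ρ with h | h
    · exact le_max_of_le_left (hb c r ((δs_pos n).trans_le hr) h hxc)
    · exact le_max_of_le_right (avg_le_gmax h0 hi (δs_pos m) (hm.trans h) hxc)
  have htop : maxFn f x ≠ ⊤ := by
    obtain ⟨m, hm⟩ := hsplit 1 one_pos
    refine ne_top_of_le_ne_top (ENNReal.ofReal_ne_top (r := max (f x + 1) (gn f m x))) ?_
    rw [maxFn_eq_iSup h0 hi x]
    exact iSup_le fun n => ENNReal.ofReal_le_ofReal (hm n)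
  refine ⟨htop, ?_, fun hlt => ?_⟩
  · exact le_of_tendsto_of_tendsto'
      (hT (fun _ => x) δs δs_pos tendsto_δs fun k => by simp [(δs_pos k).le])
      (tendsto_gn_toReal h0 hi htop)
      fun k => avg_le_gmax h0 hi (δs_pos k) le_rfl (by simp [(δs_pos k).le])
  · set b := (maxFn f x).toReal
    obtain ⟨m, hm⟩ := hsplit ((b - f x) / 2) (by linarith)
    have hb : b ≤ max (f x + (b - f x) / 2) (gn f m x) :=
      le_of_tendsto' (tendsto_gn_toReal h0 hi htop) hm
    have hgm : b ≤ gn f m x := by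
      rcases le_max_iff.1 hb with h | h
      · linarith
      · exact h
    exact ⟨m, fun n hn =>
      le_antisymm (gn_le_toReal h0 hi htop n) (hgm.trans (gn_mono h0 hi hn x))⟩

end Vale.Agent.P137.GmaxBasic
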