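import Vale.Agent.P137.Defs

/-!
Weak gradients and a Poincare bound for functions which are absolutely continuous on almost
all lines (P137).
-/

open MeasureTheory Metric Set Filter
open scoped InnerProductSpace ENNReal Topology

noncomputable section

namespace Vale.Agent.P137.LineTools

variable {d : ℕ}

/-- A function dominated in oscillation by an absolutely continuous one is absolutely
continuous. -/
theorem ac_of_dist_le {h u : ℝ → ℝ} {a b : ℝ} (hh : AbsolutelyContinuousOnInterval h a b)
    (hle : ∀ s t, dist (u s) (u t) ≤ dist (h s) (h t)) :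
    AbsolutelyContinuousOnInterval u a b := by
  rw [absolutelyContinuousOnInterval_iff] at hh ⊢
  intro ε hε
  obtain ⟨δ, hδ, hd'⟩ := hh ε hε
  exact ⟨δ, hδ, fun E hE hsum =>
    lt_of_le_of_lt (Finset.sum_le_sum fun i _ => hle _ _) (hd' E hE hsum)⟩

theorem ac_const (c a b : ℝ) : AbsolutelyContinuousOnInterval (fun _ => c) a b :=
  (LipschitzWith.const c).lipschitzOnWith.absolutelyContinuousOnInterval

theorem ac_max {p q : ℝ → ℝ} {a b : ℝ} (hp : AbsolutelyContinuousOnInterval p a b)
    (hq : AbsolutelyContinuousOnInterval q a b) :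
    AbsolutelyContinuousOnInterval (fun t => max (p t) (q t)) a b := by
  have h : AbsolutelyContinuousOnInterval (fun t => max (p t - q t) 0) a b :=
    ac_of_dist_le (hp.sub hq) fun s t => by
      simp only [Real.dist_eq, Pi.sub_apply]
      exact abs_max_sub_max_le_abs _ _ _
  have he : (fun t => max (p t) (q t)) = (q + fun t => max (p t - q t) 0) := by
    funext t
    simp [← max_add_add_left]
  rw [he]
  exact hq.add h

/-- Absolute continuity and derivative of a primitive. -/
theorem ac_primitive {u w : ℝ → ℝ} (hi : IntervalIntegrable w volume 0 1)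
    (he : ∀ t, u t - u 0 = ∫ s in (0 : ℝ)..t, w s) :
    AbsolutelyContinuousOnInterval u 0 1 ∧
      ∀ᵐ t, t ∈ uIcc (0 : ℝ) 1 → HasDerivAt u (w t) t := by
  have hu : u = (fun _ => u 0) + fun t => ∫ s in (0 : ℝ)..t, w s := by
    funext t
    simp only [Pi.add_apply, ← he t]
    ring
  refine ⟨?_, ?_⟩
  · rw [hu]
    exact (ac_const _ _ _).add
      (hi.absolutelyContinuousOnInterval_intervalIntegral left_mem_uIcc)
  · filter_upwards [hi.ae_hasDerivAt_integral] with t ht htm
    have := (ht htm 0 left_mem_uIcc).const_add (u 0)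
    rw [hu]
    exact this

/-- The derivative of a maximum. -/
theorem hasDerivAt_max {p q : ℝ → ℝ} {p' q' t : ℝ} (hp : HasDerivAt p p' t)
    (hq : HasDerivAt q q' t) (hm : DifferentiableAt ℝ (fun s => max (p s) (q s)) t) :
    HasDerivAt (fun s => max (p s) (q s)) (if q t < p t then p' else q') t := by
  split_ifs with h
  · refine hp.congr_of_eventuallyEq ?_
    filter_upwards [hq.continuousAt.eventually_lt hp.continuousAt h] with s hs
    exact max_eq_left hs.le
  · have hd1 := hm.hasDerivAt.sub hq
    have hmin : IsLocalMin ((fun s => max (p s) (q s)) - q) t := by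
      refine Eventually.of_forall fun s => ?_
      simp only [Pi.sub_apply]
      rw [max_eq_right (not_lt.1 h), sub_self]
      exact sub_nonneg.2 (le_max_right _ _)
    have := hmin.hasDerivAt_eq_zero hd1
    rw [← sub_eq_zero.1 this]
    exact hm.hasDerivAt

/-- `G` is absolutely continuous on almost all segments `x + [0,1] v`, with derivative `DG`. -/
def LinesAC (G : E d → ℝ) (DG : E d → E d) : Prop :=
  ∀ v : E d, ∀ᵐ x : E d, AbsolutelyContinuousOnInterval (fun t : ℝ => G (x + t • v)) 0 1 ∧
    ∀ᵐ t : ℝ, t ∈ uIcc (0 : ℝ) 1 →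
      HasDerivAt (fun t : ℝ => G (x + t • v)) ⟪DG (x + t • v), v⟫_ℝ t

theorem ae_line {p : E d → Prop} (hm : MeasurableSet {y | p y}) (h : ∀ᵐ y : E d, p y)
    (v : E d) : ∀ᵐ x : E d, ∀ᵐ t : ℝ, p (x + t • v) := by
  have hc : MeasurableSet {z : E d × ℝ | p (z.1 + z.2 • v)} :=
    (show Measurable fun z : E d × ℝ => z.1 + z.2 • v by fun_prop) hm
  refine (Measure.ae_ae_comm hc).2 (Eventually.of_forall fun t => ?_)
  exact (measurePreserving_add_right volume (t • v)).quasiMeasurePreserving.ae h

theorem lintegral_line {q : E d → ℝ≥0∞} (hq : Measurable q) (v : E d) :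
    ∫⁻ x, ∫⁻ t in Ioc (0 : ℝ) 1, q (x + t • v) = ∫⁻ x, q x := by
  have hm : Measurable (Function.uncurry fun (x : E d) (t : ℝ) => q (x + t • v)) :=
    hq.comp (show Measurable fun z : E d × ℝ => z.1 + z.2 • v by fun_prop)
  rw [lintegral_lintegral_swap hm.aemeasurable]
  simp [lintegral_add_right_eq_self q]

theorem integral_line {q : E d → ℝ} (hq : Measurable q) (hi : Integrable q) (v : E d) :
    ∫ x, ∫ t in Ioc (0 : ℝ) 1, q (x + t • v) = ∫ x, q x := by
  have hm : Measurable fun z : E d × ℝ => q (z.1 + z.2 • v) := hq.comp (by fun_prop)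
  have hI : Integrable (fun z : E d × ℝ => q (z.1 + z.2 • v))
      (volume.prod (volume.restrict (Ioc (0 : ℝ) 1))) := by
    refine ⟨hm.aestronglyMeasurable, ?_⟩
    rw [hasFiniteIntegral_iff_enorm, lintegral_prod _ hm.enorm.aemeasurable,
      lintegral_line hq.enorm v]
    exact hi.hasFiniteIntegral
  rw [integral_integral_swap hI]
  simp [integral_add_right_eq_self q]

variable {G : E d → ℝ} {DG : E d → E d}

theorem weakGrad (hGm : Measurable G) (hDm : Measurable DG) (hG : LocallyIntegrable G volume)
    (hD : Integrable DG) (hl : LinesAC G DG) : HasWeakGrad G DG := by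
  intro φ hφ hφc v
  have hφ1 : ContDiff ℝ 1 φ := hφ.of_le (by exact_mod_cast le_top)
  have hcd : Continuous fun x => fderiv ℝ φ x v :=
    (hφ.continuous_fderiv (by simp)).clm_apply continuous_const
  have hA : Integrable fun x => G x * fderiv ℝ φ x v :=
    hG.integrable_smul_right_of_hasCompactSupport hcd (hφc.fderiv_apply ℝ v)
  obtain ⟨Cφ, hCφ⟩ := hφc.exists_bound_of_continuous hφ.continuous
  have hDv : Integrable fun x => ⟪DG x, v⟫_ℝ := hD.inner_const v
  have hB : Integrable fun x => ⟪DG x, v⟫_ℝ * φ x :=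
    hDv.mul_bdd hφ.continuous.aestronglyMeasurable (Eventually.of_forall hCφ)
  have hP : Integrable fun x => G x * φ x :=
    hG.integrable_smul_right_of_hasCompactSupport hφ.continuous hφc
  have hqm : Measurable fun x => ⟪DG x, v⟫_ℝ * φ x + G x * fderiv ℝ φ x v :=
    ((hDm.inner measurable_const).mul hφ.continuous.measurable).add (hGm.mul hcd.measurable)
  have key : ∀ᵐ x : E d, (G (x + v) * φ (x + v) - G x * φ x) =
      ∫ t in Ioc (0 : ℝ) 1, (⟪DG (x + t • v), v⟫_ℝ * φ (x + t • v) +
        G (x + t • v) * fderiv ℝ φ (x + t • v) v) := by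
    filter_upwards [hl v] with x hx
    have hφl : ContDiff ℝ 1 fun t : ℝ => φ (x + t • v) := hφ1.comp (by fun_prop)
    have hprod := hx.1.fun_mul
      (hφl.contDiffOn.absolutelyContinuousOnInterval (a := (0 : ℝ)) (b := 1))
    have h := hprod.integral_deriv_eq_sub
    simp only [one_smul, zero_smul, add_zero] at h
    rw [← h, intervalIntegral.integral_of_le zero_le_one]
    refine setIntegral_congr_ae measurableSet_Ioc ?_
    filter_upwards [hx.2] with t ht htm
    have h1 : HasDerivAt (fun t : ℝ => x + t • v) v t := by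
      simpa using ((hasDerivAt_id t).smul_const v).const_add x
    have h2 : HasDerivAt (fun t : ℝ => φ (x + t • v)) (fderiv ℝ φ (x + t • v) v) t :=
      ((hφ1.differentiable one_ne_zero _).hasFDerivAt).comp_hasDerivAt t h1
    exact ((ht (Ioc_subset_Icc_self.trans Icc_subset_uIcc htm)).mul h2).deriv
  have h0 : ∫ x, (G (x + v) * φ (x + v) - G x * φ x) = 0 := by
    rw [integral_sub (hP.comp_add_right v) hP,
      integral_add_right_eq_self (fun x => G x * φ x) v, sub_self]
  rw [integral_congr_ae key, integral_line hqm (hB.add hA) v, integral_add hB hA] at h0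
  linarith

theorem enorm_diff_le (hl : LinesAC G DG) (v : E d) :
    ∀ᵐ x : E d, ‖G (x + v) - G x‖ₑ ≤ ∫⁻ t in Ioc (0 : ℝ) 1, ‖DG (x + t • v)‖ₑ * ‖v‖ₑ := by
  filter_upwards [hl v] with x hx
  have h := hx.1.integral_deriv_eq_sub
  simp only [one_smul, zero_smul, add_zero] at h
  rw [← h, intervalIntegral.integral_of_le zero_le_one]
  refine (enorm_integral_le_lintegral_enorm _).trans (lintegral_mono_ae ?_)
  rw [ae_restrict_iff' measurableSet_Ioc]
  filter_upwards [hx.2] with t ht htm
  rw [(ht (Ioc_subset_Icc_self.trans Icc_subset_uIcc htm)).deriv, ← ofReal_norm, ← ofReal_norm,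
    ← ofReal_norm, ← ENNReal.ofReal_mul (norm_nonneg _)]
  exact ENNReal.ofReal_le_ofReal (norm_inner_le_norm _ _)

theorem poincare (hGm : Measurable G) (hDm : Measurable DG) (hl : LinesAC G DG) (r : ℝ) :
    ∫⁻ x in closedBall (0 : E d) r, ∫⁻ y in closedBall (0 : E d) r, ‖G y - G x‖ₑ
      ≤ volume (closedBall (0 : E d) (2 * r)) * ENNReal.ofReal (2 * r) * ∫⁻ x, ‖DG x‖ₑ := by
  set B := closedBall (0 : E d) r
  set B2 := closedBall (0 : E d) (2 * r)
  have hm : Measurable fun z : E d × E d => ‖G (z.1 + z.2) - G z.1‖ₑ :=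
    ((hGm.comp measurable_add).sub (hGm.comp measurable_fst)).enorm
  calc ∫⁻ x in B, ∫⁻ y in B, ‖G y - G x‖ₑ
      ≤ ∫⁻ x in B, ∫⁻ v in B2, ‖G (x + v) - G x‖ₑ := by
        refine setLIntegral_mono' measurableSet_closedBall fun x hx => ?_
        rw [← lintegral_indicator measurableSet_closedBall,
          ← lintegral_indicator measurableSet_closedBall,
          ← lintegral_add_left_eq_self _ x]
        refine lintegral_mono fun v => ?_
        by_cases hv : x + v ∈ B
        · have hv2 : v ∈ B2 := by
            rw [mem_closedBall_zero_iff] at hx hv ⊢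
            have := norm_sub_le (x + v) x
            rw [add_sub_cancel_left] at this
            linarith
          rw [indicator_of_mem hv, indicator_of_mem hv2]
        · rw [indicator_of_notMem hv]
          exact zero_le
    _ ≤ ∫⁻ x, ∫⁻ v in B2, ‖G (x + v) - G x‖ₑ := setLIntegral_le_lintegral _ _
    _ = ∫⁻ v in B2, ∫⁻ x, ‖G (x + v) - G x‖ₑ := lintegral_lintegral_swap hm.aemeasurable
    _ ≤ ∫⁻ _v in B2, ENNReal.ofReal (2 * r) * ∫⁻ x, ‖DG x‖ₑ := by
        refine setLIntegral_mono' measurableSet_closedBall fun v hv => ?_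
        refine (lintegral_mono_ae (enorm_diff_le hl v)).trans ?_
        rw [lintegral_line (hDm.enorm.mul_const _) v, lintegral_mul_const _ hDm.enorm, mul_comm]
        refine mul_le_mul' ?_ le_rfl
        rw [← ofReal_norm]
        exact ENNReal.ofReal_le_ofReal (mem_closedBall_zero_iff.1 hv)
    _ = _ := by rw [setLIntegral_const]; ring

end Vale.Agent.P137.LineTools
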