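import Vale.Agent.P137.Defs
import Vale.Agent.P137.GmaxBasic
import Vale.Agent.P137.LineTools

/-!
Assembly of P137: from the representative and the two gradient majorants to the endpoint
Sobolev bound for the uncentred maximal function.
-/

open MeasureTheory Metric Set Filter
open scoped InnerProductSpace ENNReal Topology

noncomputable section

namespace Vale.Agent.P137

namespace Assembly

open GmaxBasic LineTools

variable {d : ℕ} (R : Rep d)

/-- The glued derivative. -/
def DG (n : ℕ) (x : E d) : E d :=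
  if R.f x < gn R.f n x then gradient (gn R.f n) x else R.D x

/-- The glued function. -/
def Gm (n : ℕ) (x : E d) : ℝ := max (gn R.f n x) (R.f x)

/-- The limit function. -/
def lim (x : E d) : ℝ := (maxFn R.f x).toReal

theorem gn0 (n : ℕ) (x : E d) : 0 ≤ gn R.f n x := gn_nonneg R.nonneg R.int_f n x

theorem measurable_gm (n : ℕ) : Measurable (gn R.f n) := measurable_gn R.nonneg R.int_f n

theorem measurable_Gm (n : ℕ) : Measurable (Gm R n) := (measurable_gm R n).max R.meas_f

theorem measurable_lim : Measurable (lim R) :=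
  (measurable_maxFn R.nonneg R.int_f).ennreal_toReal

theorem measurable_DG (n : ℕ) : Measurable (DG R n) :=
  Measurable.ite (measurableSet_lt R.meas_f (measurable_gm R n))
    ((InnerProductSpace.toDual ℝ (E d)).symm.continuous.measurable.comp (measurable_fderiv ℝ _))
    R.meas_D

theorem enorm_gradient (g : E d → ℝ) (x : E d) : ‖gradient g x‖ₑ = ‖fderiv ℝ g x‖ₑ := by
  rw [← ofReal_norm, ← ofReal_norm, gradient, LinearIsometryEquiv.norm_map]

theorem locInt_Gm (n : ℕ) : LocallyIntegrable (Gm R n) volume := by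
  refine (R.int_f.locallyIntegrable.add
    (continuous_gn R.nonneg R.int_f n).locallyIntegrable).mono
    (measurable_Gm R n).aestronglyMeasurable (Eventually.of_forall fun x => ?_)
  have h1 := R.nonneg x
  have h2 := gn0 R n x
  simp only [Pi.add_apply, Gm, Real.norm_eq_abs]
  rw [abs_of_nonneg (le_max_of_le_right h1), abs_of_nonneg (by linarith)]
  exact max_le (by linarith) (by linarith)

theorem linesAC_Gm (n : ℕ) : LinesAC (Gm R n) (DG R n) := by
  intro v
  obtain ⟨K, hK⟩ := gn_lipschitz R.nonneg R.int_f n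
  filter_upwards [R.ae_good v, ae_line (measurableSet_of_differentiableAt ℝ (gn R.f n))
    (ae_differentiableAt_gn R.nonneg R.int_f n) v] with x hgood hdiff
  obtain ⟨-, hbint⟩ := R.lineGood x v hgood
  obtain ⟨hbac, hbder⟩ := ac_primitive (u := fun t : ℝ => R.f (x + t • v)) (hbint 0 1).1
    fun t => (hbint 0 t).2
  have hline : ∀ t : ℝ, HasDerivAt (fun t : ℝ => x + t • v) v t := fun t => by
    simpa using ((hasDerivAt_id t).smul_const v).const_add x
  have hlip : LipschitzWith (K * ‖v‖₊) fun t : ℝ => gn R.f n (x + t • v) := by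
    refine hK.comp (LipschitzWith.of_dist_le_mul fun s t => ?_)
    rw [dist_eq_norm, add_sub_add_left_eq_sub, ← sub_smul, norm_smul, Real.dist_eq,
      Real.norm_eq_abs, coe_nnnorm, mul_comm]
  have hM := ac_max (hlip.lipschitzOnWith.absolutelyContinuousOnInterval (a := (0 : ℝ)) (b := 1))
    hbac
  refine ⟨hM, ?_⟩
  filter_upwards [hM.ae_differentiableAt, hbder, hdiff] with t ht1 ht2 ht3 htm
  have hg' : HasDerivAt (fun t : ℝ => gn R.f n (x + t • v))
      ⟪gradient (gn R.f n) (x + t • v), v⟫_ℝ t := by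
    rw [gradient, InnerProductSpace.toDual_symm_apply]
    exact ht3.hasFDerivAt.comp_hasDerivAt t (hline t)
  have h := hasDerivAt_max hg' (ht2 htm) (ht1 htm)
  have e : (if R.f (x + t • v) < gn R.f n (x + t • v)
      then ⟪gradient (gn R.f n) (x + t • v), v⟫_ℝ else ⟪R.D (x + t • v), v⟫_ℝ)
      = ⟪DG R n (x + t • v), v⟫_ℝ := by
    unfold DG
    split_ifs <;> rfl
  rw [← e]
  exact h

/-- Where the truncation does not matter, neither does it for the derivative. -/
theorem DG_eq {n J : ℕ} (hJn : J ≤ n) {x : E d} (hn : DifferentiableAt ℝ (gn R.f n) x)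
    (hJ : DifferentiableAt ℝ (gn R.f J) x)
    (h : ¬(gn R.f J x < gn R.f n x ∧ R.f x < gn R.f n x)) : DG R n x = DG R J x := by
  have hle := gn_mono R.nonneg R.int_f hJn x
  rcases hle.lt_or_eq with hlt | heq
  · have hf : gn R.f n x ≤ R.f x := not_lt.1 fun hf => h ⟨hlt, hf⟩
    unfold DG
    rw [if_neg hf.not_gt, if_neg (hlt.le.trans hf).not_gt]
  · have hmin : IsLocalMin (fun y => gn R.f n y - gn R.f J y) x :=
      Eventually.of_forall fun y => by
        simp only [heq, sub_self]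
        exact sub_nonneg.2 (gn_mono R.nonneg R.int_f hJn y)
    have h0 := hmin.hasFDerivAt_eq_zero (hn.hasFDerivAt.sub hJ.hasFDerivAt)
    unfold DG gradient
    rw [heq, sub_eq_zero.1 h0]

theorem tendsto_Gm {x : E d} (htop : maxFn R.f x ≠ ⊤) (hf : R.f x ≤ lim R x) :
    Tendsto (fun n => Gm R n x) atTop (𝓝 (lim R x)) := by
  have h := (tendsto_gn_toReal R.nonneg R.int_f htop).max (tendsto_const_nhds (x := R.f x))
  rwa [show max (maxFn R.f x).toReal (R.f x) = lim R x from max_eq_left hf] at h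

/-- Points where the truncation at `J` matters. -/
def bad (J : ℕ) : Set (E d) := {x | gn R.f J x < lim R x ∧ R.f x < lim R x}

theorem measurableSet_bad (J : ℕ) : MeasurableSet (bad R J) :=
  (measurableSet_lt (measurable_gm R J) (measurable_lim R)).inter
    (measurableSet_lt R.meas_f (measurable_lim R))

/-- What the two majorant modules give together. -/
theorem combined (hd : 0 < d) {θ : ℝ} {Ch Cl : ℝ≥0∞} (hH : GradBoundAt θ true Ch R)
    (hL : GradBoundAt θ false Cl R) :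
    ∃ Ψ : ℕ → ℕ → E d → ℝ≥0∞, (∀ n J, Measurable (Ψ n J)) ∧
      (∀ n, ∫⁻ x, ‖DG R n x‖ₑ ≤ (Ch + Cl + 1) * ∫⁻ x, ‖R.D x‖ₑ) ∧
      (∀ n J, J ≤ n → ∀ᵐ x : E d, gn R.f J x < gn R.f n x → R.f x < gn R.f n x →
        ‖DG R n x‖ₑ ≤ Ψ n J x) ∧
      Tendsto (fun J : ℕ => ⨆ (n : ℕ) (_ : J ≤ n), ∫⁻ x, Ψ n J x) atTop (𝓝 0) := by
  obtain ⟨Φh, Ψh, mΦh, mΨh, bΦh, bΨh, iΦh, tΨh⟩ := hH
  obtain ⟨Φl, Ψl, mΦl, mΨl, bΦl, bΨl, iΦl, tΨl⟩ := hL
  have split : ∀ n x ρ, (∃ c r, δs n ≤ r ∧ r < ρ ∧ dist x c ≤ r ∧ avg R.f c r = gn R.f n x) →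
      HasBall R n θ ρ true x ∨ HasBall R n θ ρ false x := by
    rintro n x ρ ⟨c, r, h1, h2, h3, h4⟩
    rcases le_total (ENNReal.ofReal θ * volume (closedBall c r))
      (volume (closedBall c r ∩ {y | gn R.f n x < R.f y})) with h | h
    · exact Or.inl ⟨c, r, h1, h2, h3, h4, h⟩
    · exact Or.inr ⟨c, r, h1, h2, h3, h4, h⟩
  refine ⟨fun n J x => Ψh n J x + Ψl n J x, fun n J => (mΨh n J).add (mΨl n J), fun n => ?_,
    fun n J hJn => ?_, ?_⟩
  · calc ∫⁻ x, ‖DG R n x‖ₑ ≤ ∫⁻ x, (Φh n x + Φl n x + ‖R.D x‖ₑ) := by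
          refine lintegral_mono_ae ?_
          filter_upwards [bΦh n, bΦl n] with x hh hl
          unfold DG
          split_ifs with hlt
          · obtain ⟨c, r, h1, h2, h3⟩ := exists_maximizer_gn hd R.nonneg R.int_f n x
            rw [enorm_gradient]
            refine le_trans ?_ le_self_add
            rcases split n x (r + 1) ⟨c, r, h1, by linarith, h2, h3⟩ with h | h
            · exact (hh hlt.le ⟨_, h⟩).trans le_self_add
            · exact (hl hlt.le ⟨_, h⟩).trans le_add_self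
          · exact le_add_self
      _ = (∫⁻ x, Φh n x) + (∫⁻ x, Φl n x) + ∫⁻ x, ‖R.D x‖ₑ := by
          rw [lintegral_add_left (by exact (mΦh n).add (mΦl n)), lintegral_add_left (mΦh n)]
      _ ≤ _ := by
          rw [add_mul, add_mul, one_mul]
          exact add_le_add (add_le_add (iΦh n) (iΦl n)) le_rfl
  · filter_upwards [bΨh n J hJn, bΨl n J hJn] with x hh hl hlt hf
    obtain ⟨c, r, h1, h2, h3⟩ := exists_maximizer_gn hd R.nonneg R.int_f n x
    have hr : r < δs J := not_le.1 fun h => hlt.not_ge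
      (h3.symm.le.trans (avg_le_gmax R.nonneg R.int_f (δs_pos J) h h2))
    have hmax : ENNReal.ofReal (R.f x) < maxFn R.f x :=
      ((ENNReal.ofReal_lt_ofReal_iff ((R.nonneg x).trans_lt hf)).2 hf).trans_le
        (ofReal_gn_le_maxFn R.nonneg R.int_f n x)
    rw [DG, if_pos hf, enorm_gradient]
    rcases split n x (δs J) ⟨c, r, h1, hr, h2, h3⟩ with h | h
    · exact (hh hf.le hmax h).trans le_self_add
    · exact (hl hf.le hmax h).trans le_add_self
  · refine tendsto_of_tendsto_of_tendsto_of_le_of_le tendsto_const_nhds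
      (by simpa using tΨh.add tΨl) (fun J => zero_le) fun J => iSup₂_le fun n hn => ?_
    rw [lintegral_add_left (mΨh n J)]
    exact add_le_add (le_iSup₂ (f := fun n (_ : J ≤ n) => ∫⁻ x, Ψh n J x) n hn)
      (le_iSup₂ (f := fun n (_ : J ≤ n) => ∫⁻ x, Ψl n J x) n hn)

variable {R}

theorem integrable_DG {K : ℝ≥0∞} (hK : K ≠ ⊤)
    (hbd : ∀ n, ∫⁻ x, ‖DG R n x‖ₑ ≤ K * ∫⁻ x, ‖R.D x‖ₑ) (n : ℕ) : Integrable (DG R n) :=
  ⟨(measurable_DG R n).aestronglyMeasurable,
    (hbd n).trans_lt (ENNReal.mul_lt_top hK.lt_top R.int_D.hasFiniteIntegral)⟩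

theorem exists_limit {K : ℝ≥0∞} (hK : K ≠ ⊤)
    (hbd : ∀ n, ∫⁻ x, ‖DG R n x‖ₑ ≤ K * ∫⁻ x, ‖R.D x‖ₑ)
    {Ψ : ℕ → ℕ → E d → ℝ≥0∞} (hm : ∀ n J, Measurable (Ψ n J))
    (hΨ : ∀ n J, J ≤ n → ∀ᵐ x : E d, gn R.f J x < gn R.f n x → R.f x < gn R.f n x →
      ‖DG R n x‖ₑ ≤ Ψ n J x)
    (ht : Tendsto (fun J : ℕ => ⨆ (n : ℕ) (_ : J ≤ n), ∫⁻ x, Ψ n J x) atTop (𝓝 0)) :
    ∃ H : E d → E d, Integrable H ∧
      Tendsto (fun n => ∫⁻ x, ‖DG R n x - H x‖ₑ) atTop (𝓝 0) := by
  have hi := integrable_DG hK hbd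
  have hfin := ae_maxFn R.nonneg R.int_f
  have hdiff := fun n => ae_differentiableAt_gn R.nonneg R.int_f n
  have step : ∀ I J n, I ≤ J → J ≤ n → ∀ᵐ x : E d,
      ‖DG R n x - DG R J x‖ₑ
        ≤ Ψ n J x + Ψ J I x + (bad R J).indicator (fun y => ‖DG R I y‖ₑ) x := by
    intro I J n hIJ hJn
    filter_upwards [hΨ n J hJn, hΨ J I hIJ, hfin, hdiff n, hdiff J, hdiff I]
      with x hn hJ hx dn dJ dI
    by_cases hc : gn R.f J x < gn R.f n x ∧ R.f x < gn R.f n x
    · have hgl := gn_le_toReal R.nonneg R.int_f hx.1 n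
      have hbad : x ∈ bad R J := ⟨hc.1.trans_le hgl, hc.2.trans_le hgl⟩
      rw [indicator_of_mem hbad, add_assoc]
      refine enorm_sub_le.trans (add_le_add (hn hc.1 hc.2) ?_)
      by_cases hc' : gn R.f I x < gn R.f J x ∧ R.f x < gn R.f J x
      · exact (hJ hc'.1 hc'.2).trans le_self_add
      · rw [DG_eq R hIJ dJ dI hc']
        exact le_add_self
    · rw [DG_eq R hJn dn dJ hc, sub_self, enorm_zero]
      exact zero_le
  have hbad : ∀ I, Tendsto (fun J => ∫⁻ x, (bad R J).indicator (fun y => ‖DG R I y‖ₑ) x)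
      atTop (𝓝 0) := by
    intro I
    rw [show (0 : ℝ≥0∞) = ∫⁻ _x : E d, 0 by simp]
    refine tendsto_lintegral_of_dominated_convergence (fun y => ‖DG R I y‖ₑ)
      (fun J => (measurable_DG R I).enorm.indicator (measurableSet_bad R J))
      (fun J => Eventually.of_forall fun x => indicator_le_self _ _ x) (hi I).hasFiniteIntegral.ne ?_
    filter_upwards [hfin] with x hx
    refine tendsto_nhds_of_eventually_eq ?_
    by_cases hlt : R.f x < lim R x
    · obtain ⟨N, hN⟩ := hx.2.2 hlt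
      filter_upwards [eventually_ge_atTop N] with J hJ
      exact indicator_of_notMem (fun h => h.1.ne (hN J hJ)) _
    · exact Eventually.of_forall fun J => indicator_of_notMem (fun h => hlt h.2) _
  have hcauchy : CauchySeq fun n => (hi n).toL1 (DG R n) := by
    refine EMetric.cauchySeq_iff'.2 fun ε hε => ?_
    obtain ⟨δ, hδ, hδε⟩ : ∃ δ : ℝ≥0∞, 0 < δ ∧ δ + δ + δ < ε := by
      rcases eq_or_ne ε ⊤ with rfl | hεt
      · exact ⟨1, one_pos, by norm_num⟩
      · have he : 0 < ε.toReal := ENNReal.toReal_pos hε.ne' hεt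
        refine ⟨ENNReal.ofReal (ε.toReal / 4), ENNReal.ofReal_pos.2 (by linarith), ?_⟩
        rw [← ENNReal.ofReal_add (by linarith) (by linarith),
          ← ENNReal.ofReal_add (by linarith) (by linarith)]
        conv_rhs => rw [← ENNReal.ofReal_toReal hεt]
        exact (ENNReal.ofReal_lt_ofReal_iff he).2 (by linarith)
    obtain ⟨I, hI⟩ := eventually_atTop.1 (ht.eventually_lt_const hδ)
    obtain ⟨N', hN'⟩ := eventually_atTop.1 ((hbad I).eventually_lt_const hδ)
    refine ⟨max I N', fun n hn => lt_of_le_of_lt ?_ hδε⟩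
    rw [edist_comm, Integrable.edist_toL1_toL1]
    calc ∫⁻ x, edist (DG R (max I N') x) (DG R n x)
        ≤ ∫⁻ x, (Ψ n (max I N') x + Ψ (max I N') I x +
            (bad R (max I N')).indicator (fun y => ‖DG R I y‖ₑ) x) := by
          refine lintegral_mono_ae ?_
          filter_upwards [step I _ n (le_max_left I N') hn] with x hx
          rw [edist_comm, edist_eq_enorm_sub]
          exact hx
      _ = (∫⁻ x, Ψ n (max I N') x) + (∫⁻ x, Ψ (max I N') I x) +
            ∫⁻ x, (bad R (max I N')).indicator (fun y => ‖DG R I y‖ₑ) x := by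
          rw [lintegral_add_left (by exact (hm _ _).add (hm _ _)), lintegral_add_left (hm _ _)]
      _ ≤ δ + δ + δ := by
          refine add_le_add (add_le_add ?_ ?_) (hN' _ (le_max_right _ _)).le
          · exact (le_iSup₂ (f := fun m (_ : max I N' ≤ m) => ∫⁻ x, Ψ m (max I N') x) n hn).trans
              (hI _ (le_max_left _ _)).le
          · exact (le_iSup₂ (f := fun m (_ : I ≤ m) => ∫⁻ x, Ψ m I x) _ (le_max_left _ _)).trans
              (hI I le_rfl).le
  obtain ⟨Hl, hHl⟩ := cauchySeq_tendsto_of_complete hcauchy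
  refine ⟨Hl, L1.integrable_coeFn Hl, ?_⟩
  refine (tendsto_iff_edist_tendsto_0.1 hHl).congr fun n => ?_
  rw [L1.edist_def]
  refine lintegral_congr_ae ?_
  filter_upwards [(hi n).coeFn_toL1] with x hx
  rw [hx, edist_eq_enorm_sub]

theorem lim_locInt {K : ℝ≥0∞} (hK : K ≠ ⊤)
    (hbd : ∀ n, ∫⁻ x, ‖DG R n x‖ₑ ≤ K * ∫⁻ x, ‖R.D x‖ₑ) :
    LocallyIntegrable (lim R) volume := by
  rw [MeasureTheory.locallyIntegrable_iff]
  intro k hk
  obtain ⟨r₀, hr₀⟩ := hk.isBounded.subset_closedBall 0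
  set r := max r₀ 1
  set B := closedBall (0 : E d) r
  refine IntegrableOn.mono_set ?_ (hr₀.trans (closedBall_subset_closedBall (le_max_left r₀ 1)))
  refine ⟨(measurable_lim R).aestronglyMeasurable, ?_⟩
  rw [hasFiniteIntegral_iff_ofReal (f := lim R) (Eventually.of_forall fun x => ENNReal.toReal_nonneg)]
  have hfin := ae_maxFn R.nonneg R.int_f
  set S : ℕ → Set (E d) := fun M => B ∩ {x | maxFn R.f x ≤ M ∧ R.f x ≤ M}
  have hSm : ∀ M, MeasurableSet (S M) := fun M => measurableSet_closedBall.inter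
    ((measurableSet_le (measurable_maxFn R.nonneg R.int_f) measurable_const).inter
      (measurableSet_le R.meas_f measurable_const))
  have hB : 0 < volume B := measure_closedBall_pos volume 0
    (one_pos.trans_le (le_max_right r₀ 1))
  obtain ⟨M, hM⟩ : ∃ M, 0 < volume (S M) := by
    refine exists_measure_pos_of_not_measure_iUnion_null fun h0 => hB.ne' ?_
    refine measure_mono_null_ae ?_ h0
    filter_upwards [hfin] with x hx hxB
    obtain ⟨a, ha⟩ := ENNReal.exists_nat_gt hx.1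
    obtain ⟨b, hb⟩ := exists_nat_ge (R.f x)
    exact mem_iUnion.2 ⟨max a b, hxB,
      ha.le.trans (by exact_mod_cast le_max_left a b),
      hb.trans (by exact_mod_cast le_max_right a b)⟩
  set A := volume (closedBall (0 : E d) (2 * r)) * ENNReal.ofReal (2 * r) *
    (K * ∫⁻ x, ‖R.D x‖ₑ) with hA
  set T := ((M : ℝ≥0∞) * volume B * volume (S M) + A) / volume (S M) with hT
  have hSfin : volume (S M) ≠ ⊤ :=
    ne_top_of_le_ne_top measure_closedBall_lt_top.ne (measure_mono inter_subset_left)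
  have hTfin : T < ⊤ := by
    refine ENNReal.div_lt_top (ENNReal.add_ne_top.2 ⟨?_, ?_⟩) hM.ne'
    · exact ENNReal.mul_ne_top (ENNReal.mul_ne_top (ENNReal.natCast_ne_top M)
        measure_closedBall_lt_top.ne) hSfin
    · exact ENNReal.mul_ne_top (ENNReal.mul_ne_top measure_closedBall_lt_top.ne
        ENNReal.ofReal_ne_top) (ENNReal.mul_ne_top hK R.int_D.hasFiniteIntegral.ne)
  have hbound : ∀ n, ∫⁻ y in B, ENNReal.ofReal (Gm R n y) ≤ T := by
    intro n
    rw [hT, ENNReal.le_div_iff_mul_le (Or.inl hM.ne') (Or.inl hSfin)]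
    calc (∫⁻ y in B, ENNReal.ofReal (Gm R n y)) * volume (S M)
        = ∫⁻ _x in S M, ∫⁻ y in B, ENNReal.ofReal (Gm R n y) := (setLIntegral_const _ _).symm
      _ ≤ ∫⁻ x in S M, ((M : ℝ≥0∞) * volume B + ∫⁻ y in B, ‖Gm R n y - Gm R n x‖ₑ) := by
          refine setLIntegral_mono' (hSm M) fun x hx => ?_
          rw [← setLIntegral_const, ← lintegral_add_left measurable_const]
          refine lintegral_mono fun y => ?_
          have h1 : ENNReal.ofReal (Gm R n x) ≤ (M : ℝ≥0∞) := by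
            rw [Gm, ENNReal.ofReal_max]
            refine max_le ((ofReal_gn_le_maxFn R.nonneg R.int_f n x).trans hx.2.1) ?_
            rw [← ENNReal.ofReal_natCast]
            exact ENNReal.ofReal_le_ofReal hx.2.2
          calc ENNReal.ofReal (Gm R n y)
              = ENNReal.ofReal (Gm R n x + (Gm R n y - Gm R n x)) := by rw [add_sub_cancel]
            _ ≤ ENNReal.ofReal (Gm R n x) + ENNReal.ofReal (Gm R n y - Gm R n x) :=
                ENNReal.ofReal_add_le
            _ ≤ _ := add_le_add h1 (Real.ofReal_le_enorm _)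
      _ = (M : ℝ≥0∞) * volume B * volume (S M) +
            ∫⁻ x in S M, ∫⁻ y in B, ‖Gm R n y - Gm R n x‖ₑ := by
          rw [lintegral_add_left measurable_const, setLIntegral_const]
      _ ≤ _ := by
          refine add_le_add le_rfl ((lintegral_mono_set inter_subset_left).trans ?_)
          exact (poincare (measurable_Gm R n) (measurable_DG R n) (linesAC_Gm R n) r).trans
            (mul_le_mul' le_rfl (hbd n))
  refine lt_of_le_of_lt ?_ hTfin
  calc ∫⁻ y in B, ENNReal.ofReal (lim R y)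
      ≤ ∫⁻ y in B, liminf (fun n => ENNReal.ofReal (Gm R n y)) atTop := by
        refine lintegral_mono_ae (ae_restrict_of_ae ?_)
        filter_upwards [hfin] with y hy
        rw [(ENNReal.tendsto_ofReal (tendsto_Gm R hy.1 hy.2.1)).liminf_eq]
    _ ≤ liminf (fun n => ∫⁻ y in B, ENNReal.ofReal (Gm R n y)) atTop :=
        lintegral_liminf_le fun n => (measurable_Gm R n).ennreal_ofReal
    _ ≤ T := liminf_le_of_frequently_le' (Eventually.of_forall hbound).frequently

theorem lim_weakGrad {K : ℝ≥0∞} (hK : K ≠ ⊤)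
    (hbd : ∀ n, ∫⁻ x, ‖DG R n x‖ₑ ≤ K * ∫⁻ x, ‖R.D x‖ₑ)
    (hl : LocallyIntegrable (lim R) volume) {H : E d → E d} (hH : Integrable H)
    (ht : Tendsto (fun n => ∫⁻ x, ‖DG R n x - H x‖ₑ) atTop (𝓝 0)) :
    HasWeakGrad (lim R) H := by
  intro φ hφ hφc v
  have hi := integrable_DG hK hbd
  have hcd : Continuous fun x => fderiv ℝ φ x v :=
    (hφ.continuous_fderiv (by simp)).clm_apply continuous_const
  obtain ⟨Cφ, hCφ⟩ := hφc.exists_bound_of_continuous hφ.continuous
  have hA : Tendsto (fun n => ∫ x, Gm R n x * fderiv ℝ φ x v) atTop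
      (𝓝 (∫ x, lim R x * fderiv ℝ φ x v)) := by
    refine tendsto_integral_of_dominated_convergence (fun x => ‖lim R x * fderiv ℝ φ x v‖)
      (fun n => ((measurable_Gm R n).mul hcd.measurable).aestronglyMeasurable)
      (hl.integrable_smul_right_of_hasCompactSupport hcd (hφc.fderiv_apply ℝ v)).norm
      (fun n => ?_) ?_
    · filter_upwards [ae_maxFn R.nonneg R.int_f] with x hx
      rw [norm_mul, norm_mul]
      refine mul_le_mul_of_nonneg_right ?_ (norm_nonneg _)
      rw [Real.norm_eq_abs, Real.norm_eq_abs, Gm,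
        abs_of_nonneg (le_max_of_le_left (gn0 R n x)),
        abs_of_nonneg (show (0 : ℝ) ≤ lim R x from ENNReal.toReal_nonneg)]
      exact max_le (gn_le_toReal R.nonneg R.int_f hx.1 n) hx.2.1
    · filter_upwards [ae_maxFn R.nonneg R.int_f] with x hx
      exact (tendsto_Gm R hx.1 hx.2.1).mul_const _
  have hint : ∀ {F : E d → E d}, Integrable F → Integrable fun x => ⟪F x, v⟫_ℝ * φ x :=
    fun hF => (hF.inner_const v).mul_bdd hφ.continuous.aestronglyMeasurable
      (Eventually.of_forall hCφ)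
  have hB : Tendsto (fun n => ∫ x, ⟪DG R n x, v⟫_ℝ * φ x) atTop
      (𝓝 (∫ x, ⟪H x, v⟫_ℝ * φ x)) := by
    refine tendsto_integral_of_L1 _ (hint hH).aestronglyMeasurable (Eventually.of_forall fun n => hint (hi n)) ?_
    have hc : ENNReal.ofReal (‖v‖ * Cφ) ≠ ⊤ := ENNReal.ofReal_ne_top
    have h2 := ENNReal.Tendsto.mul_const ht (Or.inr hc)
    rw [zero_mul] at h2
    refine tendsto_of_tendsto_of_tendsto_of_le_of_le tendsto_const_nhds h2 (fun n => zero_le)
      fun n => ?_
    rw [← lintegral_mul_const' _ _ hc]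
    refine lintegral_mono fun x => ?_
    rw [← sub_mul, ← inner_sub_left, ← ofReal_norm, ← ofReal_norm,
      ← ENNReal.ofReal_mul (norm_nonneg _)]
    refine ENNReal.ofReal_le_ofReal ?_
    rw [norm_mul, ← mul_assoc]
    exact mul_le_mul (norm_inner_le_norm _ _) (hCφ x) (norm_nonneg _) (by positivity)
  refine tendsto_nhds_unique hA (hB.neg.congr fun n => ?_)
  exact (weakGrad (measurable_Gm R n) (measurable_DG R n) (locInt_Gm R n) (hi n)
    (linesAC_Gm R n) φ hφ hφc v).symm

end Assembly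

open Assembly GmaxBasic in
/-- The main theorem from the three modules. -/
theorem main (hrep : RepStmt) (hhigh : HighStmt) (hlow : LowStmt) : MainStmt := by
  intro d hd
  obtain ⟨θ, hθ, Cl, hCl, hL⟩ := hlow d hd
  obtain ⟨Ch, hCh, hH⟩ := hhigh d hd θ hθ
  set K := Ch + Cl + 1 with hKdef
  have hK : K ≠ ⊤ := ENNReal.add_ne_top.2 ⟨ENNReal.add_ne_top.2 ⟨hCh, hCl⟩, ENNReal.one_ne_top⟩
  refine ⟨K.toReal + 1, by positivity, fun f g hf hg hw => ?_⟩
  obtain ⟨R, hRf, hRD⟩ := hrep d f g hd hf hg hw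
  obtain ⟨Ψ, hm, hbd, hΨ, ht⟩ := combined R hd (hH R) (hL R)
  obtain ⟨H, hHi, hHt⟩ := exists_limit hK hbd hm hΨ ht
  have hl := lim_locInt hK hbd
  refine ⟨lim R, H, hl, ?_, hHi, lim_weakGrad hK hbd hl hHi hHt, ?_⟩
  · have he : maxFn f = maxFn R.f := by
      refine maxFn_congr ?_
      filter_upwards [hRf] with x hx
      rw [hx, abs_abs]
    filter_upwards [ae_maxFn R.nonneg R.int_f] with x hx
    rw [he, Assembly.lim, ENNReal.ofReal_toReal hx.1]
  · have h1 : ∫⁻ x, ‖H x‖ₑ ≤ K * ∫⁻ x, ‖g x‖ₑ := by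
      have h2 : Tendsto (fun n => (∫⁻ x, ‖DG R n x - H x‖ₑ) + K * ∫⁻ x, ‖g x‖ₑ) atTop
          (𝓝 (K * ∫⁻ x, ‖g x‖ₑ)) := by
        simpa using hHt.add_const (K * ∫⁻ x, ‖g x‖ₑ)
      refine ge_of_tendsto' h2 fun n => ?_
      calc ∫⁻ x, ‖H x‖ₑ ≤ ∫⁻ x, (‖DG R n x - H x‖ₑ + ‖DG R n x‖ₑ) := by
            refine lintegral_mono fun x => ?_
            calc ‖H x‖ₑ = ‖DG R n x - (DG R n x - H x)‖ₑ := by rw [sub_sub_cancel]
              _ ≤ ‖DG R n x‖ₑ + ‖DG R n x - H x‖ₑ := enorm_sub_le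
              _ = _ := add_comm _ _
        _ = (∫⁻ x, ‖DG R n x - H x‖ₑ) + ∫⁻ x, ‖DG R n x‖ₑ :=
            lintegral_add_right _ (measurable_DG R n).enorm
        _ ≤ _ := add_le_add le_rfl ((hbd n).trans (mul_le_mul' le_rfl hRD))
    have h3 : ∫ x, ‖H x‖ ≤ K.toReal * ∫ x, ‖g x‖ := by
      rw [integral_norm_eq_lintegral_enorm hHi.aestronglyMeasurable,
        integral_norm_eq_lintegral_enorm hg.aestronglyMeasurable, ← ENNReal.toReal_mul]
      exact ENNReal.toReal_mono (ENNReal.mul_ne_top hK hg.hasFiniteIntegral.ne) h1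
    refine h3.trans ?_
    have h4 : 0 ≤ ∫ x, ‖g x‖ := integral_nonneg fun x => norm_nonneg _
    linarith

end Vale.Agent.P137
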