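import Vale.Agent.P137.PatternBasic

/-!
The core inequality.
-/

namespace Vale.Agent.P137

open MeasureTheory Metric Set Filter
open scoped InnerProductSpace ENNReal Topology

variable {d : ℕ}

lemma vol_ball_eq (hd : 0 < d) (c : E d) {r : ℝ} (hr : 0 ≤ r) :
    volume.real (closedBall c r) = r ^ d * volume.real (closedBall (0 : E d) 1) := by
  have : Nonempty (Fin d) := ⟨⟨0, hd⟩⟩
  rw [Measure.real, Measure.addHaar_closedBall' volume c hr, finrank_euclideanSpace_fin,
    ENNReal.toReal_mul, ENNReal.toReal_ofReal (pow_nonneg hr d)]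
  rfl

lemma vol_ball_pos (c : E d) {r : ℝ} (hr : 0 < r) : 0 < volume.real (closedBall c r) :=
  ENNReal.toReal_pos (measure_closedBall_pos volume c hr).ne' measure_closedBall_lt_top.ne

lemma ofReal_vol (c : E d) (r : ℝ) :
    ENNReal.ofReal (volume.real (closedBall c r)) = volume (closedBall c r) :=
  ENNReal.ofReal_toReal measure_closedBall_lt_top.ne

lemma section_swap {A : Set ℝ} (hA : MeasurableSet A) {S : Set (E d)} (hS : MeasurableSet S)
    {T : Set (ℝ × E d)} (hT : MeasurableSet T) :
    ∫⁻ μ in A, volume (S ∩ {y | (μ, y) ∈ T}) = ∫⁻ y in S, volume (A ∩ {μ | (μ, y) ∈ T}) := by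
  have h := (Measure.prod_apply (μ := volume.restrict A) (ν := volume.restrict S) hT).symm.trans
    (Measure.prod_apply_symm hT)
  simp only [Measure.restrict_apply' hA, Measure.restrict_apply' hS] at h
  simp only [inter_comm S, inter_comm A]
  exact h

lemma layer_pos {F : E d → ℝ} (hF : Measurable F) {S : Set (E d)} (hS : MeasurableSet S) (l : ℝ) :
    ∫⁻ y in S, ENNReal.ofReal (F y - l) = ∫⁻ μ in Ioi l, volume (S ∩ {y | μ < F y}) := by
  have h := section_swap measurableSet_Ioi hS
    (T := {p : ℝ × E d | p.1 < F p.2}) (measurableSet_lt measurable_fst (hF.comp measurable_snd))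
    (A := Ioi l)
  refine Eq.trans ?_ h.symm
  refine lintegral_congr fun y => ?_
  rw [← Real.volume_Ioo]
  rfl

lemma layer_neg {F : E d → ℝ} (hF : Measurable F) (hF0 : ∀ y, 0 ≤ F y) {S : Set (E d)}
    (hS : MeasurableSet S) (l : ℝ) :
    ∫⁻ y in S, ENNReal.ofReal (l - F y) = ∫⁻ t in Ioo 0 l, volume (S ∩ {y | F y ≤ t}) := by
  have h := section_swap measurableSet_Ioo hS
    (T := {p : ℝ × E d | F p.2 ≤ p.1}) (measurableSet_le (hF.comp measurable_snd) measurable_fst)
    (A := Ioo 0 l)
  refine Eq.trans ?_ h.symm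
  refine lintegral_congr fun y => le_antisymm ?_ ?_
  · rw [← Real.volume_Ioo]
    exact measure_mono fun t ht => ⟨⟨(hF0 y).trans_lt ht.1, ht.2⟩, ht.1.le⟩
  · rw [← Real.volume_Icc]
    exact measure_mono fun t ht => ⟨ht.2, ht.1.2.le⟩

lemma posneg {F : E d → ℝ} (hF : LocallyIntegrable F volume) (c : E d) (r l : ℝ) :
    (∫ y in closedBall c r, F y) - volume.real (closedBall c r) * l
      = (∫⁻ y in closedBall c r, ENNReal.ofReal (F y - l)).toReal
        - (∫⁻ y in closedBall c r, ENNReal.ofReal (l - F y)).toReal := by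
  have hi : IntegrableOn F (closedBall c r) volume :=
    hF.integrableOn_isCompact (isCompact_closedBall c r)
  have hc : IntegrableOn (fun _ => l) (closedBall c r) volume :=
    integrableOn_const measure_closedBall_lt_top.ne
  have h := integral_eq_lintegral_pos_part_sub_lintegral_neg_part (hi.sub hc)
  simp only [Pi.sub_apply, neg_sub] at h
  rw [← h, integral_sub hi hc, setIntegral_const, smul_eq_mul]

lemma lintegral_excess_ne_top {F : E d → ℝ} (hF : LocallyIntegrable F volume) (c : E d) (r l : ℝ) :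
    ∫⁻ y in closedBall c r, ENNReal.ofReal (F y - l) ≠ ⊤ :=
  ne_top_of_le_ne_top (((hF.integrableOn_isCompact (isCompact_closedBall c r)).sub
      (integrableOn_const (C := l) measure_closedBall_lt_top.ne)).hasFiniteIntegral.ne)
    (lintegral_mono fun _ => Real.ofReal_le_enorm _)

/-- Reflection: a level which is sparse in the double ball is paid by the pattern set. -/
lemma sparse_le {F : E d → ℝ} (hF : Measurable F)
    (hline : ∀ v : E d, ∀ᵐ y : E d, Continuous fun t : ℝ => F (y + t • v)) {L μ : ℝ} (hL : 1 < L)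
    (hsp : volume (closedBall (0 : E d) 2 ∩ {y | μ < F y})
      ≤ ENNReal.ofReal (volume.real (closedBall (0 : E d) 1) / 4)) :
    volume (closedBall (0 : E d) 1 ∩ {y | μ < F y})
        * ENNReal.ofReal (volume.real (closedBall (0 : E d) 1) / 2)
      ≤ volume (PatternSet F L μ) := by
  set S : Set (E d × E d) := {p | p.1 ∈ closedBall 0 1 ∧ p.2 ∈ closedBall 0 1 ∧ μ < F p.1 ∧
    F (p.1 - p.2) ≤ μ ∧ F (p.1 + p.2) ≤ μ} with hS
  have hSm : MeasurableSet S := (measurable_fst measurableSet_closedBall).inter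
    ((measurable_snd measurableSet_closedBall).inter
    ((measurableSet_lt measurable_const (hF.comp measurable_fst)).inter
    ((measurableSet_le (hF.comp (measurable_fst.sub measurable_snd)) measurable_const).inter
      (measurableSet_le (hF.comp (measurable_fst.add measurable_snd)) measurable_const))))
  refine le_trans ?_ (volume_triple_le hF hline (a := 1) (b := 1) zero_le_one hL zero_le_one hL S hSm
    fun p hp => ⟨closedBall_subset_closedBall hL.le hp.1, closedBall_subset_closedBall hL.le hp.2.1,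
      Or.inl ⟨hp.2.2.1, by rw [one_smul]; exact hp.2.2.2.1, by rw [one_smul]; exact hp.2.2.2.2⟩⟩)
  set K := volume.real (closedBall (0 : E d) 1)
  have hK : 0 ≤ K := measureReal_nonneg
  set T := closedBall (0 : E d) 1 ∩ {y | μ < F y} with hT
  rw [mul_comm, ← setLIntegral_const, Measure.volume_eq_prod, Measure.prod_apply hSm,
    ← lintegral_indicator (measurableSet_closedBall.inter (measurableSet_lt measurable_const hF))]
  refine lintegral_mono (Set.indicator_le' (fun y hy => ?_) fun _ _ => zero_le)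
  set W := closedBall (0 : E d) 2 ∩ {y | μ < F y} with hW
  have hsub : closedBall (0 : E d) 1 ⊆ Prod.mk y ⁻¹' S ∪
      ((fun v => y - v) ⁻¹' W ∪ (fun v => y + v) ⁻¹' W) := by
    intro v hv
    have hn : ‖y‖ ≤ 1 := by simpa using hy.1
    have hv' : ‖v‖ ≤ 1 := by simpa using hv
    by_cases h1 : μ < F (y - v)
    · exact Or.inr (Or.inl ⟨by simpa using (norm_sub_le y v).trans (by linarith), h1⟩)
    by_cases h2 : μ < F (y + v)
    · exact Or.inr (Or.inr ⟨by simpa using (norm_add_le y v).trans (by linarith), h2⟩)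
    exact Or.inl ⟨hy.1, hv, hy.2, not_lt.1 h1, not_lt.1 h2⟩
  have hWm : MeasurableSet W :=
    measurableSet_closedBall.inter (measurableSet_lt measurable_const hF)
  have hm1 : volume ((fun v : E d => y - v) ⁻¹' W) = volume W :=
    (Measure.measurePreserving_sub_left volume y).measure_preimage hWm.nullMeasurableSet
  have hm2 : volume ((fun v : E d => y + v) ⁻¹' W) = volume W :=
    measure_preimage_add (volume : Measure (E d)) y W
  have h := (measure_mono (μ := volume) hsub).trans ((measure_union_le _ _).trans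
    (add_le_add le_rfl (measure_union_le _ _)))
  rw [hm1, hm2, ← ofReal_vol] at h
  have h2 := h.trans (add_le_add le_rfl (add_le_add hsp hsp))
  rw [← ENNReal.ofReal_add (by positivity) (by positivity),
    show K / 4 + K / 4 = K / 2 by ring] at h2
  have eK : ENNReal.ofReal K = ENNReal.ofReal (K / 2) + ENNReal.ofReal (K / 2) := by
    rw [← ENNReal.ofReal_add (by positivity) (by positivity)]; ring_nf
  rw [eK] at h2
  exact (ENNReal.add_le_add_iff_right ENNReal.ofReal_ne_top).1 h2

/-- Facts about the half space of a flat level. -/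
structure Flatness (F : E d → ℝ) (μ ω : ℝ) (ν : E d) (a : ℝ) : Prop where
  unit : ‖ν‖ = 1
  low : 7 / 10 ≤ a
  high : a ≤ 2
  flat : volume (closedBall (0 : E d) 130 ∩ symmDiff {y | μ < F y} {y | a < ⟪ν, y⟫_ℝ})
    ≤ ENNReal.ofReal ω

/-- The centre of the big ball. -/
noncomputable def bigC (ν : E d) (a : ℝ) : E d := (a + 77 / 10) • ν

lemma inner_le_of_mem {ν c y : E d} (hν : ‖ν‖ = 1) {r : ℝ} (hy : y ∈ closedBall c r) :
    ⟪ν, c⟫_ℝ - r ≤ ⟪ν, y⟫_ℝ ∧ ⟪ν, y⟫_ℝ ≤ ⟪ν, c⟫_ℝ + r := by
  have h := abs_real_inner_le_norm ν (y - c)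
  rw [hν, one_mul, inner_sub_right] at h
  have hd : ‖y - c‖ ≤ r := by rwa [← dist_eq_norm]
  constructor <;> linarith [abs_le.1 (h.trans hd)]

lemma inner_smul_self {ν : E d} (hν : ‖ν‖ = 1) (s : ℝ) : ⟪ν, s • ν⟫_ℝ = s := by
  rw [real_inner_smul_right, real_inner_self_eq_norm_sq, hν]; ring

lemma norm_le_of_mem {ν y : E d} (hν : ‖ν‖ = 1) {s r : ℝ} (hy : y ∈ closedBall (s • ν) r) :
    ‖y‖ ≤ |s| + r := by
  have h := norm_le_norm_add_norm_sub' y (s • ν)
  rw [norm_smul, hν, mul_one, Real.norm_eq_abs] at h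
  have : ‖y - s • ν‖ ≤ r := by rwa [← dist_eq_norm]
  linarith

lemma wedge_subset {ν : E d} (hν : ‖ν‖ = 1) {a : ℝ} (ha : 7 / 10 ≤ a) :
    closedBall (0 : E d) 2 ∩ {y | a < ⟪ν, y⟫_ℝ} ⊆ closedBall (bigC ν a) 8 := by
  rintro y ⟨hy, hy2⟩
  have hn : ‖y‖ ≤ 2 := by simpa using hy
  rw [mem_closedBall, dist_eq_norm, ← pow_le_pow_iff_left₀ (norm_nonneg _) (by norm_num) two_ne_zero,
    bigC, norm_sub_sq_real, norm_smul, hν, mul_one, Real.norm_eq_abs, sq_abs, real_inner_smul_right,
    real_inner_comm]
  have h1 := mul_le_mul_of_nonneg_left (le_of_lt hy2) (by linarith : (0 : ℝ) ≤ a + 77 / 10)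
  nlinarith [pow_le_pow_left₀ (norm_nonneg y) hn 2, mul_le_mul ha ha (by norm_num) (by linarith)]

namespace Flatness

variable {F : E d → ℝ} {μ ω a : ℝ} {ν : E d}

/-- A ball inside the half space is filled up to `ω` by `{F > μ}`. -/
lemma full (h : Flatness F μ ω ν a) {c : E d} {r : ℝ} (hc : ‖c‖ + r ≤ 130)
    (hr : a < ⟪ν, c⟫_ℝ - r) :
    volume (closedBall c r) ≤ volume (closedBall c r ∩ {y | μ < F y}) + ENNReal.ofReal ω := by
  refine le_trans (measure_mono ?_) ((measure_union_le _ _).trans (add_le_add le_rfl h.flat))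
  intro y hy
  by_cases hF : μ < F y
  · exact Or.inl ⟨hy, hF⟩
  · refine Or.inr ⟨closedBall_subset_closedBall' (by rw [dist_zero_right]; linarith) hy, ?_⟩
    exact Or.inr ⟨hr.trans_le (inner_le_of_mem h.unit hy).1, hF⟩

/-- A ball outside the half space meets `{F > μ}` in measure at most `ω`. -/
lemma empty (h : Flatness F μ ω ν a) {c : E d} {r : ℝ} (hc : ‖c‖ + r ≤ 130)
    (hr : ⟪ν, c⟫_ℝ + r ≤ a) :
    volume (closedBall c r) ≤ volume (closedBall c r ∩ {y | F y ≤ μ}) + ENNReal.ofReal ω := by
  refine le_trans (measure_mono ?_) ((measure_union_le _ _).trans (add_le_add le_rfl h.flat))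
  intro y hy
  by_cases hF : μ < F y
  · refine Or.inr ⟨closedBall_subset_closedBall' (by rw [dist_zero_right]; linarith) hy, ?_⟩
    exact Or.inl ⟨hF, not_lt.2 ((inner_le_of_mem h.unit hy).2.trans hr)⟩
  · exact Or.inl ⟨hy, not_lt.1 hF⟩

/-- Holes of lower levels inside the big ball are paid by the pattern set. -/
lemma hole_le (h : Flatness F μ ω ν a) (hF : Measurable F)
    (hline : ∀ v : E d, ∀ᵐ y : E d, Continuous fun t : ℝ => F (y + t • v)) {L t : ℝ}
    (hL : 134 ≤ L) (ht : t ≤ μ)
    (hex : volume (closedBall (0 : E d) (1 / 20) ∩ {y | F y ≤ t})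
      ≤ ENNReal.ofReal (volume.real (closedBall (0 : E d) (1 / 20)) / 4))
    (hω : ω ≤ volume.real (closedBall (0 : E d) (1 / 20)) / 4) :
    volume (closedBall (bigC ν a) 8 ∩ {y | F y ≤ t})
        * ENNReal.ofReal (volume.real (closedBall (0 : E d) (1 / 20)) / 2)
      ≤ volume (PatternSet F L t) := by
  set B0 := closedBall (0 : E d) (1 / 20) with hB0
  set K := volume.real B0 with hK
  have hK0 : 0 ≤ K := measureReal_nonneg
  set S : Set (E d × E d) := {p | p.1 ∈ closedBall 0 18 ∧ p.2 ∈ closedBall 0 134 ∧ F p.1 ≤ t ∧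
    t < F (p.1 - (1 / 7 : ℝ) • p.2) ∧ t < F (p.1 + (6 / 7 : ℝ) • p.2)} with hS
  have hSm : MeasurableSet S := (measurable_fst measurableSet_closedBall).inter
    ((measurable_snd measurableSet_closedBall).inter
    ((measurableSet_le (hF.comp measurable_fst) measurable_const).inter
    ((measurableSet_lt measurable_const
        (hF.comp (measurable_fst.sub (measurable_snd.const_smul (1 / 7 : ℝ))))).inter
      (measurableSet_lt measurable_const
        (hF.comp (measurable_fst.add (measurable_snd.const_smul (6 / 7 : ℝ))))))))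
  refine le_trans ?_ (volume_triple_le hF hline (a := 1 / 7) (b := 6 / 7) (by norm_num) (by linarith)
    (by norm_num) (by linarith) S hSm fun p hp => ⟨closedBall_subset_closedBall (by linarith) hp.1,
      closedBall_subset_closedBall hL hp.2.1, Or.inr ⟨hp.2.2.1, hp.2.2.2.1, hp.2.2.2.2⟩⟩)
  rw [mul_comm, ← setLIntegral_const, Measure.volume_eq_prod, Measure.prod_apply hSm,
    ← lintegral_indicator (measurableSet_closedBall.inter (measurableSet_le hF measurable_const))]
  refine lintegral_mono (Set.indicator_le' (fun y hy => ?_) fun _ _ => zero_le)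
  have hyn : ‖y‖ ≤ 18 := by
    have h1 := norm_le_of_mem h.unit hy.1
    rw [abs_of_pos (by linarith [h.low])] at h1
    linarith [h.high]
  have hyi : a - 3 / 10 ≤ ⟪ν, y⟫_ℝ := by
    have h1 := (inner_le_of_mem h.unit hy.1).1
    rw [bigC, inner_smul_self h.unit] at h1
    linarith
  set P : Set (E d) := B0 ∩ {p | t < F p ∧ t < F ((7 : ℝ) • y + (-6 : ℝ) • p)} with hP
  have hPsub : (fun v : E d => y - (1 / 7 : ℝ) • v) ⁻¹' P ⊆ Prod.mk y ⁻¹' S := by
    rintro v ⟨hv1, hv2, hv3⟩
    have hp : ‖y - (1 / 7 : ℝ) • v‖ ≤ 1 / 20 := by simpa [hB0] using hv1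
    refine ⟨by simpa using hyn, ?_, hy.2, hv2, ?_⟩
    · have h1 := norm_sub_le y (y - (1 / 7 : ℝ) • v)
      rw [sub_sub_cancel, norm_smul, Real.norm_eq_abs, abs_of_pos (by norm_num : (0 : ℝ) < 1 / 7)]
        at h1
      simpa using show ‖v‖ ≤ 134 by linarith
    · have : (7 : ℝ) • y + (-6 : ℝ) • (y - (1 / 7 : ℝ) • v) = y + (6 / 7 : ℝ) • v := by module
      rwa [this] at hv3
  have hcover : B0 ⊆ P ∪ ((B0 ∩ {p | F p ≤ t}) ∪ (fun p : E d => (7 : ℝ) • y + (-6 : ℝ) • p) ⁻¹'
      (closedBall (0 : E d) 130 ∩ symmDiff {z | μ < F z} {z | a < ⟪ν, z⟫_ℝ})) := by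
    intro p hp
    by_cases h1 : F p ≤ t
    · exact Or.inr (Or.inl ⟨hp, h1⟩)
    by_cases h2 : F ((7 : ℝ) • y + (-6 : ℝ) • p) ≤ t
    · have hpn : ‖p‖ ≤ 1 / 20 := by simpa [hB0] using hp
      refine Or.inr (Or.inr ⟨?_, Or.inr ⟨?_, ?_⟩⟩)
      · have h3 := norm_add_le ((7 : ℝ) • y) ((-6 : ℝ) • p)
        simp only [norm_smul, Real.norm_eq_abs] at h3
        norm_num at h3
        simpa using show ‖(7 : ℝ) • y + (-6 : ℝ) • p‖ ≤ 130 by
          norm_num
          linarith
      · have hpi := (inner_le_of_mem h.unit hp).2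
        rw [inner_zero_right] at hpi
        show a < ⟪ν, (7 : ℝ) • y + (-6 : ℝ) • p⟫_ℝ
        rw [inner_add_right, real_inner_smul_right, real_inner_smul_right]
        linarith [h.low]
      · exact not_lt.2 (h2.trans ht)
    exact Or.inl ⟨hp, not_le.1 h1, not_le.1 h2⟩
  have h6 : volume ((fun p : E d => (7 : ℝ) • y + (-6 : ℝ) • p) ⁻¹'
      (closedBall (0 : E d) 130 ∩ symmDiff {z | μ < F z} {z | a < ⟪ν, z⟫_ℝ}))
      ≤ ENNReal.ofReal ω := by
    rw [show (fun p : E d => (7 : ℝ) • y + (-6 : ℝ) • p)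
        = (fun z => (7 : ℝ) • y + z) ∘ fun p => (-6 : ℝ) • p from rfl, preimage_comp,
      Measure.addHaar_preimage_smul volume (by norm_num : (-6 : ℝ) ≠ 0), measure_preimage_add]
    refine le_trans (mul_le_of_le_one_left' ?_) h.flat
    rw [ENNReal.ofReal_le_one, abs_inv, abs_pow, finrank_euclideanSpace_fin]
    exact inv_le_one_of_one_le₀ (one_le_pow₀ (by norm_num))
  have h1 := (measure_mono hcover).trans ((measure_union_le _ _).trans
    (add_le_add le_rfl ((measure_union_le _ _).trans (add_le_add hex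
      (h6.trans (ENNReal.ofReal_le_ofReal hω))))))
  rw [← ofReal_vol, ← ENNReal.ofReal_add (by positivity) (by positivity)] at h1
  have h2 : ENNReal.ofReal (K / 2) ≤ volume P := by
    have eK : ENNReal.ofReal K = ENNReal.ofReal (K / 2) + ENNReal.ofReal (K / 2) := by
      rw [← ENNReal.ofReal_add (by positivity) (by positivity)]; ring_nf
    rw [show K / 4 + K / 4 = K / 2 by ring, eK] at h1
    exact (ENNReal.add_le_add_iff_right ENNReal.ofReal_ne_top).1 h1
  refine h2.trans (le_trans ?_ (measure_mono hPsub))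
  have e1 : (fun v : E d => y - (1 / 7 : ℝ) • v)
      = (fun z => y + z) ∘ fun v => (-1 / 7 : ℝ) • v := by
    funext v
    simp only [Function.comp_apply]
    module
  rw [e1, preimage_comp, Measure.addHaar_preimage_smul volume (by norm_num : (-1 / 7 : ℝ) ≠ 0),
    measure_preimage_add]
  refine le_mul_of_one_le_left' ?_
  rw [ENNReal.one_le_ofReal, abs_inv, abs_pow, finrank_euclideanSpace_fin]
  exact one_le_inv_iff₀.2 ⟨by positivity, pow_le_one₀ (by positivity) (by norm_num)⟩

/-- Crossing pairs in a small ball on the hyperplane. -/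
lemma crossing_ge (h : Flatness F μ ω ν a) (hF : Measurable F) {L : ℝ} (hL : 4 ≤ L)
    {O : Set (E d)} {x : E d} (hx : ‖x‖ ≤ 1) (hxO : x ∉ O) (hO : closedBall (bigC ν a) 8 ⊆ O) :
    (volume (closedBall ((a + 1 / 100) • ν) (1 / 200) ∩ {y | μ < F y}))
        * volume (closedBall ((a - 1 / 100) • ν) (1 / 200) ∩ {y | F y ≤ μ})
      ≤ volume (CrossingSet F O L μ) := by
  set A := closedBall ((a + 1 / 100) • ν) (1 / 200) ∩ {y | μ < F y} with hA
  set A' := closedBall ((a - 1 / 100) • ν) (1 / 200) ∩ {y | F y ≤ μ} with hA'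
  have hAm : MeasurableSet A :=
    measurableSet_closedBall.inter (measurableSet_lt measurable_const hF)
  have hAm' : MeasurableSet A' :=
    measurableSet_closedBall.inter (measurableSet_le hF measurable_const)
  set S : Set (E d × E d) := {p | p.1 ∈ A ∧ p.1 + p.2 ∈ A'} with hS
  have hSm : MeasurableSet S :=
    (measurable_fst hAm).inter ((measurable_fst.add measurable_snd) hAm')
  have hvol : volume S = volume A * volume A' := by
    rw [Measure.volume_eq_prod, Measure.prod_apply hSm, mul_comm, ← setLIntegral_const,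
      ← lintegral_indicator hAm]
    refine lintegral_congr fun p => ?_
    by_cases hp : p ∈ A
    · rw [Set.indicator_of_mem hp, ← measure_preimage_add volume p A']
      exact measure_congr (Eventually.of_forall fun w => propext ⟨fun hw => hw.2, fun hw => ⟨hp, hw⟩⟩)
    · rw [Set.indicator_of_notMem hp, measure_eq_zero_iff_ae_notMem]
      exact Eventually.of_forall fun w hw => hp hw.1
  rw [← hvol]
  refine measure_mono ?_
  rintro ⟨p, w⟩ ⟨⟨hp, hpF⟩, hq, hqF⟩
  have hν := h.unit
  have hlow := h.low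
  have hhigh := h.high
  have hpn : ‖p‖ ≤ a + 3 / 200 := by
    have := norm_le_of_mem hν hp
    rw [abs_of_pos (by linarith)] at this
    linarith
  have hw : ‖w‖ ≤ 3 / 100 := by
    rw [mem_closedBall, dist_eq_norm] at hp hq
    have e : w = (p + w - (a - 1 / 100) • ν) - (p - (a + 1 / 100) • ν) + (-(1 / 50) : ℝ) • ν := by
      module
    have h1 := norm_add_le ((p + w - (a - 1 / 100) • ν) - (p - (a + 1 / 100) • ν))
      ((-(1 / 50) : ℝ) • ν)
    rw [← e, norm_smul, hν, Real.norm_eq_abs, abs_of_neg (by norm_num : (-(1 / 50) : ℝ) < 0)] at h1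
    linarith [norm_sub_le (p + w - (a - 1 / 100) • ν) (p - (a + 1 / 100) • ν)]
  refine ⟨by simpa using show ‖p‖ ≤ L by linarith, show ‖w‖ ≤ 1 / 20 by linarith,
    show ‖w‖ ≤ 1 / 10 by linarith, hpF, hqF, ?_, fun hsub => hxO (hsub ?_)⟩
  · refine (closedBall_subset_closedBall' ?_).trans hO
    have e : bigC ν a - (a + 1 / 100) • ν = (769 / 100 : ℝ) • ν := by rw [bigC]; module
    have h1 : dist ((a + 1 / 100) • ν) (bigC ν a) = 769 / 100 := by
      rw [dist_comm, dist_eq_norm, e, norm_smul, hν, Real.norm_eq_abs]; norm_num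
    have h2 := dist_triangle p ((a + 1 / 100) • ν) (bigC ν a)
    have h3 : dist p ((a + 1 / 100) • ν) ≤ 1 / 200 := hp
    linarith
  · rw [mem_closedBall, dist_eq_norm, mul_one]
    linarith [norm_sub_le x p]

end Flatness

/-- A set of levels on which `{F > μ}` has mass is bounded by the integral. -/
lemma bddAbove_levels {F : E d → ℝ} (hF : Measurable F) {S : Set (E d)}
    (hfin : ∫⁻ y in S, ENNReal.ofReal (F y) ≠ ⊤) {c : ℝ} (hc : 0 < c) {A : Set ℝ}
    (hA : ∀ μ ∈ A, ENNReal.ofReal c < volume (S ∩ {y | μ < F y})) :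
    BddAbove A := by
  refine ⟨max 0 ((∫⁻ y in S, ENNReal.ofReal (F y)).toReal / c), fun μ hμ => ?_⟩
  rcases le_or_gt μ 0 with h | h
  · exact h.trans (le_max_left _ _)
  refine le_trans ?_ (le_max_right _ _)
  rw [le_div_iff₀ hc]
  have hm : MeasurableSet {y | μ < F y} := measurableSet_lt measurable_const hF
  have h1 : ENNReal.ofReal μ * ENNReal.ofReal c ≤ ∫⁻ y in S, ENNReal.ofReal (F y) := by
    refine (mul_le_mul_right (hA μ hμ).le _).trans ?_
    rw [inter_comm, ← Measure.restrict_apply hm]
    exact (mul_le_mul_right (measure_mono fun y (hy : μ < F y) => ENNReal.ofReal_le_ofReal hy.le) _).trans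
      (mul_meas_ge_le_lintegral (ENNReal.measurable_ofReal.comp hF) _)
  have := ENNReal.toReal_mono hfin h1
  rwa [ENNReal.toReal_mul, ENNReal.toReal_ofReal h.le, ENNReal.toReal_ofReal hc.le] at this

set_option maxHeartbeats 2000000 in
theorem core (hflat : FlatStmt) : CoreStmt := by
  intro d hd
  have hpos : ∀ r : ℝ, 0 < r → 0 < volume.real (closedBall (0 : E d) r) :=
    fun r hr => vol_ball_pos 0 hr
  have hvol : ∀ (c : E d) (r : ℝ), 0 ≤ r →
      volume.real (closedBall c r) = volume.real (closedBall (0 : E d) r) := fun c r hr => by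
    rw [vol_ball_eq hd c hr, vol_ball_eq hd 0 hr]
  have hκ := hpos 1 one_pos
  set κ := volume.real (closedBall (0 : E d) 1) with hκdef
  have hv0 := hpos (1 / 20) (by norm_num)
  set v0 := volume.real (closedBall (0 : E d) (1 / 20)) with hv0def
  have hv2 := hpos (1 / 200) (by norm_num)
  set v2 := volume.real (closedBall (0 : E d) (1 / 200)) with hv2def
  have hvh := hpos (1 / 2) (by norm_num)
  set vh := volume.real (closedBall (0 : E d) (1 / 2)) with hvhdef
  have hvt := hpos (1 / 10) (by norm_num)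
  set vt := volume.real (closedBall (0 : E d) (1 / 10)) with hvtdef
  have hD8 := hpos 8 (by norm_num)
  set D8 := volume.real (closedBall (0 : E d) 8) with hD8def
  set ω := min (v0 / 4) (min (v2 / 2) (min (vh / 2) (min (κ / 8) (vt / 2)))) with hωdef
  have hω : 0 < ω := by positivity
  have hω0 : ω ≤ v0 / 4 := min_le_left _ _
  have hω2 : ω ≤ v2 / 2 := (min_le_right _ _).trans (min_le_left _ _)
  have hωh : ω ≤ vh / 2 :=
    ((min_le_right _ _).trans (min_le_right _ _)).trans (min_le_left _ _)
  have hωk : ω ≤ κ / 8 :=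
    (((min_le_right _ _).trans (min_le_right _ _)).trans (min_le_right _ _)).trans (min_le_left _ _)
  have hωt : ω ≤ vt / 2 :=
    (((min_le_right _ _).trans (min_le_right _ _)).trans (min_le_right _ _)).trans (min_le_right _ _)
  obtain ⟨η, L', hη, hL', hfl⟩ := hflat d hd ω 130 hω (by norm_num)
  set L := max L' 134 with hLdef
  have hL : 134 ≤ L := le_max_right _ _
  set c1 := min (vh / 2) (κ / 8) with hc1def
  have hc1 : 0 < c1 := by positivity
  set eps := c1 / (4 * D8) with hepsdef
  have heps : 0 < eps := by positivity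
  have heps1 : eps ≤ 1 := by
    rw [hepsdef, div_le_one (by positivity)]
    have h1 : vh ≤ D8 := measureReal_mono (closedBall_subset_closedBall (by norm_num))
      measure_closedBall_lt_top.ne
    linarith [min_le_left (vh / 2) (κ / 8)]
  set θ := min (vt / (4 * κ)) (c1 * v0 / (16 * D8 * κ)) with hθdef
  have hθ : 0 < θ := by positivity
  have hθt : θ * κ ≤ vt / 4 := by
    calc θ * κ ≤ vt / (4 * κ) * κ := mul_le_mul_of_nonneg_right (min_le_left _ _) hκ.le
      _ = vt / 4 := by field_simp
  have hθD : D8 * (4 / v0 * (θ * κ)) ≤ c1 / 4 := by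
    calc D8 * (4 / v0 * (θ * κ)) ≤ D8 * (4 / v0 * (c1 * v0 / (16 * D8 * κ) * κ)) := by
          gcongr; exact min_le_right _ _
      _ = c1 / 4 := by field_simp; ring
  set c2 := v2 / 2 * (v2 / 2) with hc2def
  have hc2 : 0 < c2 := by positivity
  set Kc := 2 / c1 * (D8 * (4 / v0 * (2 / κ)) + 2 / v0) with hKdef
  have hK : 0 < Kc := by positivity
  set Ct := 2 / κ + θ * κ * (Kc + η⁻¹ / eps + c2⁻¹ / eps) with hCtdef
  refine ⟨θ, L, Ct, hθ, by linarith, by positivity, ?_⟩
  intro F O x hF hFi hF0 hline hO hx hxO hdens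
  set l := avg F 0 1 with hldef
  have hl0 : 0 ≤ l := div_nonneg (setIntegral_nonneg measurableSet_closedBall fun y _ => hF0 y)
    measureReal_nonneg
  set IE := ∫⁻ μ in Ioi 0, volume (PatternSet F L μ) with hIE
  set WE := ∫⁻ μ in Ioi 0, volume (CrossingSet F (O μ) L μ) with hWE
  set M := ∫⁻ y in closedBall (0 : E d) 1, ENNReal.ofReal (F y - l) with hMdef
  by_cases htop : IE = ⊤ ∨ WE = ⊤
  · have hC : ENNReal.ofReal Ct * ⊤ = ⊤ :=
      ENNReal.mul_top (by simpa using (show 0 < Ct by positivity))
    rcases htop with h | h <;> simp [h, hC]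
  push Not at htop
  obtain ⟨hIfin, hWfin⟩ := htop
  have hMfin : M ≠ ⊤ := lintegral_excess_ne_top hFi _ _ _
  have hIm : Measurable fun μ => volume (PatternSet F L μ) := measurable_vol_patternSet hF L
  -- negative part
  set M' := ∫⁻ y in closedBall (0 : E d) 1, ENNReal.ofReal (l - F y) with hM'def
  have hM'fin : M' ≠ ⊤ := by
    refine ne_top_of_le_ne_top (ENNReal.mul_ne_top (ENNReal.ofReal_ne_top (r := l))
      (measure_closedBall_lt_top (μ := volume) (x := (0 : E d)) (r := 1)).ne) ?_
    rw [← setLIntegral_const]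
    exact lintegral_mono fun y => ENNReal.ofReal_le_ofReal (by linarith [hF0 y])
  have hMM : M.toReal = M'.toReal := by
    have h := posneg hFi (0 : E d) 1 l
    have e : (∫ y in closedBall (0 : E d) 1, F y) = κ * l := by
      rw [hldef, avg, ← Measure.real, ← hκdef]; field_simp
    rw [e, ← hκdef] at h
    linarith
  -- dense levels
  set Dn : Set ℝ := {μ | l < μ ∧
    ENNReal.ofReal (κ / 4) < volume (closedBall (0 : E d) 2 ∩ {y | μ < F y})} with hDn
  have hanti : ∀ S : Set (E d), Antitone fun μ => volume (S ∩ {y | μ < F y}) := fun S a b hab =>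
    measure_mono (inter_subset_inter_right _ fun y hy => lt_of_le_of_lt hab hy)
  have hDm : MeasurableSet Dn :=
    measurableSet_Ioi.inter (measurableSet_lt measurable_const (hanti _).measurable)
  obtain ⟨top, htop'⟩ := bddAbove_levels hF
    (by simpa using lintegral_excess_ne_top hFi (0 : E d) 2 0)
    (c := κ / 4) (by positivity) (A := Dn) fun μ hμ => hμ.2
  have hDfin : volume Dn ≠ ⊤ := ne_top_of_le_ne_top (measure_Ioc_lt_top (a := l) (b := top)).ne
    (measure_mono fun μ hμ => ⟨hμ.1, htop' hμ⟩)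
  set G := volume.real Dn with hGdef
  have hG0 : 0 ≤ G := measureReal_nonneg
  have hGE : ENNReal.ofReal G = volume Dn := ENNReal.ofReal_toReal hDfin
  have hinterval : ∀ μ, l < μ → μ < l + G → μ ∈ Dn := by
    intro μ h1 h2
    by_contra hμ
    have hsub : Dn ⊆ Ioo l μ := fun μ' hμ' => ⟨hμ'.1, not_le.1 fun hle =>
      hμ ⟨h1, hμ'.2.trans_le (hanti _ hle)⟩⟩
    have := measureReal_mono (μ := volume) hsub measure_Ioo_lt_top.ne
    rw [← hGdef, Real.volume_real_Ioo_of_le h1.le] at this
    linarith
  -- sparse levels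
  have hM1 : M ≤ ENNReal.ofReal (2 / κ) * IE + ENNReal.ofReal (θ * κ) * ENNReal.ofReal G := by
    rw [hMdef, layer_pos hF measurableSet_closedBall, hGE]
    refine (setLIntegral_mono' (g := fun μ => ENNReal.ofReal (2 / κ) * volume (PatternSet F L μ)
      + Dn.indicator (fun _ => ENNReal.ofReal (θ * κ)) μ) measurableSet_Ioi ?_).trans ?_
    · intro μ hμ
      by_cases hD : μ ∈ Dn
      · rw [Set.indicator_of_mem hD]
        refine le_add_left ?_
        refine ((hanti _ (le_of_lt hμ)).trans hdens).trans_eq ?_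
        rw [← ofReal_vol, ← hκdef, ← ENNReal.ofReal_mul hθ.le]
      · rw [Set.indicator_of_notMem hD, add_zero]
        have h := sparse_le hF hline (L := L) (μ := μ) (by linarith)
          (not_lt.1 fun h => hD ⟨hμ, h⟩)
        rw [← hκdef] at h
        have e : ENNReal.ofReal (2 / κ) = (ENNReal.ofReal (κ / 2))⁻¹ := by
          rw [← ENNReal.ofReal_inv_of_pos (by positivity), inv_div]
        rw [e, mul_comm, ← div_eq_mul_inv]
        exact ENNReal.le_div_iff_mul_le (Or.inl (by simp [hκ])) (Or.inl ENNReal.ofReal_ne_top) |>.2 h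
    · rw [lintegral_add_left (hIm.const_mul _), lintegral_const_mul _ hIm]
      refine add_le_add (mul_le_mul_right (lintegral_mono_set (Ioi_subset_Ioi hl0)) _) ?_
      rw [lintegral_indicator hDm, setLIntegral_const]
      exact mul_le_mul_right (Measure.restrict_apply_le _ _) _
  set Ir := IE.toReal with hIr
  set Wr := WE.toReal with hWr
  have hI0 : 0 ≤ Ir := ENNReal.toReal_nonneg
  have hW0 : 0 ≤ Wr := ENNReal.toReal_nonneg
  have hM1r : M.toReal ≤ 2 / κ * Ir + θ * κ * G := by
    have h := ENNReal.toReal_mono (ENNReal.add_ne_top.2 ⟨ENNReal.mul_ne_top ENNReal.ofReal_ne_top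
      hIfin, ENNReal.mul_ne_top ENNReal.ofReal_ne_top ENNReal.ofReal_ne_top⟩) hM1
    rwa [ENNReal.toReal_add (ENNReal.mul_ne_top ENNReal.ofReal_ne_top hIfin)
      (ENNReal.mul_ne_top ENNReal.ofReal_ne_top ENNReal.ofReal_ne_top), ENNReal.toReal_mul,
      ENNReal.toReal_mul, ENNReal.toReal_ofReal (by positivity), ENNReal.toReal_ofReal (by positivity),
      ENNReal.toReal_ofReal hG0] at h
  -- exceptional lower levels
  have hanti' : ∀ S : Set (E d), Monotone fun t => volume (S ∩ {y | F y ≤ t}) := fun S a b hab =>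
    measure_mono (inter_subset_inter_right _ fun y hy => le_trans hy hab)
  set X : Set ℝ := {t | t ∈ Ioo 0 l ∧
    ENNReal.ofReal (v0 / 4) < volume (closedBall (0 : E d) (1 / 20) ∩ {y | F y ≤ t})} with hX
  have hXm : MeasurableSet X :=
    measurableSet_Ioo.inter (measurableSet_lt measurable_const (hanti' _).measurable)
  have hXle : volume X * ENNReal.ofReal (v0 / 4) ≤ M' := by
    rw [hM'def, layer_neg hF hF0 measurableSet_closedBall, mul_comm, ← setLIntegral_const]
    refine (setLIntegral_mono' hXm fun t ht => ?_).trans (lintegral_mono_set fun t ht => ht.1)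
    exact ht.2.le.trans
      (measure_mono (inter_subset_inter_left _ (closedBall_subset_closedBall (by norm_num))))
  have hXfin : volume X ≠ ⊤ := ne_top_of_le_ne_top (measure_Ioo_lt_top (a := (0:ℝ)) (b := l)).ne
    (measure_mono fun t ht => ht.1)
  have hXr : volume.real X ≤ 4 / v0 * M.toReal := by
    have h := ENNReal.toReal_mono hM'fin hXle
    rw [ENNReal.toReal_mul, ENNReal.toReal_ofReal (by positivity), ← Measure.real, ← hMM] at h
    rw [div_mul_eq_mul_div, le_div_iff₀ hv0]
    linarith
  -- flat levels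
  set T : Set ℝ := Ioo l (l + eps * G) ∩ {μ | volume (PatternSet F L μ) < ENNReal.ofReal η} with hT
  have hTD : ∀ μ ∈ T, μ ∈ Dn := fun μ hμ => hinterval μ hμ.1.1
    (hμ.1.2.trans_le (by nlinarith))
  have hflatness : ∀ μ ∈ T, ∃ ν a, Flatness F μ ω ν a := by
    intro μ hμ
    obtain ⟨ν, a, hν, hfla⟩ := hfl F hF hline μ
      (lt_of_le_of_lt (measure_mono (patternSet_mono (le_max_left _ _))) hμ.2)
    refine ⟨ν, a, hν, ?_, ?_, hfla⟩
    · by_contra ha
      push Not at ha
      set q := ((4 : ℝ) / 5) • ν with hq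
      have hqn : ‖q‖ = 4 / 5 := by rw [hq, norm_smul, hν]; norm_num
      have hsub : closedBall q (1 / 10) ⊆ (closedBall (0 : E d) 1 ∩ {y | l < F y}) ∪
          (closedBall (0 : E d) 130 ∩ symmDiff {y | μ < F y} {y | a < ⟪ν, y⟫_ℝ}) := by
        intro y hy
        by_cases hy2 : μ < F y
        · exact Or.inl ⟨closedBall_subset_closedBall' (by rw [dist_zero_right, hqn]; norm_num) hy,
            hμ.1.1.trans hy2⟩
        · refine Or.inr ⟨closedBall_subset_closedBall' (by rw [dist_zero_right, hqn]; norm_num) hy,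
            Or.inr ⟨?_, hy2⟩⟩
          have := (inner_le_of_mem hν hy).1
          rw [hq, inner_smul_self hν] at this
          show a < ⟪ν, y⟫_ℝ
          linarith
      have h := (measure_mono (μ := volume) hsub).trans ((measure_union_le _ _).trans
        (add_le_add hdens hfla))
      rw [← ofReal_vol, ← ofReal_vol, hvol q (1 / 10) (by norm_num), ← hvtdef, ← hκdef,
        ← ENNReal.ofReal_mul hθ.le, ← ENNReal.ofReal_add (by positivity) hω.le,
        ENNReal.ofReal_le_ofReal_iff (by positivity)] at h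
      linarith
    · by_contra ha
      push Not at ha
      have hsub : closedBall (0 : E d) 2 ∩ {y | μ < F y} ⊆
          closedBall (0 : E d) 130 ∩ symmDiff {y | μ < F y} {y | a < ⟪ν, y⟫_ℝ} := by
        rintro y ⟨hy, hy2⟩
        refine ⟨closedBall_subset_closedBall (by norm_num) hy, Or.inl ⟨hy2, ?_⟩⟩
        have := (inner_le_of_mem hν hy).2
        rw [inner_zero_right] at this
        show ¬ a < ⟪ν, y⟫_ℝ
        linarith
      have h := (hTD μ hμ).2.trans_le ((measure_mono hsub).trans hfla)
      rw [ENNReal.ofReal_lt_ofReal_iff hω] at h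
      linarith
  -- either the averages are large, or `G` is small
  have hdich : G ≤ Kc * Ir ∨ ∀ μ ∈ T, ENNReal.ofReal c2 ≤ volume (CrossingSet F (O μ) L μ) := by
    refine or_iff_not_imp_right.2 fun hnot => ?_
    push Not at hnot
    obtain ⟨μ, hμ, hlt⟩ := hnot
    obtain ⟨ν, a, hfa⟩ := hflatness μ hμ
    have hν := hfa.unit
    have hlow := hfa.low
    have hhigh := hfa.high
    set c := bigC ν a with hc
    have hfail : avg F c 8 ≤ μ := by
      by_contra hgt
      refine absurd hlt (not_lt.2 (le_trans ?_ (hfa.crossing_ge hF (by linarith) hx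
        (hxO μ hμ.1.1) (hO c 8 μ (by norm_num) (not_le.1 hgt)))))
      rw [hc2def, ENNReal.ofReal_mul (by positivity)]
      refine mul_le_mul' ?_ ?_
      · have h := hfa.full (c := (a + 1 / 100) • ν) (r := 1 / 200)
          (by rw [norm_smul, hν, Real.norm_eq_abs, abs_of_pos (by linarith)]; linarith)
          (by rw [inner_smul_self hν]; linarith)
        rw [← ofReal_vol, hvol _ _ (by norm_num), ← hv2def, show v2 = v2 / 2 + v2 / 2 by ring,
          ENNReal.ofReal_add (by positivity) (by positivity)] at h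
        exact (ENNReal.add_le_add_iff_right ENNReal.ofReal_ne_top).1
          (h.trans (add_le_add le_rfl (ENNReal.ofReal_le_ofReal hω2)))
      · have h := hfa.empty (c := (a - 1 / 100) • ν) (r := 1 / 200)
          (by rw [norm_smul, hν, Real.norm_eq_abs, abs_of_pos (by linarith)]; linarith)
          (by rw [inner_smul_self hν]; linarith)
        rw [← ofReal_vol, hvol _ _ (by norm_num), ← hv2def, show v2 = v2 / 2 + v2 / 2 by ring,
          ENNReal.ofReal_add (by positivity) (by positivity)] at h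
        exact (ENNReal.add_le_add_iff_right ENNReal.ofReal_ne_top).1
          (h.trans (add_le_add le_rfl (ENNReal.ofReal_le_ofReal hω2)))
    -- gain
    have hgain : ∀ μ' ∈ Dn, ENNReal.ofReal c1 ≤ volume (closedBall c 8 ∩ {y | μ' < F y}) := by
      intro μ' hμ'
      rcases le_or_gt μ' μ with hle | hgt
      · refine le_trans ?_ (hanti _ hle)
        have hsub : closedBall ((a + 1) • ν) (1 / 2) ⊆ closedBall c 8 := by
          refine closedBall_subset_closedBall' ?_
          rw [hc, bigC, dist_eq_norm, ← sub_smul, norm_smul, hν, Real.norm_eq_abs]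
          norm_num
        have h := hfa.full (c := (a + 1) • ν) (r := 1 / 2)
          (by rw [norm_smul, hν, Real.norm_eq_abs, abs_of_pos (by linarith)]; linarith)
          (by rw [inner_smul_self hν]; linarith)
        rw [← ofReal_vol, hvol _ _ (by norm_num), ← hvhdef, show vh = vh / 2 + vh / 2 by ring,
          ENNReal.ofReal_add (by positivity) (by positivity)] at h
        exact (ENNReal.ofReal_le_ofReal (min_le_left _ _)).trans
          (((ENNReal.add_le_add_iff_right ENNReal.ofReal_ne_top).1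
            (h.trans (add_le_add le_rfl (ENNReal.ofReal_le_ofReal hωh)))).trans
          (measure_mono (inter_subset_inter_left _ hsub)))
      · have hsub : closedBall (0 : E d) 2 ∩ {y | μ' < F y} ⊆ (closedBall c 8 ∩ {y | μ' < F y}) ∪
            (closedBall (0 : E d) 130 ∩ symmDiff {y | μ < F y} {y | a < ⟪ν, y⟫_ℝ}) := by
          rintro y ⟨hy, hy2⟩
          by_cases hH : a < ⟪ν, y⟫_ℝ
          · exact Or.inl ⟨wedge_subset hν hlow ⟨hy, hH⟩, hy2⟩
          · exact Or.inr ⟨closedBall_subset_closedBall (by norm_num) hy,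
              Or.inl ⟨hgt.trans hy2, hH⟩⟩
        have h := hμ'.2.le.trans ((measure_mono hsub).trans ((measure_union_le _ _).trans
          (add_le_add le_rfl (hfa.flat.trans (ENNReal.ofReal_le_ofReal hωk)))))
        rw [show κ / 4 = κ / 8 + κ / 8 by ring,
          ENNReal.ofReal_add (by positivity) (by positivity)] at h
        exact (ENNReal.ofReal_le_ofReal (min_le_right _ _)).trans
          ((ENNReal.add_le_add_iff_right ENNReal.ofReal_ne_top).1 h)
    have hP : ENNReal.ofReal (c1 * G) ≤ ∫⁻ y in closedBall c 8, ENNReal.ofReal (F y - l) := by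
      rw [ENNReal.ofReal_mul hc1.le, hGE, ← setLIntegral_const,
        layer_pos hF measurableSet_closedBall]
      exact (setLIntegral_mono' hDm hgain).trans (lintegral_mono_set fun μ hμ => hμ.1)
    have hN : ∫⁻ y in closedBall c 8, ENNReal.ofReal (l - F y)
        ≤ ENNReal.ofReal (D8 * volume.real X) + ENNReal.ofReal (2 / v0) * IE := by
      rw [layer_neg hF hF0 measurableSet_closedBall, ENNReal.ofReal_mul hD8.le,
        Measure.real, ENNReal.ofReal_toReal hXfin]
      refine (setLIntegral_mono' (g := fun t => X.indicator (fun _ => ENNReal.ofReal D8) t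
        + ENNReal.ofReal (2 / v0) * volume (PatternSet F L t)) measurableSet_Ioo ?_).trans ?_
      · intro t ht
        by_cases htX : t ∈ X
        · rw [Set.indicator_of_mem htX]
          refine le_add_right ((measure_mono inter_subset_left).trans_eq ?_)
          rw [← ofReal_vol, hvol _ _ (by norm_num)]
        · rw [Set.indicator_of_notMem htX, zero_add]
          have h := hfa.hole_le hF hline hL (le_of_lt (ht.2.trans hμ.1.1))
            (not_lt.1 fun h => htX ⟨ht, h⟩) hω0
          have e : ENNReal.ofReal (2 / v0) = (ENNReal.ofReal (v0 / 2))⁻¹ := by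
            rw [← ENNReal.ofReal_inv_of_pos (by positivity), inv_div]
          rw [e, mul_comm, ← div_eq_mul_inv]
          exact ENNReal.le_div_iff_mul_le (Or.inl (by simp [hv0])) (Or.inl ENNReal.ofReal_ne_top)
            |>.2 h
      · rw [lintegral_add_left (measurable_const.indicator hXm), lintegral_const_mul _ hIm]
        refine add_le_add ?_ (mul_le_mul_right (lintegral_mono_set fun t ht => ht.1) _)
        rw [lintegral_indicator hXm, setLIntegral_const]
        exact mul_le_mul_right (Measure.restrict_apply_le _ _) _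
    have hPr := ENNReal.toReal_mono (lintegral_excess_ne_top hFi c 8 l) hP
    rw [ENNReal.toReal_ofReal (by positivity)] at hPr
    have hNr := ENNReal.toReal_mono (ENNReal.add_ne_top.2 ⟨ENNReal.ofReal_ne_top,
      ENNReal.mul_ne_top ENNReal.ofReal_ne_top hIfin⟩) hN
    rw [ENNReal.toReal_add ENNReal.ofReal_ne_top (ENNReal.mul_ne_top ENNReal.ofReal_ne_top hIfin),
      ENNReal.toReal_mul, ENNReal.toReal_ofReal (by positivity),
      ENNReal.toReal_ofReal (by positivity)] at hNr
    have hup : (∫ y in closedBall c 8, F y) - D8 * l ≤ D8 * (eps * G) := by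
      have e8 : (volume (closedBall c 8)).toReal = D8 := hvol c 8 (by norm_num)
      rw [avg, e8, div_le_iff₀ hD8] at hfail
      have := mul_le_mul_of_nonneg_left hμ.1.2.le hD8.le
      linarith
    have hpn := posneg hFi c 8 l
    rw [hvol c 8 (by norm_num)] at hpn
    have hX2 := mul_le_mul_of_nonneg_left (hXr.trans
      (mul_le_mul_of_nonneg_left hM1r (by positivity : 0 ≤ 4 / v0))) hD8.le
    have hθG := mul_le_mul_of_nonneg_right hθD hG0
    have e4 : D8 * (eps * G) = c1 / 4 * G := by rw [hepsdef]; field_simp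
    have : c1 / 2 * G ≤ (D8 * (4 / v0 * (2 / κ)) + 2 / v0) * Ir := by linarith
    calc G = 2 / c1 * (c1 / 2 * G) := by field_simp
      _ ≤ 2 / c1 * ((D8 * (4 / v0 * (2 / κ)) + 2 / v0) * Ir) :=
          mul_le_mul_of_nonneg_left this (by positivity)
      _ = Kc * Ir := by rw [hKdef]; ring
  have hG : G ≤ Kc * Ir + (η⁻¹ / eps * Ir + c2⁻¹ / eps * Wr) := by
    rcases hdich with h | h
    · exact h.trans (le_add_of_nonneg_right (by positivity))
    refine le_add_of_nonneg_of_le (by positivity) ?_
    have hTm : MeasurableSet T := measurableSet_Ioo.inter (measurableSet_lt hIm measurable_const)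
    set U := Ioo l (l + eps * G) \ T with hU
    have h1 : ENNReal.ofReal (eps * G) ≤ volume T + volume U := by
      have e : ENNReal.ofReal (eps * G) = volume (Ioo l (l + eps * G)) := by
        rw [Real.volume_Ioo, add_sub_cancel_left]
      rw [e]
      refine le_trans (measure_mono ?_) (measure_union_le _ _)
      intro μ hμ
      by_cases hT' : μ ∈ T
      · exact Or.inl hT'
      · exact Or.inr ⟨hμ, hT'⟩
    have h2 : ENNReal.ofReal η * volume U ≤ IE := by
      rw [← setLIntegral_const]
      refine (setLIntegral_mono' (measurableSet_Ioo.diff hTm) fun μ hμ => ?_).trans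
        (lintegral_mono_set fun μ hμ => hl0.trans_lt hμ.1.1)
      exact not_lt.1 fun h' => hμ.2 ⟨hμ.1, h'⟩
    have h3 : ENNReal.ofReal c2 * volume T ≤ WE := by
      rw [← setLIntegral_const]
      exact (setLIntegral_mono' hTm h).trans (lintegral_mono_set fun μ hμ => hl0.trans_lt hμ.1.1)
    have hTfin : volume T ≠ ⊤ := ne_top_of_le_ne_top measure_Ioo_lt_top.ne
      (measure_mono (μ := volume) inter_subset_left)
    have hUfin : volume U ≠ ⊤ := ne_top_of_le_ne_top measure_Ioo_lt_top.ne
      (measure_mono (μ := volume) sdiff_subset)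
    have h1r := ENNReal.toReal_mono (ENNReal.add_ne_top.2 ⟨hTfin, hUfin⟩) h1
    rw [ENNReal.toReal_ofReal (by positivity), ENNReal.toReal_add hTfin hUfin] at h1r
    have h2r := ENNReal.toReal_mono hIfin h2
    rw [ENNReal.toReal_mul, ENNReal.toReal_ofReal hη.le] at h2r
    have h3r := ENNReal.toReal_mono hWfin h3
    rw [ENNReal.toReal_mul, ENNReal.toReal_ofReal hc2.le] at h3r
    calc G = (eps * G) / eps := by field_simp
      _ ≤ (η⁻¹ * Ir + c2⁻¹ * Wr) / eps := by
          refine div_le_div_of_nonneg_right ?_ heps.le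
          have a1 := (le_inv_mul_iff₀ hη).2 h2r
          have a2 := (le_inv_mul_iff₀ hc2).2 h3r
          linarith
      _ = _ := by ring
  have hfinal : M.toReal ≤ Ct * (Ir + Wr) := by
    have h1 := mul_le_mul_of_nonneg_left hG (by positivity : 0 ≤ θ * κ)
    have p1 : 0 ≤ θ * κ * (c2⁻¹ / eps) * Ir := by positivity
    have p2 : 0 ≤ (2 / κ + θ * κ * Kc + θ * κ * (η⁻¹ / eps)) * Wr := by positivity
    rw [hCtdef]
    linarith
  calc M = ENNReal.ofReal M.toReal := (ENNReal.ofReal_toReal hMfin).symm
    _ ≤ ENNReal.ofReal (Ct * (Ir + Wr)) := ENNReal.ofReal_le_ofReal hfinal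
    _ = ENNReal.ofReal Ct * (IE + WE) := by
        rw [ENNReal.ofReal_mul (by positivity), ENNReal.ofReal_add hI0 hW0,
          ENNReal.ofReal_toReal hIfin, ENNReal.ofReal_toReal hWfin]

end Vale.Agent.P137
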