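import Mathlib

/-!
# P137: endpoint Sobolev bound for the uncentred ball maximal function

Shared definitions and the interfaces between the modules. See `PROOF.md`.
-/

namespace Vale.Agent.P137

open MeasureTheory Metric Set Filter
open scoped InnerProductSpace ENNReal Topology

abbrev E (d : ℕ) := EuclideanSpace ℝ (Fin d)

variable {d : ℕ}

/-- The average of `f` over the closed ball. -/
noncomputable def avg (f : E d → ℝ) (c : E d) (r : ℝ) : ℝ :=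
  (∫ y in closedBall c r, f y) / (volume (closedBall c r)).toReal

/-- The uncentred maximal function, over open balls containing the point. -/
noncomputable def maxFn (f : E d → ℝ) (x : E d) : ℝ≥0∞ :=
  ⨆ (c : E d) (r : ℝ) (_ : x ∈ ball c r),
    (∫⁻ y in ball c r, ENNReal.ofReal |f y|) / volume (ball c r)

/-- The maximal function over closed balls of radius at least `δ` containing the point. -/
noncomputable def gmax (f : E d → ℝ) (δ : ℝ) (x : E d) : ℝ :=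
  sSup {a : ℝ | ∃ c r, δ ≤ r ∧ dist x c ≤ r ∧ a = avg f c r}

/-- The truncation radii. -/
noncomputable def δs (n : ℕ) : ℝ := 1 / ((n : ℝ) + 1)

/-- `g_n`. -/
noncomputable def gn (f : E d → ℝ) (n : ℕ) : E d → ℝ := gmax f (δs n)

/-- A line on which `f` is absolutely continuous with derivative `⟪D, v⟫`. -/
def LineGood (f : E d → ℝ) (D : E d → E d) (x v : E d) : Prop :=
  Continuous (fun t : ℝ => f (x + t • v)) ∧
  ∀ a b : ℝ, IntervalIntegrable (fun t => ⟪D (x + t • v), v⟫_ℝ) volume a b ∧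
    f (x + b • v) - f (x + a • v) = ∫ t in a..b, ⟪D (x + t • v), v⟫_ℝ

/-- A nonnegative Sobolev function with a representative which is good on almost all lines. -/
structure Rep (d : ℕ) where
  f : E d → ℝ
  D : E d → E d
  meas_f : Measurable f
  meas_D : Measurable D
  nonneg : ∀ x, 0 ≤ f x
  int_f : Integrable f volume
  int_D : Integrable D volume
  good : Set (E d × E d)
  meas_good : MeasurableSet good
  ae_good : ∀ v : E d, ∀ᵐ x : E d, (x, v) ∈ good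
  good_shift : ∀ x v : E d, ∀ s : ℝ, (x, v) ∈ good → (x + s • v, v) ∈ good
  lineGood : ∀ x v : E d, (x, v) ∈ good → LineGood f D x v

/-- Weak gradient. -/
def HasWeakGrad (f : E d → ℝ) (g : E d → E d) : Prop :=
  ∀ φ : E d → ℝ, ContDiff ℝ (⊤ : ℕ∞) φ → HasCompactSupport φ → ∀ v : E d,
    ∫ x, f x * fderiv ℝ φ x v = - ∫ x, ⟪g x, v⟫_ℝ * φ x

/-- `t = 0` lies in a short interval of `{f > μ}` or of its complement on the line `y + t v`
(windows of length `L`; rational quantifiers, for measurability). -/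
def Pattern (f : E d → ℝ) (L μ : ℝ) (y v : E d) : Prop :=
  (μ < f y ∧
    (∀ n : ℕ, ∃ q : ℚ, 0 ≤ (q : ℝ) ∧ (q : ℝ) ≤ L ∧ f (y - (q : ℝ) • v) < μ + 1 / ((n : ℝ) + 1)) ∧
    (∀ n : ℕ, ∃ q : ℚ, 0 ≤ (q : ℝ) ∧ (q : ℝ) ≤ L ∧ f (y + (q : ℝ) • v) < μ + 1 / ((n : ℝ) + 1)))
  ∨ (f y ≤ μ ∧
    (∃ q : ℚ, 0 ≤ (q : ℝ) ∧ (q : ℝ) ≤ L ∧ μ < f (y - (q : ℝ) • v)) ∧
    (∃ q : ℚ, 0 ≤ (q : ℝ) ∧ (q : ℝ) ≤ L ∧ μ < f (y + (q : ℝ) • v)))

/-- Pairs forming a short interval near the origin, at unit scale. -/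
def PatternSet (f : E d → ℝ) (L μ : ℝ) : Set (E d × E d) :=
  {p | p.1 ∈ closedBall 0 L ∧ p.2 ∈ closedBall 0 L ∧ Pattern f L μ p.1 p.2}

/-- A crossing of level `μ` located at distance comparable to `r` from the complement of `O`. -/
def Crossing (f : E d → ℝ) (O : Set (E d)) (L r μ : ℝ) (p w : E d) : Prop :=
  ‖w‖ ≤ r / 10 ∧ μ < f p ∧ f (p + w) ≤ μ ∧
    closedBall p (3 * r / 20) ⊆ O ∧ ¬ closedBall p (L * r) ⊆ O

/-- Crossings near the origin, at unit scale. -/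
def CrossingSet (f : E d → ℝ) (O : Set (E d)) (L μ : ℝ) : Set (E d × E d) :=
  {p | p.1 ∈ closedBall 0 L ∧ ‖p.2‖ ≤ 1 / 20 ∧ Crossing f O L 1 μ p.1 p.2}

/-- Module Flat: a set with few short intervals is almost a half space. -/
def FlatStmt : Prop :=
  ∀ d : ℕ, 0 < d → ∀ ω L : ℝ, 0 < ω → 1 ≤ L → ∃ η L' : ℝ, 0 < η ∧ L ≤ L' ∧
    ∀ F : E d → ℝ, Measurable F →
      (∀ v : E d, ∀ᵐ y : E d, Continuous fun t : ℝ => F (y + t • v)) →
      ∀ μ : ℝ, volume (PatternSet F L' μ) < ENNReal.ofReal η →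
        ∃ (ν : E d) (a : ℝ), ‖ν‖ = 1 ∧
          volume (closedBall (0 : E d) L ∩ symmDiff {y | μ < F y} {y | a < ⟪ν, y⟫_ℝ})
            ≤ ENNReal.ofReal ω

/-- Module Core: the excess of a low-density maximising ball is paid by short intervals and
well-placed crossings. -/
def CoreStmt : Prop :=
  ∀ d : ℕ, 0 < d → ∃ θ L C : ℝ, 0 < θ ∧ 1 ≤ L ∧ 0 < C ∧
    ∀ (F : E d → ℝ) (O : ℝ → Set (E d)) (x : E d), Measurable F → LocallyIntegrable F volume →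
      (∀ y, 0 ≤ F y) →
      (∀ v : E d, ∀ᵐ y : E d, Continuous fun t : ℝ => F (y + t • v)) →
      (∀ (c : E d) (R μ : ℝ), 1 ≤ R → μ < avg F c R → closedBall c R ⊆ O μ) →
      ‖x‖ ≤ 1 → (∀ μ, avg F 0 1 < μ → x ∉ O μ) →
      volume (closedBall (0 : E d) 1 ∩ {y | avg F 0 1 < F y})
        ≤ ENNReal.ofReal θ * volume (closedBall (0 : E d) 1) →
      ∫⁻ y in closedBall (0 : E d) 1, ENNReal.ofReal (F y - avg F 0 1)
        ≤ ENNReal.ofReal C * ((∫⁻ μ in Ioi 0, volume (PatternSet F L μ))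
          + ∫⁻ μ in Ioi 0, volume (CrossingSet F (O μ) L μ))

/-- Total short-interval mass at scale `r`, scale invariantly normalised. -/
noncomputable def scaleI (R : Rep d) (L r : ℝ) : ℝ≥0∞ :=
  ENNReal.ofReal ((r ^ (d + 1))⁻¹) * ∫⁻ μ in Ioi (0 : ℝ),
    volume {p : E d × E d | ‖p.2‖ ≤ L * r ∧ Pattern R.f L μ p.1 p.2}

/-- Total crossing mass at scale `r`, scale invariantly normalised. -/
noncomputable def scaleW (R : Rep d) (n : ℕ) (L r : ℝ) : ℝ≥0∞ :=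
  ENNReal.ofReal ((r ^ (d + 1))⁻¹) * ∫⁻ μ in Ioi (0 : ℝ),
    volume {p : E d × E d | Crossing R.f {z | μ < gn R.f n z} L r μ p.1 p.2}

/-- Module Sums: both functionals are summable over geometric scales. -/
def SumsStmt : Prop :=
  ∀ d : ℕ, 0 < d → ∀ L q : ℝ, 1 ≤ L → 1 < q → q ≤ 2 → ∃ C : ℝ≥0∞, C ≠ ⊤ ∧ ∀ R : Rep d,
    (∑' k : ℤ, scaleI R L (q ^ k)) ≤ C * ∫⁻ x, ‖R.D x‖ₑ ∧
    Tendsto (fun J : ℕ => ∑' k : {k : ℤ // q ^ k < δs J}, scaleI R L (q ^ (k : ℤ))) atTop (𝓝 0) ∧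
    (∀ n : ℕ, (∑' k : ℤ, scaleW R n L (q ^ k)) ≤ C * ∫⁻ x, ‖R.D x‖ₑ) ∧
    Tendsto (fun J : ℕ => ⨆ (n : ℕ) (_ : J ≤ n),
      ∑' k : {k : ℤ // q ^ k < δs J}, scaleW R n L (q ^ (k : ℤ))) atTop (𝓝 0)

/-- `x` lies on or in a maximising ball of `g_n` of radius below `ρ`, in which `{f > g_n x}` has
density at least (`high`) resp. at most `θ`. -/
def HasBall (R : Rep d) (n : ℕ) (θ ρ : ℝ) (high : Bool) (x : E d) : Prop :=
  ∃ c r, δs n ≤ r ∧ r < ρ ∧ dist x c ≤ r ∧ avg R.f c r = gn R.f n x ∧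
    bif high then ENNReal.ofReal θ * volume (closedBall c r)
        ≤ volume (closedBall c r ∩ {y | gn R.f n x < R.f y})
      else volume (closedBall c r ∩ {y | gn R.f n x < R.f y})
        ≤ ENNReal.ofReal θ * volume (closedBall c r)

/-- Measurable majorants of `‖∇ g_n‖` on the points with a high (resp. low) density ball. -/
def GradBoundAt (θ : ℝ) (high : Bool) (C : ℝ≥0∞) (R : Rep d) : Prop :=
  ∃ (Φ : ℕ → E d → ℝ≥0∞) (Ψ : ℕ → ℕ → E d → ℝ≥0∞),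
    (∀ n, Measurable (Φ n)) ∧ (∀ n J, Measurable (Ψ n J)) ∧
    (∀ n, ∀ᵐ x : E d, R.f x ≤ gn R.f n x → (∃ ρ, HasBall R n θ ρ high x) →
      ‖fderiv ℝ (gn R.f n) x‖ₑ ≤ Φ n x) ∧
    (∀ n J, J ≤ n → ∀ᵐ x : E d, R.f x ≤ gn R.f n x → ENNReal.ofReal (R.f x) < maxFn R.f x →
      HasBall R n θ (δs J) high x → ‖fderiv ℝ (gn R.f n) x‖ₑ ≤ Ψ n J x) ∧
    (∀ n, ∫⁻ x, Φ n x ≤ C * ∫⁻ x, ‖R.D x‖ₑ) ∧
    Tendsto (fun J : ℕ => ⨆ (n : ℕ) (_ : J ≤ n), ∫⁻ x, Ψ n J x) atTop (𝓝 0)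

/-- Module High. -/
def HighStmt : Prop :=
  ∀ d : ℕ, 0 < d → ∀ θ : ℝ, 0 < θ → ∃ C : ℝ≥0∞, C ≠ ⊤ ∧ ∀ R : Rep d, GradBoundAt θ true C R

/-- Module Low. -/
def LowStmt : Prop :=
  ∀ d : ℕ, 0 < d → ∃ θ : ℝ, 0 < θ ∧ ∃ C : ℝ≥0∞, C ≠ ⊤ ∧ ∀ R : Rep d, GradBoundAt θ false C R

/-- Module Rep: absolutely continuous representative of `|f|`. -/
def RepStmt : Prop :=
  ∀ (d : ℕ) (f : E d → ℝ) (g : E d → E d), 0 < d → Integrable f volume → Integrable g volume →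
    HasWeakGrad f g →
      ∃ R : Rep d, R.f =ᵐ[volume] (fun x => |f x|) ∧ ∫⁻ x, ‖R.D x‖ₑ ≤ ∫⁻ x, ‖g x‖ₑ

/-- The final statement. -/
def MainStmt : Prop :=
  ∀ d : ℕ, 0 < d → ∃ C : ℝ, 0 < C ∧ ∀ (f : E d → ℝ) (g : E d → E d),
    Integrable f volume → Integrable g volume → HasWeakGrad f g →
      ∃ (h : E d → ℝ) (H : E d → E d), LocallyIntegrable h volume ∧
        (∀ᵐ x : E d, maxFn f x = ENNReal.ofReal (h x)) ∧
        Integrable H volume ∧ HasWeakGrad h H ∧ ∫ x, ‖H x‖ ≤ C * ∫ x, ‖g x‖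

end Vale.Agent.P137
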