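import Vale.Agent.P137.PatternBasic

/-!
A set with few short intervals is almost a half space.
-/

namespace Vale.Agent.P137

open MeasureTheory Metric Set Filter
open scoped InnerProductSpace ENNReal Topology

variable {d : ℕ}

/-- Averaging over segments of lines of a fixed direction. -/
lemma line_average {A : Set (E d)} (hA : MeasurableSet A) (v : E d) :
    ENNReal.ofReal 2 * volume A
      = ∫⁻ x : E d, volume (Icc (-1 : ℝ) 1 ∩ {t : ℝ | x + t • v ∈ A}) := by
  set T : Set (E d × ℝ) := {p | p.1 + p.2 • v ∈ A}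
  have hT : MeasurableSet T := (by fun_prop : Measurable fun p : E d × ℝ => p.1 + p.2 • v) hA
  have h := (Measure.prod_apply (μ := (volume : Measure (E d)))
    (ν := (volume : Measure ℝ).restrict (Icc (-1) 1)) hT).symm.trans (Measure.prod_apply_symm hT)
  simp only [Measure.restrict_apply' measurableSet_Icc] at h
  simp only [inter_comm (Icc (-1 : ℝ) 1)]
  refine Eq.trans ?_ h.symm
  have e : ∀ t : ℝ, volume ((fun x : E d => (x, t)) ⁻¹' T) = volume A :=
    fun t => measure_preimage_add_right (volume : Measure (E d)) (t • v) A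
  rw [lintegral_congr e, lintegral_const, Measure.restrict_apply MeasurableSet.univ, univ_inter,
    Real.volume_Icc, mul_comm]
  norm_num

/-- The part of a one-directional difference set outside the pattern set is short on every line. -/
lemma differ_le {F : E d → ℝ} (hF : Measurable F) {L L' μ s : ℝ} (hs : 0 ≤ s)
    {v : E d} (hv : 1 ≤ ‖v‖) (hvL : ‖v‖ ≤ L') (hL' : 2 * (L + 1) < L') (hL : 0 ≤ L)
    (hline : ∀ᵐ y : E d, Continuous fun t : ℝ => F (y + t • v)) :
    ENNReal.ofReal 2 * volume (closedBall (0 : E d) (L + 1) ∩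
        {y | ¬ (μ < F y ↔ μ < F (y + s • v))})
      ≤ ENNReal.ofReal (2 * s) * volume (closedBall (0 : E d) (L + 1 + ‖v‖))
        + ENNReal.ofReal 2 * volume {y | (y, v) ∈ PatternSet F L' μ} := by
  set P := {y | (y, v) ∈ PatternSet F L' μ}
  have hP : MeasurableSet P := (measurable_id.prodMk measurable_const)
    (measurableSet_patternSet' hF L' μ)
  set B := closedBall (0 : E d) (L + 1) with hB
  set S1 := (B ∩ {y | μ < F y ∧ F (y + s • v) ≤ μ}) \ P with hS1
  set S2 := (B ∩ {y | F y ≤ μ ∧ μ < F (y + s • v)}) \ P with hS2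
  have hFs : Measurable fun y => F (y + s • v) := hF.comp (measurable_id.add_const _)
  have m1 : MeasurableSet S1 := (measurableSet_closedBall.inter
    ((measurableSet_lt measurable_const hF).inter (measurableSet_le hFs measurable_const))).diff hP
  have m2 : MeasurableSet S2 := (measurableSet_closedBall.inter
    ((measurableSet_le hF measurable_const).inter (measurableSet_lt measurable_const hFs))).diff hP
  have hsub : B ∩ {y | ¬ (μ < F y ↔ μ < F (y + s • v))} ⊆ (S1 ∪ S2) ∪ P := by
    rintro y ⟨hy, hne⟩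
    by_cases hp : y ∈ P
    · exact Or.inr hp
    by_cases h1 : μ < F y
    · exact Or.inl (Or.inl ⟨⟨hy, h1, not_lt.1 fun h => hne ⟨fun _ => h, fun _ => h1⟩⟩, hp⟩)
    · exact Or.inl (Or.inr ⟨⟨hy, not_lt.1 h1,
        not_not.1 fun h => hne ⟨fun h' => absurd h' h1, fun h' => absurd h' h⟩⟩, hp⟩)
  -- each piece has diameter at most `s` on every good line
  have key : ∀ S : Set (E d), MeasurableSet S → S ⊆ B →
      (∀ x : E d, (Continuous fun t : ℝ => F (x + t • v)) → ∀ t t' : ℝ, t ≤ t' →
        x + t • v ∈ S → x + t' • v ∈ S → t' - t ≤ s) →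
      ENNReal.ofReal 2 * volume S
        ≤ ENNReal.ofReal s * volume (closedBall (0 : E d) (L + 1 + ‖v‖)) := by
    intro S hS hSB hdiam
    rw [line_average hS v, ← setLIntegral_const, ← lintegral_indicator measurableSet_closedBall]
    refine lintegral_mono_ae ?_
    filter_upwards [hline] with x hx
    by_cases hmem : x ∈ closedBall (0 : E d) (L + 1 + ‖v‖)
    · rw [Set.indicator_of_mem hmem]
      refine (measure_mono inter_subset_right).trans ((Real.volume_le_diam _).trans ?_)
      refine Metric.ediam_le fun t ht t' ht' => ?_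
      rw [edist_dist, Real.dist_eq]
      refine ENNReal.ofReal_le_ofReal (abs_le.2 ⟨?_, ?_⟩)
      · rcases le_total t t' with h | h
        · linarith [hdiam x hx t t' h ht ht']
        · linarith
      · rcases le_total t t' with h | h
        · linarith
        · linarith [hdiam x hx t' t h ht' ht]
    · rw [Set.indicator_of_notMem hmem, nonpos_iff_eq_zero, measure_eq_zero_iff_ae_notMem]
      refine Eventually.of_forall fun t ht => hmem ?_
      have h1 : ‖x + t • v‖ ≤ L + 1 := by simpa [hB] using hSB ht.2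
      have h2 := norm_sub_le (x + t • v) (t • v)
      rw [add_sub_cancel_right, norm_smul, Real.norm_eq_abs] at h2
      have h3 : |t| * ‖v‖ ≤ 1 * ‖v‖ :=
        mul_le_mul_of_nonneg_right (abs_le.2 ht.1) (norm_nonneg v)
      simpa using show ‖x‖ ≤ L + 1 + ‖v‖ by linarith
  have hwin : ∀ x : E d, ∀ t t' : ℝ, x + t • v ∈ B → x + t' • v ∈ B → t ≤ t' → t' - t < L' := by
    intro x t t' h h' htt
    have h1 : ‖(t' - t) • v‖ ≤ 2 * (L + 1) := by
      rw [show (t' - t) • v = (x + t' • v) - (x + t • v) by module]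
      simp only [hB, mem_closedBall, dist_zero_right] at h h'
      exact (norm_sub_le _ _).trans (by linarith)
    rw [norm_smul, Real.norm_eq_abs, abs_of_nonneg (sub_nonneg.2 htt)] at h1
    have := le_mul_of_one_le_right (sub_nonneg.2 htt) hv
    linarith
  have k1 := key S1 m1 (fun y hy => hy.1.1) fun x hx t t' htt ht ht' => by
    by_contra hlt
    push Not at hlt
    have hc : Continuous fun τ : ℝ => F ((x + t' • v) + τ • v) := by
      have := hx.comp (continuous_const_add t')
      simpa [Function.comp_def, add_smul, add_assoc] using this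
    refine ht'.2 ⟨closedBall_subset_closedBall (by linarith) ht'.1.1, by simpa using hvL,
      pattern_of_real hc (a := t' - t - s) (b := s) (by linarith)
        (by linarith [hwin x t t' ht.1.1 ht'.1.1 htt]) hs
        (by linarith [hwin x t t' ht.1.1 ht'.1.1 htt]) (Or.inl ⟨ht'.1.2.1, ?_, ht'.1.2.2⟩)⟩
    rw [show (x + t' • v) - (t' - t - s) • v = (x + t • v) + s • v by module]
    exact ht.1.2.2
  have k2 := key S2 m2 (fun y hy => hy.1.1) fun x hx t t' htt ht ht' => by
    by_contra hlt
    push Not at hlt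
    have hc : Continuous fun τ : ℝ => F ((x + t' • v) + τ • v) := by
      have := hx.comp (continuous_const_add t')
      simpa [Function.comp_def, add_smul, add_assoc] using this
    refine ht'.2 ⟨closedBall_subset_closedBall (by linarith) ht'.1.1, by simpa using hvL,
      pattern_of_real hc (a := t' - t - s) (b := s) (by linarith)
        (by linarith [hwin x t t' ht.1.1 ht'.1.1 htt]) hs
        (by linarith [hwin x t t' ht.1.1 ht'.1.1 htt]) (Or.inr ⟨ht'.1.2.1, ?_, ht'.1.2.2⟩)⟩
    rw [show (x + t' • v) - (t' - t - s) • v = (x + t • v) + s • v by module]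
    exact ht.1.2.2
  calc ENNReal.ofReal 2 * volume (B ∩ {y | ¬ (μ < F y ↔ μ < F (y + s • v))})
      ≤ ENNReal.ofReal 2 * (volume S1 + volume S2 + volume P) := by
        refine mul_le_mul_right ((measure_mono hsub).trans ?_) _
        exact (measure_union_le _ _).trans (add_le_add (measure_union_le _ _) le_rfl)
    _ ≤ _ := by
        rw [mul_add, mul_add, two_mul s, ENNReal.ofReal_add hs hs, add_mul]
        exact add_le_add (add_le_add k1 k2) le_rfl

/-- The modulus of continuity in measure. -/
lemma modulus {F : E d → ℝ} (hF : Measurable F)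
    (hline : ∀ v : E d, ∀ᵐ y : E d, Continuous fun t : ℝ => F (y + t • v)) {L L' μ s : ℝ}
    (hL : 0 ≤ L) (hL' : 2 * (L + 1) + 5 < L') (hs : 0 ≤ s) (hs1 : s ≤ 1)
    {e : E d} (he : ‖e‖ = 1) {u : E d} (hu : ‖u‖ ≤ 1) :
    ENNReal.ofReal 2 * volume (closedBall (0 : E d) L ∩ {y | ¬ (μ < F y ↔ μ < F (y + s • u))})
        * volume (closedBall ((3 : ℝ) • e) (1 / 2))
      ≤ ENNReal.ofReal (4 * s) * volume (closedBall (0 : E d) (L + 6))
          * volume (closedBall ((3 : ℝ) • e) (1 / 2))
        + ENNReal.ofReal 4 * volume (PatternSet F L' μ) := by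
  set An := closedBall ((3 : ℝ) • e) (1 / 2) with hAn
  set D : E d → Set (E d) := fun v => closedBall (0 : E d) (L + 1) ∩
    {y | ¬ (μ < F y ↔ μ < F (y + s • v))}
  set Dm := closedBall (0 : E d) L ∩ {y | ¬ (μ < F y ↔ μ < F (y + s • u))}
  have hbound : ∀ v : E d, 1 ≤ ‖v‖ → ‖v‖ ≤ 5 → ENNReal.ofReal 2 * volume (D v)
      ≤ ENNReal.ofReal (2 * s) * volume (closedBall (0 : E d) (L + 6))
        + ENNReal.ofReal 2 * volume {y | (y, v) ∈ PatternSet F L' μ} := fun v h1 h2 =>
    (differ_le hF hs h1 (by linarith) (by linarith) hL (hline v)).trans (add_le_add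
      (mul_le_mul_right (measure_mono (closedBall_subset_closedBall (by linarith))) _) le_rfl)
  have hpt : ∀ v ∈ An, ENNReal.ofReal 2 * volume Dm
      ≤ ENNReal.ofReal (4 * s) * volume (closedBall (0 : E d) (L + 6))
        + (ENNReal.ofReal 2 * volume {y | (y, u + v) ∈ PatternSet F L' μ}
          + ENNReal.ofReal 2 * volume {y | (y, v) ∈ PatternSet F L' μ}) := by
    intro v hv
    have hv' : ‖v - (3 : ℝ) • e‖ ≤ 1 / 2 := by rwa [← dist_eq_norm]
    have h3 : ‖(3 : ℝ) • e‖ = 3 := by rw [norm_smul, he]; norm_num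
    have hlo : 5 / 2 ≤ ‖v‖ := by
      have := norm_sub_norm_le ((3 : ℝ) • e) v
      rw [norm_sub_rev] at this
      linarith
    have hhi : ‖v‖ ≤ 7 / 2 := by linarith [norm_le_norm_add_norm_sub' v ((3 : ℝ) • e)]
    have hlo' : 1 ≤ ‖u + v‖ := by
      have := norm_sub_le (u + v) u
      rw [add_sub_cancel_left] at this
      linarith
    have hsub : Dm ⊆ D (u + v) ∪ (fun y => y + s • u) ⁻¹' D v := by
      rintro y ⟨hy, hne⟩
      by_cases h : (μ < F y ↔ μ < F (y + s • (u + v)))
      · refine Or.inr ⟨?_, ?_⟩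
        · have : ‖y‖ ≤ L := by simpa using hy
          have h2 : ‖s • u‖ ≤ 1 := by
            rw [norm_smul, Real.norm_eq_abs, abs_of_nonneg hs]
            exact mul_le_one₀ hs1 (norm_nonneg _) hu
          simpa using (norm_add_le y (s • u)).trans (by linarith)
        · show ¬ (μ < F (y + s • u) ↔ μ < F (y + s • u + s • v))
          rw [add_assoc, ← smul_add]
          exact fun h' => hne (h.trans h'.symm)
      · exact Or.inl ⟨closedBall_subset_closedBall (by linarith) hy, h⟩
    have h := mul_le_mul_right ((measure_mono (μ := volume) hsub).trans (measure_union_le _ _))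
      (ENNReal.ofReal 2)
    rw [mul_add, measure_preimage_add_right] at h
    refine h.trans ((add_le_add (hbound _ hlo' ((norm_add_le u v).trans (by linarith)))
      (hbound v (by linarith) (by linarith))).trans_eq ?_)
    rw [show 4 * s = 2 * s + 2 * s by ring, ENNReal.ofReal_add (by linarith) (by linarith), add_mul,
      add_add_add_comm]
  have hm := measurableSet_patternSet' hF L' μ
  have hsec : Measurable fun v => volume {y | (y, v) ∈ PatternSet F L' μ} :=
    measurable_measure_prodMk_right hm
  have htot : ∫⁻ v, volume {y | (y, v) ∈ PatternSet F L' μ} = volume (PatternSet F L' μ) :=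
    (Measure.prod_apply_symm hm).symm
  have h := setLIntegral_mono' (μ := volume) measurableSet_closedBall hpt
  rw [setLIntegral_const] at h
  refine h.trans ?_
  have hsec' : Measurable fun v => volume {y | (y, u + v) ∈ PatternSet F L' μ} :=
    hsec.comp (measurable_const_add u)
  rw [lintegral_add_left measurable_const, setLIntegral_const,
    lintegral_add_left (hsec'.const_mul _), lintegral_const_mul _ hsec', lintegral_const_mul _ hsec]
  refine add_le_add le_rfl ?_
  rw [show (4 : ℝ) = 2 + 2 by norm_num, ENNReal.ofReal_add zero_le_two zero_le_two, add_mul]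
  refine add_le_add (mul_le_mul_right ?_ _)
    (mul_le_mul_right ((setLIntegral_le_lintegral _ _).trans htot.le) _)
  exact (setLIntegral_le_lintegral _ _).trans
    ((lintegral_add_left_eq_self (fun w => volume {y | (y, w) ∈ PatternSet F L' μ}) u).trans
      htot).le

/-- The pattern set controls failures of convexity. -/
lemma triple_bound {F : E d → ℝ} (hF : Measurable F)
    (hline : ∀ v : E d, ∀ᵐ y : E d, Continuous fun t : ℝ => F (y + t • v)) {L L' μ : ℝ}
    (hL : 0 ≤ L) (hL' : 2 * L + 1 < L') {s : ℝ} (hs : 0 ≤ s) (hs1 : s ≤ 1) (Q : Set (E d))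
    (hQ : Q = {y | μ < F y} ∨ Q = {y | F y ≤ μ}) :
    volume {p : E d × E d | p.1 ∈ closedBall 0 L ∧ p.2 ∈ closedBall 0 L ∧ p.1 ∈ Q ∧ p.2 ∈ Q ∧
        (1 - s) • p.1 + s • p.2 ∉ Q} ≤ volume (PatternSet F L' μ) := by
  have hQm : MeasurableSet Q := by
    rcases hQ with rfl | rfl
    exacts [measurableSet_lt measurable_const hF, measurableSet_le hF measurable_const]
  set T : Set (E d × E d) := {p | p.1 ∈ closedBall 0 L ∧ p.2 ∈ closedBall 0 (2 * L) ∧
    p.1 - s • p.2 ∈ Q ∧ p.1 + (1 - s) • p.2 ∈ Q ∧ p.1 ∉ Q} with hT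
  have hTm : MeasurableSet T := (measurable_fst measurableSet_closedBall).inter
    ((measurable_snd measurableSet_closedBall).inter
    (((measurable_fst.sub (measurable_snd.const_smul s)) hQm).inter
    (((measurable_fst.add (measurable_snd.const_smul (1 - s))) hQm).inter
      (measurable_fst hQm.compl))))
  have hT' : volume T ≤ volume (PatternSet F L' μ) := by
    refine volume_triple_le hF hline hs (by linarith) (by linarith : (0 : ℝ) ≤ 1 - s) (by linarith)
      T hTm fun p hp => ⟨closedBall_subset_closedBall (by linarith) hp.1,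
        closedBall_subset_closedBall (by linarith) hp.2.1, ?_⟩
    obtain ⟨-, -, h1, h2, h3⟩ := hp
    rcases hQ with rfl | rfl
    · exact Or.inr ⟨not_lt.1 h3, h1, h2⟩
    · exact Or.inl ⟨not_le.1 h3, h1, h2⟩
  refine le_trans (le_trans (measure_mono
    (t := (fun p : E d × E d => (p.1 + s • (p.2 - p.1), p.2 - p.1)) ⁻¹' T) ?_) (le_of_eq ?_)) hT'
  · rintro ⟨z, u⟩ ⟨hz, hu, hzQ, huQ, hn⟩
    have e1 : (1 - s) • z + s • u = z + s • (u - z) := by module
    refine ⟨?_, ?_, ?_, ?_, ?_⟩
    · show z + s • (u - z) ∈ closedBall (0 : E d) L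
      rw [← e1]
      exact convex_closedBall (0 : E d) L hz hu (by linarith) hs (by ring)
    · simp only [mem_closedBall, dist_zero_right] at hz hu ⊢
      exact (norm_sub_le u z).trans (by linarith)
    · show z + s • (u - z) - s • (u - z) ∈ Q
      rwa [add_sub_cancel_right]
    · show z + s • (u - z) + (1 - s) • (u - z) ∈ Q
      rwa [show z + s • (u - z) + (1 - s) • (u - z) = u by module]
    · show z + s • (u - z) ∉ Q
      rwa [← e1]
  · have h1 : MeasurableSet ((fun p : E d × E d => (p.1 + s • p.2, p.2)) ⁻¹' T) :=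
      (by fun_prop : Measurable fun p : E d × E d => (p.1 + s • p.2, p.2)) hTm
    have h2 : MeasurableSet ((fun p : E d × E d => (p.1 + s • (p.2 - p.1), p.2 - p.1)) ⁻¹' T) :=
      (by fun_prop : Measurable fun p : E d × E d => (p.1 + s • (p.2 - p.1), p.2 - p.1)) hTm
    rw [Measure.volume_eq_prod, Measure.prod_apply h2, Measure.prod_apply_symm hTm]
    have e : ∀ z : E d, volume (Prod.mk z ⁻¹'
        ((fun p : E d × E d => (p.1 + s • (p.2 - p.1), p.2 - p.1)) ⁻¹' T))
        = volume (Prod.mk z ⁻¹' ((fun p : E d × E d => (p.1 + s • p.2, p.2)) ⁻¹' T)) := fun z => by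
      rw [← measure_preimage_add_right volume (-z)
        (Prod.mk z ⁻¹' ((fun p : E d × E d => (p.1 + s • p.2, p.2)) ⁻¹' T))]
      simp only [sub_eq_add_neg]
      rfl
    rw [lintegral_congr e, ← Measure.prod_apply h1, Measure.prod_apply_symm h1]
    exact lintegral_congr fun w =>
      measure_preimage_add_right volume (s • w) ((fun x : E d => (x, w)) ⁻¹' T)

/-- Convex combinations of good points are good. -/
lemma good_step {Q : Set (E d)} (hQ : MeasurableSet Q) {R r : ℝ} {P err : ℝ≥0∞}
    (htri : ∀ s : ℝ, 0 ≤ s → s ≤ 1 → volume {p : E d × E d | p.1 ∈ closedBall 0 R ∧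
      p.2 ∈ closedBall 0 R ∧ p.1 ∈ Q ∧ p.2 ∈ Q ∧ (1 - s) • p.1 + s • p.2 ∉ Q} ≤ P)
    {a b : E d} {s : ℝ} (hs : 0 ≤ s) (hs1 : s ≤ 1) (hr : 0 ≤ r) (ha : ‖a‖ + r ≤ R)
    (hb : ‖b‖ + r ≤ R) (ga : volume (closedBall a r \ Q) ≤ err)
    (gb : volume (closedBall b r \ Q) ≤ err) :
    volume (closedBall ((1 - s) • a + s • b) (r / 2) \ Q) * volume (closedBall (0 : E d) (r / 2))
      ≤ 2 * err * volume (closedBall (0 : E d) (r / 2)) + P := by
  set p := (1 - s) • a + s • b with hp
  set W := closedBall (0 : E d) (r / 2) with hW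
  set T := {q : E d × E d | q.1 ∈ closedBall 0 R ∧
      q.2 ∈ closedBall 0 R ∧ q.1 ∈ Q ∧ q.2 ∈ Q ∧ (1 - s) • q.1 + s • q.2 ∉ Q}
  have hTm : MeasurableSet T := (measurable_fst measurableSet_closedBall).inter
    ((measurable_snd measurableSet_closedBall).inter ((measurable_fst hQ).inter
    ((measurable_snd hQ).inter
      (((measurable_fst.const_smul (1 - s)).add (measurable_snd.const_smul s)) hQ.compl))))
  set φ : E d × E d → E d × E d :=
    fun q => (q.1 + (a - p) + s • q.2, q.1 + (b - p) - (1 - s) • q.2) with hφ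
  have hφm : Measurable φ := by fun_prop
  set A1 : Set (E d × E d) := {q | q.2 ∈ W ∧ q.1 + (a - p) + s • q.2 ∈ closedBall a r \ Q}
  set A2 : Set (E d × E d) := {q | q.2 ∈ W ∧ q.1 + (b - p) - (1 - s) • q.2 ∈ closedBall b r \ Q}
  have hA1 : MeasurableSet A1 := (measurable_snd measurableSet_closedBall).inter
    ((by fun_prop : Measurable fun q : E d × E d => q.1 + (a - p) + s • q.2)
      (measurableSet_closedBall.diff hQ))
  have hA2 : MeasurableSet A2 := (measurable_snd measurableSet_closedBall).inter
    ((by fun_prop : Measurable fun q : E d × E d => q.1 + (b - p) - (1 - s) • q.2)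
      (measurableSet_closedBall.diff hQ))
  have hsub : (closedBall p (r / 2) \ Q) ×ˢ W ⊆ (A1 ∪ A2) ∪ φ ⁻¹' T := by
    rintro ⟨y, w⟩ ⟨⟨hy, hyQ⟩, hw⟩
    have hy' : ‖y - p‖ ≤ r / 2 := by rwa [← dist_eq_norm]
    have hw' : ‖w‖ ≤ r / 2 := by simpa [hW] using hw
    have hz : y + (a - p) + s • w ∈ closedBall a r := by
      rw [mem_closedBall, dist_eq_norm, show y + (a - p) + s • w - a = (y - p) + s • w by module]
      refine (norm_add_le _ _).trans ?_
      rw [norm_smul, Real.norm_eq_abs, abs_of_nonneg hs]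
      linarith [mul_le_of_le_one_left (norm_nonneg w) hs1]
    have hu : y + (b - p) - (1 - s) • w ∈ closedBall b r := by
      rw [mem_closedBall, dist_eq_norm,
        show y + (b - p) - (1 - s) • w - b = (y - p) - (1 - s) • w by module]
      refine (norm_sub_le _ _).trans ?_
      rw [norm_smul, Real.norm_eq_abs, abs_of_nonneg (by linarith : 0 ≤ 1 - s)]
      linarith [mul_le_of_le_one_left (norm_nonneg w) (by linarith : 1 - s ≤ 1)]
    by_cases h1 : y + (a - p) + s • w ∈ Q
    swap; · exact Or.inl (Or.inl ⟨hw, hz, h1⟩)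
    by_cases h2 : y + (b - p) - (1 - s) • w ∈ Q
    swap; · exact Or.inl (Or.inr ⟨hw, hu, h2⟩)
    refine Or.inr ⟨closedBall_subset_closedBall' (by rw [dist_zero_right]; linarith) hz,
      closedBall_subset_closedBall' (by rw [dist_zero_right]; linarith) hu, h1, h2, ?_⟩
    show (1 - s) • (y + (a - p) + s • w) + s • (y + (b - p) - (1 - s) • w) ∉ Q
    rwa [show (1 - s) • (y + (a - p) + s • w) + s • (y + (b - p) - (1 - s) • w) = y by
      rw [hp]; module]
  have key : ∀ (A : Set (E d × E d)), MeasurableSet A →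
      (∀ w : E d, volume ((fun y : E d => (y, w)) ⁻¹' A) ≤ W.indicator (fun _ => err) w) →
      volume A ≤ err * volume W := by
    intro A hA h
    rw [Measure.volume_eq_prod, Measure.prod_apply_symm hA, ← setLIntegral_const,
      ← lintegral_indicator measurableSet_closedBall]
    exact lintegral_mono h
  have h1 : volume A1 ≤ err * volume W := by
    refine key A1 hA1 fun w => ?_
    by_cases hw : w ∈ W
    · rw [Set.indicator_of_mem hw]
      refine le_trans (measure_mono ?_) ((measure_preimage_add_right volume ((a - p) + s • w)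
        (closedBall a r \ Q)).le.trans ga)
      intro y hy
      show y + ((a - p) + s • w) ∈ closedBall a r \ Q
      rw [← add_assoc]; exact hy.2
    · rw [Set.indicator_of_notMem hw, nonpos_iff_eq_zero, measure_eq_zero_iff_ae_notMem]
      exact Eventually.of_forall fun y hy => hw hy.1
  have h2 : volume A2 ≤ err * volume W := by
    refine key A2 hA2 fun w => ?_
    by_cases hw : w ∈ W
    · rw [Set.indicator_of_mem hw]
      refine le_trans (measure_mono ?_) ((measure_preimage_add_right volume ((b - p) - (1 - s) • w)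
        (closedBall b r \ Q)).le.trans gb)
      intro y hy
      show y + ((b - p) - (1 - s) • w) ∈ closedBall b r \ Q
      rw [← add_sub_assoc]; exact hy.2
    · rw [Set.indicator_of_notMem hw, nonpos_iff_eq_zero, measure_eq_zero_iff_ae_notMem]
      exact Eventually.of_forall fun y hy => hw hy.1
  have hψm : MeasurableSet ((fun q : E d × E d => (q.1, q.1 + (b - a) - q.2)) ⁻¹' T) :=
    (by fun_prop : Measurable fun q : E d × E d => (q.1, q.1 + (b - a) - q.2)) hTm
  have h3 : volume (φ ⁻¹' T) = volume T := by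
    rw [Measure.volume_eq_prod, Measure.prod_apply_symm (hφm hTm)]
    have e : ∀ w : E d, volume ((fun y => (y, w)) ⁻¹' (φ ⁻¹' T))
        = volume ((fun z => (z, w)) ⁻¹'
          ((fun q : E d × E d => (q.1, q.1 + (b - a) - q.2)) ⁻¹' T)) := fun w => by
      rw [← measure_preimage_add_right volume ((a - p) + s • w) ((fun z => (z, w)) ⁻¹'
          ((fun q : E d × E d => (q.1, q.1 + (b - a) - q.2)) ⁻¹' T))]
      congr 1
      ext y
      simp only [mem_preimage, hφ]
      rw [show y + ((a - p) + s • w) = y + (a - p) + s • w by module,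
        show y + (a - p) + s • w + (b - a) - w = y + (b - p) - (1 - s) • w by module]
    rw [lintegral_congr e, ← Measure.prod_apply_symm hψm, Measure.prod_apply hψm,
      Measure.prod_apply hTm]
    exact lintegral_congr fun z =>
      (Measure.measurePreserving_sub_left volume (z + (b - a))).measure_preimage
        (measurable_prodMk_left hTm).nullMeasurableSet
  calc volume (closedBall p (r / 2) \ Q) * volume W
      = volume ((closedBall p (r / 2) \ Q) ×ˢ W) := (Measure.prod_prod _ _).symm
    _ ≤ volume A1 + volume A2 + volume (φ ⁻¹' T) := (measure_mono hsub).trans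
        ((measure_union_le _ _).trans (add_le_add (measure_union_le _ _) le_rfl))
    _ ≤ _ := by
        rw [h3, two_mul, add_mul]
        exact add_le_add (add_le_add h1 h2) (htri s hs hs1)

/-- Points of the hull of good points are good, at a smaller radius. -/
lemma good_hull {Q : Set (E d)} (hQ : MeasurableSet Q) {R t : ℝ} (ht : 0 < t) {P : ℝ≥0∞}
    (htri : ∀ s : ℝ, 0 ≤ s → s ≤ 1 → volume {p : E d × E d | p.1 ∈ closedBall 0 R ∧
      p.2 ∈ closedBall 0 R ∧ p.1 ∈ Q ∧ p.2 ∈ Q ∧ (1 - s) • p.1 + s • p.2 ∉ Q} ≤ P)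
    {A : Set (E d)} {e0 : ℝ≥0∞} (hAR : ∀ a ∈ A, ‖a‖ + t ≤ R)
    (hA : ∀ a ∈ A, volume (closedBall a t \ Q) ≤ e0) {p : E d} (hp : p ∈ convexHull ℝ A) :
    volume (closedBall p (t / 2 ^ d) \ Q)
      ≤ 2 ^ d * (e0 + (d : ℝ≥0∞) * (P / volume (closedBall (0 : E d) (t / 2 ^ d)))) := by
  classical
  set W := volume (closedBall (0 : E d) (t / 2 ^ d)) with hW
  rw [convexHull_eq_union] at hp
  simp only [mem_iUnion] at hp
  obtain ⟨T, hTA, hind, hpT⟩ := hp
  have hAconv : ∀ T : Finset (E d), (T : Set (E d)) ⊆ A → ∀ q ∈ convexHull ℝ (T : Set (E d)),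
      ‖q‖ + t ≤ R := by
    intro T hT q hq
    have hsub : convexHull ℝ (T : Set (E d)) ⊆ closedBall (0 : E d) (R - t) :=
      convexHull_min (fun a ha => by simpa using le_sub_iff_add_le.2 (hAR a (hT ha)))
        (convex_closedBall 0 _)
    have : ‖q‖ ≤ R - t := by simpa using hsub hq
    linarith
  have main : ∀ k : ℕ, k ≤ d → ∀ T : Finset (E d), (T : Set (E d)) ⊆ A → T.card ≤ k + 1 →
      ∀ q ∈ convexHull ℝ (T : Set (E d)),
        volume (closedBall q (t / 2 ^ k) \ Q) ≤ 2 ^ k * (e0 + (k : ℝ≥0∞) * (P / W)) := by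
    intro k
    induction k with
    | zero =>
      intro _ T hT hc q hq
      have hne : T.Nonempty := by
        rw [← Finset.coe_nonempty, ← convexHull_nonempty_iff (𝕜 := ℝ)]; exact ⟨q, hq⟩
      obtain ⟨a, rfl⟩ := Finset.card_eq_one.1 (le_antisymm hc hne.card_pos)
      rw [Finset.coe_singleton, convexHull_singleton] at hq
      obtain rfl := mem_singleton_iff.1 hq
      simpa using hA q (hT (by simp))
    | succ k ih =>
      intro hk T hT hc q hq
      have hne : T.Nonempty := by
        rw [← Finset.coe_nonempty, ← convexHull_nonempty_iff (𝕜 := ℝ)]; exact ⟨q, hq⟩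
      obtain ⟨a, ha⟩ := hne
      have hr : t / 2 ^ k / 2 = t / 2 ^ (k + 1) := by rw [pow_succ, div_div]
      have hsing : ({a} : Finset (E d)).card ≤ k + 1 := by simp
      -- write `q` as a combination of `a` and a point of the smaller hull
      have hsplit : ∃ T' : Finset (E d), (T' : Set (E d)) ⊆ A ∧ T'.card ≤ k + 1 ∧
          ∃ b ∈ convexHull ℝ (T' : Set (E d)), ∃ s : ℝ, 0 ≤ s ∧ s ≤ 1 ∧
            q = (1 - s) • a + s • b := by
        rcases (T.erase a).eq_empty_or_nonempty with h | h
        · refine ⟨{a}, by simpa using hT ha, hsing, a, by simp, 0, le_rfl, zero_le_one, ?_⟩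
          have hTa : T = {a} := by rw [← Finset.insert_erase ha, h]; rfl
          rw [hTa, Finset.coe_singleton, convexHull_singleton, mem_singleton_iff] at hq
          simp [hq]
        · rw [← Finset.insert_erase ha, Finset.coe_insert,
            convexHull_insert (Finset.coe_nonempty.2 h), convexJoin_singleton_left] at hq
          simp only [mem_iUnion] at hq
          obtain ⟨b, hb, hqb⟩ := hq
          rw [segment_eq_image] at hqb
          obtain ⟨s, ⟨hs0, hs1⟩, rfl⟩ := hqb
          exact ⟨T.erase a, (Finset.coe_subset.2 (Finset.erase_subset _ _)).trans hT,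
            by rw [Finset.card_erase_of_mem ha]; omega, b, hb, s, hs0, hs1, rfl⟩
      obtain ⟨T', hT', hc', b, hb, s, hs0, hs1, rfl⟩ := hsplit
      have htk : t / 2 ^ k ≤ t := div_le_self ht.le (one_le_pow₀ one_le_two)
      have h := good_step hQ htri (a := a) (b := b) hs0 hs1 (r := t / 2 ^ k) (by positivity)
        (by linarith [hAR a (hT ha)]) (by linarith [hAconv T' hT' b hb])
        (ih (by omega) {a} (by simpa using hT ha) hsing a (by simp))
        (ih (by omega) T' hT' hc' b hb)
      rw [hr] at h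
      have hWk : W ≤ volume (closedBall (0 : E d) (t / 2 ^ (k + 1))) :=
        measure_mono (closedBall_subset_closedBall
          (div_le_div_of_nonneg_left ht.le (by positivity) (pow_le_pow_right₀ one_le_two hk)))
      set Wk := volume (closedBall (0 : E d) (t / 2 ^ (k + 1)))
      have hWk0 : Wk ≠ 0 := (measure_closedBall_pos volume _ (by positivity)).ne'
      have hWkT : Wk ≠ ⊤ := measure_closedBall_lt_top.ne
      have h' := (ENNReal.le_div_iff_mul_le (Or.inl hWk0) (Or.inl hWkT)).2 h
      refine h'.trans ?_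
      rw [ENNReal.add_div, ENNReal.mul_div_cancel_right hWk0 hWkT]
      calc 2 * (2 ^ k * (e0 + (k : ℝ≥0∞) * (P / W))) + P / Wk
          ≤ 2 ^ (k + 1) * (e0 + (k : ℝ≥0∞) * (P / W)) + 2 ^ (k + 1) * (P / W) := by
            refine add_le_add (le_of_eq ?_) ((ENNReal.div_le_div_left hWk _).trans ?_)
            · rw [pow_succ]; ring
            · exact le_mul_of_one_le_left' (one_le_pow₀ one_le_two)
        _ = _ := by push_cast; ring
  have hcard : T.card ≤ d + 1 := by
    have := hind.card_le_finrank_succ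
    rw [Fintype.card_coe] at this
    refine this.trans (Nat.add_le_add_right ?_ 1)
    exact (Submodule.finrank_le _).trans_eq finrank_euclideanSpace_fin
  exact main d le_rfl T hTA hcard p hpT

/-- The pointwise error of the half space approximation is small in measure. -/
lemma err_le {F : E d → ℝ} (hF : Measurable F)
    (hline : ∀ v : E d, ∀ᵐ y : E d, Continuous fun t : ℝ => F (y + t • v)) {L L' μ t ε η : ℝ}
    (hd : 0 < d) (hL : 0 ≤ L) (hL' : 2 * (L + 1) + 5 < L') (ht : 0 < t) (ht1 : t ≤ 1) (hε : 0 < ε)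
    (hη : 0 ≤ η) {e : E d} (he : ‖e‖ = 1) (hP : volume (PatternSet F L' μ) ≤ ENNReal.ofReal η) :
    volume {y | y ∈ closedBall (0 : E d) L ∧
        ((μ < F y ∧ ENNReal.ofReal ε * volume (closedBall y t)
            ≤ volume (closedBall y t ∩ {z | F z ≤ μ})) ∨
          (F y ≤ μ ∧ ENNReal.ofReal ε * volume (closedBall y t)
            ≤ volume (closedBall y t ∩ {z | μ < F z})))}
      ≤ ENNReal.ofReal ((2 * t * (volume (closedBall (0 : E d) (L + 6))).toReal
          + 2 * η / (volume (closedBall ((3 : ℝ) • e) (1 / 2))).toReal) / ε) := by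
  have : Nonempty (Fin d) := ⟨⟨0, hd⟩⟩
  set V6 := (volume (closedBall (0 : E d) (L + 6))).toReal with hV6
  set a0 := (volume (closedBall ((3 : ℝ) • e) (1 / 2))).toReal with ha0
  have ha0pos : 0 < a0 := ENNReal.toReal_pos
    (measure_closedBall_pos volume _ (by norm_num)).ne' measure_closedBall_lt_top.ne
  set κ := volume (closedBall (0 : E d) 1) with hκ
  have hκ0 : κ ≠ 0 := (measure_closedBall_pos volume _ one_pos).ne'
  have hκT : κ ≠ ⊤ := measure_closedBall_lt_top.ne
  set D : Set (E d × E d) := {p | p.1 ∈ closedBall 0 1 ∧ p.2 ∈ closedBall 0 L ∧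
    ¬ (μ < F p.2 ↔ μ < F (p.2 + t • p.1))}
  have m1 : MeasurableSet {p : E d × E d | μ < F p.2} :=
    measurableSet_lt measurable_const (hF.comp measurable_snd)
  have m2 : MeasurableSet {p : E d × E d | μ < F (p.2 + t • p.1)} :=
    measurableSet_lt measurable_const
      (hF.comp (measurable_snd.add (measurable_fst.const_smul t)))
  have hDm : MeasurableSet D := by
    refine (measurable_fst measurableSet_closedBall).inter
      ((measurable_snd measurableSet_closedBall).inter ?_)
    exact (measurableSet_setOfPred.2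
      ((measurableSet_setOfPred.1 m1).iff (measurableSet_setOfPred.1 m2))).compl
  -- lower bound for the sections
  have hlow : {y | y ∈ closedBall (0 : E d) L ∧
        ((μ < F y ∧ ENNReal.ofReal ε * volume (closedBall y t)
            ≤ volume (closedBall y t ∩ {z | F z ≤ μ})) ∨
          (F y ≤ μ ∧ ENNReal.ofReal ε * volume (closedBall y t)
            ≤ volume (closedBall y t ∩ {z | μ < F z})))}
      ⊆ {y | ENNReal.ofReal ε * κ ≤ volume ((fun u : E d => (u, y)) ⁻¹' D)} := by
    rintro y ⟨hy, hor⟩
    have key : ∀ S : Set (E d), (∀ z ∈ S, ¬ (μ < F y ↔ μ < F z)) →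
        ENNReal.ofReal ε * volume (closedBall y t) ≤ volume (closedBall y t ∩ S) →
        ENNReal.ofReal ε * κ ≤ volume ((fun u : E d => (u, y)) ⁻¹' D) := by
      intro S hS hle
      refine le_trans ?_ (measure_mono (μ := volume)
        (s := (fun u : E d => y + t • u) ⁻¹' (closedBall y t ∩ S)) ?_)
      · rw [show (fun u : E d => y + t • u) = (fun z => y + z) ∘ fun u => t • u from rfl,
          preimage_comp, Measure.addHaar_preimage_smul volume ht.ne', measure_preimage_add,
          finrank_euclideanSpace_fin, abs_inv, abs_of_pos (pow_pos ht d)]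
        rw [Measure.addHaar_closedBall' volume y ht.le, finrank_euclideanSpace_fin, ← hκ] at hle
        refine le_trans (le_of_eq ?_) (mul_le_mul_right hle _)
        rw [← mul_assoc, ← mul_assoc, ← ENNReal.ofReal_mul (by positivity),
          ← ENNReal.ofReal_mul (by positivity)]
        congr 2
        field_simp
      · rintro u ⟨hu, huS⟩
        refine ⟨?_, hy, hS _ huS⟩
        have h1 : ‖t • u‖ ≤ t := by simpa [dist_eq_norm] using hu
        rw [norm_smul, Real.norm_eq_abs, abs_of_pos ht] at h1
        simpa using le_of_mul_le_mul_left (by linarith : t * ‖u‖ ≤ t * 1) ht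
    rcases hor with ⟨h1, h2⟩ | ⟨h1, h2⟩
    · exact key _ (fun z hz h => not_lt.2 hz (h.1 h1)) h2
    · exact key _ (fun z hz h => not_lt.2 h1 (h.2 hz)) h2
  have h1 := (mul_le_mul_right (measure_mono (μ := volume) hlow) (ENNReal.ofReal ε * κ)).trans
    (mul_meas_ge_le_lintegral (measurable_measure_prodMk_right hDm) _)
  rw [← Measure.prod_apply_symm hDm, Measure.prod_apply hDm] at h1
  -- upper bound for the sections
  set B := 2 * t * V6 + 2 * η / a0 with hB
  have h2 : ∫⁻ u, volume (Prod.mk u ⁻¹' D) ≤ κ * ENNReal.ofReal B := by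
    rw [mul_comm κ, hκ, ← setLIntegral_const, ← lintegral_indicator measurableSet_closedBall]
    refine lintegral_mono fun u => ?_
    by_cases hu : u ∈ closedBall (0 : E d) 1
    · rw [Set.indicator_of_mem hu]
      refine (measure_mono (t := closedBall (0 : E d) L ∩
        {y | ¬ (μ < F y ↔ μ < F (y + t • u))}) fun y hy => ⟨hy.2.1, hy.2.2⟩).trans ?_
      have hm := (modulus (μ := μ) hF hline hL hL' ht.le ht1 he (u := u) (by simpa using hu)).trans
        (add_le_add le_rfl (mul_le_mul_right hP _))
      set X := volume (closedBall (0 : E d) L ∩ {y | ¬ (μ < F y ↔ μ < F (y + t • u))})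
      have hX : X ≠ ⊤ := ne_top_of_le_ne_top (measure_closedBall_lt_top (μ := volume)).ne
        (measure_mono inter_subset_left)
      have hR : ENNReal.ofReal (4 * t) * volume (closedBall (0 : E d) (L + 6))
          * volume (closedBall ((3 : ℝ) • e) (1 / 2)) + ENNReal.ofReal 4 * ENNReal.ofReal η ≠ ⊤ := by
        simp [ENNReal.mul_eq_top, measure_closedBall_lt_top.ne]
      have hr := ENNReal.toReal_mono hR hm
      rw [ENNReal.toReal_mul, ENNReal.toReal_mul, ENNReal.toReal_add
          (by simp [ENNReal.mul_eq_top, measure_closedBall_lt_top.ne])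
          (by simp [ENNReal.mul_eq_top]), ENNReal.toReal_mul, ENNReal.toReal_mul, ENNReal.toReal_mul,
        ENNReal.toReal_ofReal zero_le_two, ENNReal.toReal_ofReal (by positivity : (0 : ℝ) ≤ 4 * t),
        ENNReal.toReal_ofReal (by norm_num : (0 : ℝ) ≤ 4), ENNReal.toReal_ofReal hη,
        ← hV6, ← ha0] at hr
      rw [← ENNReal.ofReal_toReal hX]
      refine ENNReal.ofReal_le_ofReal ?_
      rw [hB, ← sub_nonneg]
      have e : 2 * t * V6 + 2 * η / a0 - X.toReal
          = (4 * t * V6 * a0 + 4 * η - 2 * X.toReal * a0) / (2 * a0) := by field_simp; ring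
      rw [e]
      exact div_nonneg (by linarith) (by positivity)
    · rw [Set.indicator_of_notMem hu, nonpos_iff_eq_zero, measure_eq_zero_iff_ae_notMem]
      exact Eventually.of_forall fun y hy => hu hy.1
  have h3 := h1.trans h2
  rw [mul_comm (ENNReal.ofReal ε) κ, mul_assoc, ENNReal.mul_le_mul_iff_right hκ0 hκT] at h3
  rw [ENNReal.ofReal_div_of_pos hε]
  refine (ENNReal.le_div_iff_mul_le (Or.inl (by simp [hε])) (Or.inl ENNReal.ofReal_ne_top)).2 ?_
  rwa [mul_comm]

theorem flat : FlatStmt := by
  intro d hd ω L hω hL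
  have : Nonempty (Fin d) := ⟨⟨0, hd⟩⟩
  set e : E d := EuclideanSpace.single ⟨0, hd⟩ (1 : ℝ)
  have he : ‖e‖ = 1 := by simp [e]
  set V6 := (volume (closedBall (0 : E d) (L + 6))).toReal
  have hV6 : 0 < V6 := ENNReal.toReal_pos
    (measure_closedBall_pos volume _ (by linarith)).ne' measure_closedBall_lt_top.ne
  set a0 := (volume (closedBall ((3 : ℝ) • e) (1 / 2))).toReal
  have ha0 : 0 < a0 := ENNReal.toReal_pos
    (measure_closedBall_pos volume _ (by norm_num)).ne' measure_closedBall_lt_top.ne
  set ε : ℝ := 1 / (4 * 2 ^ (d + 1) * (d + 1) * 2 ^ (d * d)) with hεdef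
  have hε : 0 < ε := by positivity
  have hε1 : ε ≤ 1 := by
    rw [hεdef, div_le_one (by positivity)]
    calc (1 : ℝ) = 1 * 1 * 1 * 1 := by norm_num
      _ ≤ 4 * 2 ^ (d + 1) * (d + 1) * 2 ^ (d * d) := by
          gcongr <;> first | exact one_le_pow₀ one_le_two | norm_num
  set t := min 1 (ε * ω / (4 * V6)) with htdef
  have ht : 0 < t := by positivity
  have ht1 : t ≤ 1 := min_le_left _ _
  set r := t / 2 ^ d with hr
  set Vt := volume.real (closedBall (0 : E d) t) with hVtdef
  set vr := volume.real (closedBall (0 : E d) r) with hvrdef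
  have hball : ∀ (c : E d) {s : ℝ}, 0 < s →
      volume (closedBall c s) = ENNReal.ofReal (volume.real (closedBall (0 : E d) s)) := by
    intro c s hs
    rw [Measure.real, ENNReal.ofReal_toReal measure_closedBall_lt_top.ne,
      Measure.addHaar_closedBall' volume c hs.le, Measure.addHaar_closedBall' volume 0 hs.le]
  have hvr : 0 < vr := ENNReal.toReal_pos
    (measure_closedBall_pos volume _ (by positivity)).ne' measure_closedBall_lt_top.ne
  have hVt : 0 < Vt := ENNReal.toReal_pos
    (measure_closedBall_pos volume _ ht).ne' measure_closedBall_lt_top.ne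
  have hratio : Vt = 2 ^ (d * d) * vr := by
    rw [hVtdef, hvrdef, Measure.real, Measure.real, Measure.addHaar_closedBall' volume _ ht.le,
      Measure.addHaar_closedBall' volume _ (by positivity : 0 ≤ r), finrank_euclideanSpace_fin,
      ENNReal.toReal_mul, ENNReal.toReal_mul, ENNReal.toReal_ofReal (by positivity),
      ENNReal.toReal_ofReal (by positivity), hr, div_pow, ← pow_mul]
    field_simp
  set η := min (ε * ω * a0 / 4) (vr * vr / (4 * 2 ^ (d + 1) * (d + 1))) with hηdef
  have hη : 0 < η := by positivity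
  set L' := 2 * (L + 2) + 8 with hL'
  refine ⟨η, L', hη, by linarith, fun F hF hline μ hP => ?_⟩
  have hS : MeasurableSet {y | μ < F y} := measurableSet_lt measurable_const hF
  have hSc : MeasurableSet {y | F y ≤ μ} := measurableSet_le hF measurable_const
  set A := {a | a ∈ closedBall (0 : E d) L ∧
    volume (closedBall a t ∩ {z | F z ≤ μ}) < ENNReal.ofReal ε * volume (closedBall a t)} with hA
  set Z := {a | a ∈ closedBall (0 : E d) L ∧
    volume (closedBall a t ∩ {z | μ < F z}) < ENNReal.ofReal ε * volume (closedBall a t)} with hZ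
  -- the error set
  have herr := err_le hF hline hd (by linarith : (0 : ℝ) ≤ L) (by linarith : 2 * (L + 1) + 5 < L')
    ht ht1 hε hη.le he hP.le
  set Err := {y | y ∈ closedBall (0 : E d) L ∧
        ((μ < F y ∧ ENNReal.ofReal ε * volume (closedBall y t)
            ≤ volume (closedBall y t ∩ {z | F z ≤ μ})) ∨
          (F y ≤ μ ∧ ENNReal.ofReal ε * volume (closedBall y t)
            ≤ volume (closedBall y t ∩ {z | μ < F z})))}
  have hErr : volume Err ≤ ENNReal.ofReal ω := by
    refine herr.trans (ENNReal.ofReal_le_ofReal ?_)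
    rw [div_le_iff₀ hε]
    have h1 : 2 * t * V6 ≤ ω * ε / 2 := by
      have := (le_div_iff₀ (by positivity)).1 (min_le_right 1 (ε * ω / (4 * V6)))
      rw [← htdef] at this
      linarith
    have h2 : 2 * η / a0 ≤ ω * ε / 2 := by
      rw [div_le_iff₀ ha0]
      have := min_le_left (ε * ω * a0 / 4) (vr * vr / (4 * 2 ^ (d + 1) * (d + 1)))
      rw [← hηdef] at this
      linarith
    linarith
  -- separation
  suffices hsep : ∃ (ν : E d) (a : ℝ), ‖ν‖ = 1 ∧ (∀ y ∈ A, a < ⟪ν, y⟫_ℝ) ∧
      ∀ y ∈ Z, ⟪ν, y⟫_ℝ ≤ a by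
    obtain ⟨ν, a, hν, hA', hZ'⟩ := hsep
    refine ⟨ν, a, hν, (measure_mono ?_).trans hErr⟩
    rintro y ⟨hy, hsd⟩
    by_contra hn
    rcases hsd with ⟨h1, h2⟩ | ⟨h1, h2⟩
    · exact h2 (hA' y ⟨hy, not_le.1 fun h => hn ⟨hy, Or.inl ⟨h1, h⟩⟩⟩)
    · exact not_lt.2 (hZ' y ⟨hy, not_le.1 fun h => hn ⟨hy, Or.inr ⟨not_lt.1 h2, h⟩⟩⟩) h1
  rcases A.eq_empty_or_nonempty with hAe | hAne
  · refine ⟨e, L, he, by simp [hAe], fun y hy => ?_⟩
    have h2 : ‖y‖ ≤ L := by simpa using hy.1
    have h3 : ⟪e, y⟫_ℝ ≤ ‖e‖ * ‖y‖ := real_inner_le_norm e y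
    rw [he, one_mul] at h3
    linarith
  rcases Z.eq_empty_or_nonempty with hZe | hZne
  · refine ⟨e, -L - 1, he, fun y hy => ?_, by simp [hZe]⟩
    have h2 : ‖y‖ ≤ L := by simpa using hy.1
    have h3 := abs_le.1 (abs_real_inner_le_norm e y)
    rw [he, one_mul] at h3
    linarith
  -- the hulls are disjoint
  set P := ENNReal.ofReal η with hPdef
  have hW : ∀ c : E d, volume (closedBall c r) = ENNReal.ofReal vr :=
    fun c => hball c (by positivity)
  have good : ∀ Q : Set (E d), (Q = {y | μ < F y} ∨ Q = {y | F y ≤ μ}) → ∀ p : E d,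
      p ∈ convexHull ℝ (thickening (ε * t)
        {a | a ∈ closedBall (0 : E d) L ∧
          volume (closedBall a t \ Q) < ENNReal.ofReal ε * volume (closedBall a t)}) →
      volume (closedBall p r \ Q) ≤ ENNReal.ofReal (2 ^ d * (((d : ℝ) + 1) * ε * Vt
        + (d : ℝ) * (η / vr))) := by
    intro Q hQ p hp
    have hQm : MeasurableSet Q := by rcases hQ with rfl | rfl <;> assumption
    have hεt : ε * t ≤ t := mul_le_of_le_one_left ht.le hε1
    have hnear : ∀ a' ∈ thickening (ε * t) {a | a ∈ closedBall (0 : E d) L ∧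
        volume (closedBall a t \ Q) < ENNReal.ofReal ε * volume (closedBall a t)},
        ‖a'‖ + t ≤ L + 2 ∧ volume (closedBall a' t \ Q) ≤ ENNReal.ofReal (((d : ℝ) + 1) * ε * Vt) := by
      intro a' ha'
      obtain ⟨a, ⟨hal, hav⟩, hdist⟩ := mem_thickening_iff.1 ha'
      refine ⟨?_, ?_⟩
      · have h1 : ‖a‖ ≤ L := by simpa using hal
        have h2 := norm_le_norm_add_norm_sub' a' a
        rw [← dist_eq_norm] at h2
        linarith
      · have hsub : closedBall a' t \ Q ⊆ (closedBall a t \ Q) ∪
            (closedBall a' t \ closedBall a' ((1 - ε) * t)) := by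
          rintro z ⟨hz, hzQ⟩
          by_cases hz' : z ∈ closedBall a' ((1 - ε) * t)
          · exact Or.inl ⟨closedBall_subset_closedBall' (by linarith) hz', hzQ⟩
          · exact Or.inr ⟨hz, hz'⟩
        refine (measure_mono hsub).trans ((measure_union_le _ _).trans ?_)
        rw [add_mul, add_mul, one_mul, add_comm ((d : ℝ) * ε * Vt),
          ENNReal.ofReal_add (by positivity) (by positivity)]
        refine add_le_add (hav.le.trans_eq ?_) ?_
        · rw [hball a ht, ← ENNReal.ofReal_mul hε.le]
        · rw [measure_sdiff (closedBall_subset_closedBall (by linarith [mul_nonneg hε.le ht.le]))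
            measurableSet_closedBall.nullMeasurableSet measure_closedBall_lt_top.ne,
            Measure.addHaar_closedBall' volume a' ht.le,
            Measure.addHaar_closedBall' volume a' (mul_nonneg (by linarith) ht.le),
            finrank_euclideanSpace_fin, mul_pow, ← ENNReal.sub_mul (by simp [measure_closedBall_lt_top.ne]),
            ← ENNReal.ofReal_sub _ (mul_nonneg (pow_nonneg (by linarith) d) (pow_nonneg ht.le d)),
            hVtdef, Measure.real, Measure.addHaar_closedBall' volume (0 : E d) ht.le,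
            finrank_euclideanSpace_fin, ENNReal.toReal_mul, ← mul_assoc,
            ENNReal.toReal_ofReal (pow_nonneg ht.le d),
            ENNReal.ofReal_mul (by positivity), ENNReal.ofReal_toReal measure_closedBall_lt_top.ne]
          refine mul_le_mul_left (ENNReal.ofReal_le_ofReal ?_) _
          have hb := one_add_mul_le_pow (a := -ε) (by linarith) d
          rw [← sub_eq_add_neg] at hb
          have := mul_le_mul_of_nonneg_right hb (pow_nonneg ht.le d)
          linarith
    have h := good_hull hQm (R := L + 2) ht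
      (fun s hs hs1 => (triple_bound hF hline (by linarith) (by linarith) hs hs1 Q hQ).trans hP.le)
      (fun a ha => (hnear a ha).1) (fun a ha => (hnear a ha).2) hp
    refine h.trans_eq ?_
    rw [← hr, hW,
      ENNReal.ofReal_mul (p := 2 ^ d) (q := ((d : ℝ) + 1) * ε * Vt + (d : ℝ) * (η / vr)) (by positivity),
      ENNReal.ofReal_add (p := ((d : ℝ) + 1) * ε * Vt) (q := (d : ℝ) * (η / vr)) (by positivity)
        (by positivity),
      ENNReal.ofReal_mul (p := (d : ℝ)) (q := η / vr) (Nat.cast_nonneg d), ENNReal.ofReal_natCast,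
      ENNReal.ofReal_div_of_pos hvr, ENNReal.ofReal_pow zero_le_two, ENNReal.ofReal_ofNat]
  have eA : A = {a | a ∈ closedBall (0 : E d) L ∧
      volume (closedBall a t \ {y | μ < F y}) < ENNReal.ofReal ε * volume (closedBall a t)} := by
    rw [hA]
    have : ∀ a : E d, closedBall a t \ {y | μ < F y} = closedBall a t ∩ {z | F z ≤ μ} := fun a => by
      ext z; simp
    simp [this]
  have eZ : Z = {a | a ∈ closedBall (0 : E d) L ∧
      volume (closedBall a t \ {y | F y ≤ μ}) < ENNReal.ofReal ε * volume (closedBall a t)} := by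
    rw [hZ]
    have : ∀ a : E d, closedBall a t \ {y | F y ≤ μ} = closedBall a t ∩ {z | μ < F z} := fun a => by
      ext z; simp
    simp [this]
  have hdisj : Disjoint (convexHull ℝ (thickening (ε * t) A))
      (convexHull ℝ (thickening (ε * t) Z)) := by
    rw [Set.disjoint_left]
    intro p hpA hpZ
    have gA := good _ (Or.inl rfl) p (eA ▸ hpA)
    have gZ := good _ (Or.inr rfl) p (eZ ▸ hpZ)
    set bnd := 2 ^ d * (((d : ℝ) + 1) * ε * Vt + (d : ℝ) * (η / vr)) with hbnd
    have hcov : closedBall p r ⊆ (closedBall p r \ {y | μ < F y}) ∪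
        (closedBall p r \ {y | F y ≤ μ}) := fun z hz => by
      by_cases h : μ < F z
      · exact Or.inr ⟨hz, not_le.2 h⟩
      · exact Or.inl ⟨hz, h⟩
    have h := ((measure_mono hcov).trans (measure_union_le _ _)).trans (add_le_add gA gZ)
    rw [hW, ← ENNReal.ofReal_add (by positivity) (by positivity),
      ENNReal.ofReal_le_ofReal_iff (by positivity)] at h
    have h1 : 2 ^ d * (((d : ℝ) + 1) * ε * Vt) = vr / 8 := by
      rw [hεdef, hratio, pow_succ]; field_simp; ring
    have h2 : 2 ^ d * ((d : ℝ) * (η / vr)) ≤ vr / 8 := by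
      have hη2 : η ≤ vr * vr / (4 * 2 ^ (d + 1) * ((d : ℝ) + 1)) := min_le_right _ _
      calc 2 ^ d * ((d : ℝ) * (η / vr))
          ≤ 2 ^ d * (((d : ℝ) + 1) * (vr * vr / (4 * 2 ^ (d + 1) * ((d : ℝ) + 1)) / vr)) := by
            gcongr; linarith
        _ = vr / 8 := by rw [pow_succ]; field_simp; ring
    rw [hbnd, mul_add] at h
    linarith
  obtain ⟨f, c, hfA, hfZ⟩ := geometric_hahn_banach_open (convex_convexHull ℝ _)
    isOpen_thickening.convexHull (convex_convexHull ℝ _) hdisj
  have hsubA : A ⊆ convexHull ℝ (thickening (ε * t) A) :=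
    (self_subset_thickening (by positivity) A).trans (subset_convexHull ℝ _)
  have hsubZ : Z ⊆ convexHull ℝ (thickening (ε * t) Z) :=
    (self_subset_thickening (by positivity) Z).trans (subset_convexHull ℝ _)
  set ν0 := (InnerProductSpace.toDual ℝ (E d)).symm f with hν0def
  have hf : ∀ y, ⟪ν0, y⟫_ℝ = f y := fun y => InnerProductSpace.toDual_symm_apply
  obtain ⟨a1, ha1⟩ := hAne
  obtain ⟨z1, hz1⟩ := hZne
  have hν0 : ν0 ≠ 0 := by
    intro h0
    have e1 := hfA a1 (hsubA ha1)
    have e2 := hfZ z1 (hsubZ hz1)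
    rw [← hf, h0, inner_zero_left] at e1 e2
    linarith
  have hn : 0 < ‖ν0‖ := norm_pos_iff.2 hν0
  refine ⟨-(‖ν0‖⁻¹ • ν0), -(‖ν0‖⁻¹ * c), by rw [norm_neg, norm_smul, norm_inv, norm_norm,
    inv_mul_cancel₀ hn.ne'], fun y hy => ?_, fun y hy => ?_⟩
  · rw [inner_neg_left, real_inner_smul_left, hf, neg_lt_neg_iff]
    exact mul_lt_mul_of_pos_left (hfA y (hsubA hy)) (inv_pos.2 hn)
  · rw [inner_neg_left, real_inner_smul_left, hf, neg_le_neg_iff]
    exact mul_le_mul_of_nonneg_left (hfZ y (hsubZ hy)) (inv_nonneg.2 hn.le)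

end Vale.Agent.P137
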