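import Vale.Agent.P137.GmaxBasic

/-!
The gradient of the truncated maximal function at a point of a maximising ball.
-/

namespace Vale.Agent.P137

open MeasureTheory Metric Set Filter
open scoped InnerProductSpace ENNReal Topology

variable {d : ℕ}

open GmaxBasic (δs_pos avg_le_gmax)

/-- `gn` is at least its value at `x` on every maximising ball of `x`. -/
lemma gn_ge_on_ball (R : Rep d) (n : ℕ) {x y c : E d} {r : ℝ} (hr : δs n ≤ r)
    (he : avg R.f c r = gn R.f n x) (hy : y ∈ closedBall c r) : gn R.f n x ≤ gn R.f n y :=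
  he ▸ avg_le_gmax R.nonneg R.int_f (δs_pos n) hr hy

/-- At a point of differentiability the gradient of `gn` is parallel to `c - x`, for every
maximising ball `B(c,r)` of `x`: its norm is detected by the radial derivative. -/
lemma gn_grad_radial (R : Rep d) (n : ℕ) {x c : E d} {r : ℝ} (hr : δs n ≤ r) (hx : dist x c ≤ r)
    (he : avg R.f c r = gn R.f n x) (v : E d) :
    r * fderiv ℝ (gn R.f n) x v = ‖fderiv ℝ (gn R.f n) x‖ * ⟪c - x, v⟫_ℝ ∧
      (fderiv ℝ (gn R.f n) x ≠ 0 → dist x c = r) := by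
  set D := fderiv ℝ (gn R.f n) x with hD
  by_cases hdiff : DifferentiableAt ℝ (gn R.f n) x
  swap
  · simp [hD, fderiv_zero_of_not_differentiableAt hdiff]
  set G := (InnerProductSpace.toDual ℝ (E d)).symm D with hG
  have hGv : ∀ u, ⟪G, u⟫_ℝ = D u := fun u => InnerProductSpace.toDual_symm_apply
  have hGn : ‖G‖ = ‖D‖ := LinearIsometryEquiv.norm_map _ _
  have hr0 : 0 < r := (δs_pos n).trans_le hr
  have hnn : ∀ y ∈ closedBall c r, 0 ≤ D (y - x) := by
    intro y hy
    refine IsLocalMinOn.hasFDerivWithinAt_nonneg ?_ hdiff.hasFDerivAt.hasFDerivWithinAt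
      (sub_mem_posTangentConeAt_of_segment_subset
        ((convex_closedBall c r).segment_subset hx hy))
    exact IsMinOn.localize fun z hz => gn_ge_on_ball R n hr he hz
  have hw : ‖G‖ * r ≤ ⟪G, c - x⟫_ℝ := by
    rcases eq_or_ne G 0 with h0 | h0
    · simp [h0]
    have hn : 0 < ‖G‖ := norm_pos_iff.2 h0
    have := hnn (c - (r / ‖G‖) • G) (by
      rw [mem_closedBall, dist_eq_norm, sub_sub_cancel_left, norm_neg, norm_smul,
        Real.norm_eq_abs, abs_of_pos (div_pos hr0 hn), div_mul_cancel₀ _ hn.ne'])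
    rw [← hGv, sub_right_comm, inner_sub_right, real_inner_smul_right,
      real_inner_self_eq_norm_sq] at this
    have e : r / ‖G‖ * ‖G‖ ^ 2 = ‖G‖ * r := by field_simp
    linarith
  have hwn : ‖c - x‖ ≤ r := by rwa [← dist_eq_norm, dist_comm]
  have hsq : ‖r • G - ‖G‖ • (c - x)‖ ^ 2 ≤ 0 := by
    rw [norm_sub_sq_real, norm_smul, norm_smul, real_inner_smul_left, real_inner_smul_right,
      Real.norm_eq_abs, abs_of_pos hr0, norm_norm]
    nlinarith [mul_le_mul_of_nonneg_left hw (mul_nonneg hr0.le (norm_nonneg G)),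
      mul_le_mul_of_nonneg_left (pow_le_pow_left₀ (norm_nonneg _) hwn 2) (sq_nonneg ‖G‖)]
  have heq : r • G = ‖G‖ • (c - x) :=
    sub_eq_zero.1 (norm_eq_zero.1 (pow_eq_zero_iff two_ne_zero |>.1
      (le_antisymm hsq (sq_nonneg _))))
  refine ⟨?_, fun hne => ?_⟩
  · rw [← hGv, ← real_inner_smul_left, heq, real_inner_smul_left, hGn]
  · have h := congrArg norm heq
    rw [norm_smul, norm_smul, Real.norm_eq_abs, abs_of_pos hr0, norm_norm] at h
    have hn : ‖G‖ ≠ 0 := by rw [hGn]; exact norm_ne_zero_iff.2 hne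
    rw [dist_eq_norm, norm_sub_rev]
    exact mul_left_cancel₀ hn (h.symm.trans (mul_comm _ _))

end Vale.Agent.P137
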