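import Vale.Agent.P137.Defs

/-!
One-dimensional tools: the Banach indicatrix, an area inequality, and averaging along lines.
-/

namespace Vale.Agent.P137

open MeasureTheory Metric Set Filter
open scoped InnerProductSpace ENNReal Topology

/-- The `k`-th of `2 ^ n` equal cells of `[a, b]`. -/
def cell (a b : ℝ) (n k : ℕ) : Set ℝ :=
  Icc (a + k * ((b - a) / 2 ^ n)) (a + (k + 1) * ((b - a) / 2 ^ n))

/-- The number of dyadic cells of rank `n` whose image contains `μ`. -/
noncomputable def indicN (F : ℝ → ℝ) (a b : ℝ) (n : ℕ) (μ : ℝ) : ℝ≥0∞ :=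
  ∑ k ∈ Finset.range (2 ^ n), (F '' cell a b n k).indicator 1 μ

/-- The Banach indicatrix (a lower semicount of the level sets). -/
noncomputable def indic (F : ℝ → ℝ) (a b μ : ℝ) : ℝ≥0∞ :=
  liminf (fun n => indicN F a b n μ) atTop

variable {F D' : ℝ → ℝ} {a b : ℝ}

lemma measurable_indicN (hF : Continuous F) (n : ℕ) : Measurable (indicN F a b n) :=
  Finset.measurable_sum _ fun _ _ =>
    measurable_one.indicator (isCompact_Icc.image hF).measurableSet

lemma measurable_indic (hF : Continuous F) : Measurable (indic F a b) :=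
  Measurable.liminf fun n => measurable_indicN hF n

/-- The image of an interval is no longer than the integral of the derivative. -/
lemma volume_image_Icc_le (hF : Continuous F)
    (hD : ∀ a b : ℝ, IntervalIntegrable D' volume a b ∧ F b - F a = ∫ t in a..b, D' t)
    {u v : ℝ} (huv : u ≤ v) :
    volume (F '' Icc u v) ≤ ∫⁻ t in Ioc u v, ‖D' t‖ₑ := by
  obtain ⟨p, hp, hpmin⟩ := isCompact_Icc.exists_isMinOn (nonempty_Icc.2 huv) hF.continuousOn
  obtain ⟨q, hq, hqmax⟩ := isCompact_Icc.exists_isMaxOn (nonempty_Icc.2 huv) hF.continuousOn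
  calc volume (F '' Icc u v) ≤ volume (Icc (F p) (F q)) :=
        measure_mono (image_subset_iff.2 fun t ht => ⟨hpmin ht, hqmax ht⟩)
    _ = ENNReal.ofReal (F q - F p) := Real.volume_Icc
    _ ≤ ‖F q - F p‖ₑ := Real.ofReal_le_enorm _
    _ = ‖∫ t in uIoc p q, D' t‖ₑ := by
        rw [(hD p q).2, ← ofReal_norm, intervalIntegral.norm_intervalIntegral_eq, ofReal_norm]
    _ ≤ ∫⁻ t in uIoc p q, ‖D' t‖ₑ := enorm_integral_le_lintegral_enorm _
    _ ≤ ∫⁻ t in Ioc u v, ‖D' t‖ₑ :=
        lintegral_mono_set (Ioc_subset_Ioc (le_min hp.1 hq.1) (max_le hp.2 hq.2))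

lemma lintegral_indic_le (hF : Continuous F)
    (hD : ∀ a b : ℝ, IntervalIntegrable D' volume a b ∧ F b - F a = ∫ t in a..b, D' t)
    (hab : a ≤ b) : ∫⁻ μ, indic F a b μ ≤ ∫⁻ t in Icc a b, ‖D' t‖ₑ := by
  refine (lintegral_liminf_le fun n => measurable_indicN hF n).trans ?_
  refine liminf_le_of_frequently_le' (Frequently.of_forall fun n => ?_)
  set h := (b - a) / 2 ^ n with hh
  have hh0 : 0 ≤ h := div_nonneg (sub_nonneg.2 hab) (by positivity)
  set p : ℕ → ℝ := fun k => a + k * h with hp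
  have hmono : Monotone p := fun i j hij => by
    simp only [hp]; gcongr
  have h1 : ∀ m : ℕ, ∑ k ∈ Finset.range m, ∫⁻ t in Ioc (p k) (p (k + 1)), ‖D' t‖ₑ
      = ∫⁻ t in Ioc (p 0) (p m), ‖D' t‖ₑ := by
    intro m
    induction m with
    | zero => simp
    | succ m ih =>
      rw [Finset.sum_range_succ, ih, ← lintegral_union measurableSet_Ioc
        (Ioc_disjoint_Ioc_of_le le_rfl), Ioc_union_Ioc_eq_Ioc (hmono m.zero_le)
          (hmono m.le_succ)]
  have h2 : p (2 ^ n) = b := by simp only [hp, hh]; push_cast; field_simp; ring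
  calc ∫⁻ μ, indicN F a b n μ
      = ∑ k ∈ Finset.range (2 ^ n), volume (F '' cell a b n k) := by
        simp only [indicN]
        refine (lintegral_finsetSum _ fun k _ => ?_).trans ?_
        · exact measurable_one.indicator (isCompact_Icc.image hF).measurableSet
        exact Finset.sum_congr rfl fun k _ =>
          lintegral_indicator_one (isCompact_Icc.image hF).measurableSet
    _ ≤ ∑ k ∈ Finset.range (2 ^ n), ∫⁻ t in Ioc (p k) (p (k + 1)), ‖D' t‖ₑ := by
        refine Finset.sum_le_sum fun k _ => ?_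
        have e : cell a b n k = Icc (p k) (p (k + 1)) := by simp [cell, hp, hh]
        rw [e]
        exact volume_image_Icc_le hF hD (hmono k.le_succ)
    _ = ∫⁻ t in Ioc (p 0) (p (2 ^ n)), ‖D' t‖ₑ := h1 _
    _ ≤ ∫⁻ t in Icc a b, ‖D' t‖ₑ := by
        rw [h2, show p 0 = a by simp [hp]]
        exact lintegral_mono_set Ioc_subset_Icc_self

/-- A finite subset of a level set is counted by the indicatrix. -/
lemma card_le_indic {μ : ℝ} {S : Finset ℝ} (hS : ∀ t ∈ S, t ∈ Icc a b ∧ F t = μ) :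
    (S.card : ℝ≥0∞) ≤ indic F a b μ := by
  classical
  refine le_liminf_of_le (by isBoundedDefault) ?_
  rcases S.eq_empty_or_nonempty with rfl | ⟨t0, ht0⟩
  · simp
  rcases (le_trans (hS t0 ht0).1.1 (hS t0 ht0).1.2).lt_or_eq with hab | hab
  swap
  · have h1 : S = {t0} := Finset.eq_singleton_iff_unique_mem.2 ⟨ht0, fun t ht =>
      le_antisymm ((hS t ht).1.2.trans (hab.symm.le.trans (hS t0 ht0).1.1))
        ((hS t0 ht0).1.2.trans (hab.symm.le.trans (hS t ht).1.1))⟩
    refine Eventually.of_forall fun n => ?_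
    have hm : μ ∈ F '' cell a b n 0 :=
      ⟨t0, by simpa [cell, hab] using (hS t0 ht0).1, (hS t0 ht0).2⟩
    calc (S.card : ℝ≥0∞) = (F '' cell a b n 0).indicator 1 μ := by
          rw [indicator_of_mem hm, h1]; simp
      _ ≤ indicN F a b n μ :=
          Finset.single_le_sum (f := fun k => (F '' cell a b n k).indicator 1 μ)
            (fun _ _ => zero_le) (by simp)
  have htend : Tendsto (fun n : ℕ => (b - a) / (2 : ℝ) ^ n) atTop (𝓝 0) :=
    tendsto_const_nhds.div_atTop (tendsto_pow_atTop_atTop_of_one_lt one_lt_two)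
  have hsep : ∀ᶠ n : ℕ in atTop, ∀ s ∈ S, ∀ t ∈ S, s ≠ t → (b - a) / 2 ^ n < |s - t| := by
    refine (eventually_all_finset S).2 fun s _ => (eventually_all_finset S).2 fun t _ => ?_
    rcases eq_or_ne s t with rfl | hst
    · exact Eventually.of_forall fun _ h => absurd rfl h
    · exact (htend.eventually_lt_const (abs_pos.2 (sub_ne_zero.2 hst))).mono fun _ h _ => h
  filter_upwards [hsep] with n hn
  set h := (b - a) / 2 ^ n with hh
  have hh0 : 0 < h := div_pos (sub_pos.2 hab) (by positivity)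
  have hcell : ∀ t ∈ S, ∃ k ∈ Finset.range (2 ^ n), t ∈ cell a b n k := by
    intro t ht
    obtain ⟨⟨ha, hb⟩, -⟩ := hS t ht
    set x := (t - a) / h with hx
    have hx0 : 0 ≤ x := div_nonneg (sub_nonneg.2 ha) hh0.le
    have hxn : x ≤ (2 : ℝ) ^ n := by
      rw [hx, div_le_iff₀ hh0, hh, mul_div_cancel₀ _ (by positivity)]; linarith
    have htx : t = a + x * h := by rw [hx, div_mul_cancel₀ _ hh0.ne']; ring
    rcases hxn.lt_or_eq with hlt | heq
    · refine ⟨⌊x⌋₊, Finset.mem_range.2 (by rw [Nat.floor_lt hx0]; exact_mod_cast hlt), ?_⟩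
      rw [cell, ← hh, htx]
      exact ⟨by gcongr; exact Nat.floor_le hx0, by gcongr; exact (Nat.lt_floor_add_one x).le⟩
    · refine ⟨2 ^ n - 1, Finset.mem_range.2 (Nat.sub_lt (by positivity) one_pos), ?_⟩
      rw [cell, ← hh, htx, heq, Nat.cast_sub Nat.one_le_two_pow]
      push_cast
      exact ⟨by gcongr; linarith, by rw [sub_add_cancel]⟩
  choose! k hk hmem using hcell
  have hinj : Set.InjOn k S := by
    intro s hs t ht hst
    by_contra hne
    have h1 := hmem s hs
    have h2 := hmem t ht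
    rw [hst] at h1
    rw [cell, ← hh] at h1 h2
    have := hn s hs t ht hne
    have : |s - t| ≤ h := abs_le.2 ⟨by linarith [h1.1, h2.2], by linarith [h1.2, h2.1]⟩
    linarith
  calc (S.card : ℝ≥0∞) = ∑ j ∈ S.image k, (1 : ℝ≥0∞) := by
        simp [Finset.card_image_of_injOn hinj]
    _ = ∑ j ∈ S.image k, (F '' cell a b n j).indicator 1 μ := by
        refine Finset.sum_congr rfl fun j hj => ?_
        obtain ⟨t, ht, rfl⟩ := Finset.mem_image.1 hj
        have hμ : μ ∈ F '' cell a b n (k t) := ⟨t, hmem t ht, (hS t ht).2⟩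
        rw [indicator_of_mem hμ]; rfl
    _ ≤ indicN F a b n μ :=
        Finset.sum_le_sum_of_subset (Finset.image_subset_iff.2 hk)

/-- Almost every level set is finite on a compact interval. -/
lemma ae_finite_level (hF : Continuous F)
    (hD : ∀ a b : ℝ, IntervalIntegrable D' volume a b ∧ F b - F a = ∫ t in a..b, D' t)
    (hab : a ≤ b) : ∀ᵐ μ : ℝ, {t | t ∈ Icc a b ∧ F t = μ}.Finite := by
  have hfin : ∫⁻ t in Icc a b, ‖D' t‖ₑ ≠ ⊤ :=
    ((intervalIntegrable_iff_integrableOn_Icc_of_le hab).1 (hD a b).1).hasFiniteIntegral.ne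
  filter_upwards [ae_lt_top (measurable_indic hF)
    (ne_top_of_le_ne_top hfin (lintegral_indic_le hF hD hab))] with μ hμ
  by_contra hinf
  obtain ⟨m, hm⟩ := ENNReal.exists_nat_gt hμ.ne
  obtain ⟨S, hS, hcard⟩ := Set.Infinite.exists_subset_card_eq hinf m
  exact (hm.trans_le (hcard ▸ card_le_indic fun t ht => hS ht)).false

/-! ### The area inequality -/

variable {h h' : ℝ → ℝ} {T : Set ℝ}

/-- The points where `h` increases at rate `1 / (m + 1)` on a window of that radius. -/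
def incr (h : ℝ → ℝ) (m : ℕ) : Set ℝ :=
  {t | ∀ s : ℚ, |(s : ℝ)| ≤ 1 / ((m : ℝ) + 1) →
    (s : ℝ) ^ 2 / ((m : ℝ) + 1) ≤ (h (t + s) - h t) * s}

lemma exists_pieces (hc : Continuous h) (hT : MeasurableSet T)
    (hd : ∀ t ∈ T, HasDerivAt h (h' t) t) (hpos : ∀ t ∈ T, 0 < h' t) :
    ∃ Q : ℕ → Set ℝ, (∀ i, MeasurableSet (Q i)) ∧ Pairwise (Function.onFun Disjoint Q) ∧
      (∀ i, InjOn h (Q i)) ∧ ⋃ i, Q i = T := by
  set P : ℕ × ℤ → Set ℝ := fun i => T ∩ incr h i.1 ∩
    Ico ((i.2 : ℝ) / ((i.1 : ℝ) + 1)) (((i.2 : ℝ) + 1) / ((i.1 : ℝ) + 1)) with hP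
  set P' : ℕ → Set ℝ := fun n => P ((Denumerable.eqv (ℕ × ℤ)).symm n) with hP'
  have hmeas : ∀ i, MeasurableSet (P i) := fun i => by
    refine (hT.inter (IsClosed.measurableSet ?_)).inter measurableSet_Ico
    simp only [incr, ofPred_forall]
    exact isClosed_iInter fun s => isClosed_iInter fun _ =>
      isClosed_le continuous_const (by fun_prop)
  have hinj : ∀ i, InjOn h (P i) := by
    intro i
    suffices H : ∀ t ∈ P i, ∀ u ∈ P i, t < u → h t ≠ h u by
      intro t ht u hu htu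
      rcases lt_trichotomy t u with hl | hl | hl
      · exact absurd htu (H t ht u hu hl)
      · exact hl
      · exact absurd htu.symm (H u hu t ht hl)
    intro t ht u hu htu heq
    set w : ℝ := 1 / ((i.1 : ℝ) + 1) with hw
    have hlt : |u - t| < w := by
      have h1 := ht.2.1
      have h2 := hu.2.2
      rw [abs_of_pos (sub_pos.2 htu), hw]
      have : ((i.2 : ℝ) + 1) / ((i.1 : ℝ) + 1) =
          (i.2 : ℝ) / ((i.1 : ℝ) + 1) + 1 / ((i.1 : ℝ) + 1) := add_div _ _ _
      linarith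
    have hcl : IsClosed {s : ℝ | s ^ 2 / ((i.1 : ℝ) + 1) ≤ (h (t + s) - h t) * s} :=
      isClosed_le (by fun_prop) (by fun_prop)
    have hsub : ({s : ℝ | |s| < w} ∩ range ((↑) : ℚ → ℝ)) ⊆
        {s : ℝ | s ^ 2 / ((i.1 : ℝ) + 1) ≤ (h (t + s) - h t) * s} := by
      rintro _ ⟨hs, q, rfl⟩
      exact ht.1.2 q (le_of_lt hs)
    have hmem := hcl.closure_subset_iff.2 hsub
      (Rat.denseRange_cast.open_subset_closure_inter
        (isOpen_lt continuous_abs continuous_const) hlt)
    simp only [mem_ofPred_eq, add_sub_cancel, heq, sub_self, zero_mul] at hmem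
    have : 0 < (u - t) ^ 2 / ((i.1 : ℝ) + 1) := by have := sub_pos.2 htu; positivity
    linarith
  refine ⟨disjointed P', MeasurableSet.disjointed fun i => hmeas _, disjoint_disjointed P',
    fun i => (hinj _).mono (disjointed_subset P' i), ?_⟩
  rw [iUnion_disjointed]
  refine subset_antisymm (iUnion_subset fun i t ht => ht.1.1) fun t ht => ?_
  have hsmall := Asymptotics.isLittleO_iff.1 (hasDerivAt_iff_isLittleO_nhds_zero.1 (hd t ht))
    (half_pos (hpos t ht))
  obtain ⟨ε, hε, hball⟩ := Metric.eventually_nhds_iff.1 hsmall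
  obtain ⟨m, hm⟩ := exists_nat_one_div_lt (lt_min hε (half_pos (hpos t ht)))
  refine mem_iUnion.2 ⟨Denumerable.eqv (ℕ × ℤ) (m, ⌊t * ((m : ℝ) + 1)⌋), ?_⟩
  simp only [hP', Equiv.symm_apply_apply, hP]
  refine ⟨⟨ht, fun s hs => ?_⟩, ?_, ?_⟩
  · have hb := @hball (s : ℝ) (by rw [dist_zero_right, Real.norm_eq_abs]
                                  exact hs.trans_lt (hm.trans_le (min_le_left _ _)))
    simp only [Real.norm_eq_abs, smul_eq_mul] at hb
    have hm2 : 1 / ((m : ℝ) + 1) ≤ h' t / 2 := (hm.trans_le (min_le_right _ _)).le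
    have e : (h (t + s) - h t) * s
        = (h (t + s) - h t - s * h' t) * s + h' t * (s : ℝ) ^ 2 := by ring
    have hb2 : -(h' t / 2 * |(s : ℝ)| * |(s : ℝ)|) ≤ (h (t + s) - h t - s * h' t) * s := by
      refine le_trans ?_ (neg_abs_le _)
      rw [abs_mul]
      exact neg_le_neg (mul_le_mul_of_nonneg_right hb (abs_nonneg _))
    rw [mul_assoc, abs_mul_abs_self, ← sq] at hb2
    calc (s : ℝ) ^ 2 / ((m : ℝ) + 1) = 1 / ((m : ℝ) + 1) * (s : ℝ) ^ 2 := by ring
      _ ≤ h' t / 2 * (s : ℝ) ^ 2 := mul_le_mul_of_nonneg_right hm2 (sq_nonneg _)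
      _ ≤ (h (t + s) - h t) * s := by linarith
  · rw [div_le_iff₀ (by positivity)]; exact Int.floor_le _
  · rw [lt_div_iff₀ (by positivity)]; exact Int.lt_floor_add_one _

lemma measurableSet_image_of_deriv_pos (hc : Continuous h) (hT : MeasurableSet T)
    (hd : ∀ t ∈ T, HasDerivAt h (h' t) t) (hpos : ∀ t ∈ T, 0 < h' t) :
    MeasurableSet (h '' T) := by
  obtain ⟨Q, hQ, -, hinj, hU⟩ := exists_pieces hc hT hd hpos
  rw [← hU, image_iUnion]
  exact MeasurableSet.iUnion fun i => (hQ i).image_of_continuousOn_injOn hc.continuousOn (hinj i)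

/-- The area inequality for the increasing part of a continuous function. -/
lemma lintegral_deriv_le (hc : Continuous h) (hT : MeasurableSet T)
    (hd : ∀ t ∈ T, HasDerivAt h (h' t) t) (hpos : ∀ t ∈ T, 0 < h' t) (N : ℝ → ℝ≥0∞)
    (hN : ∀ μ, ∀ S : Finset ℝ, (∀ t ∈ S, t ∈ T ∧ h t = μ) → (S.card : ℝ≥0∞) ≤ N μ) :
    ∫⁻ t in T, ENNReal.ofReal (h' t) ≤ ∫⁻ μ, N μ := by
  classical
  obtain ⟨Q, hQ, hdisj, hinj, hU⟩ := exists_pieces hc hT hd hpos
  have hQT : ∀ i, Q i ⊆ T := fun i => hU ▸ subset_iUnion Q i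
  have him : ∀ i, MeasurableSet (h '' Q i) := fun i =>
    (hQ i).image_of_continuousOn_injOn hc.continuousOn (hinj i)
  have hpiece : ∀ i, ∫⁻ t in Q i, ENNReal.ofReal (h' t) = ∫⁻ μ, (h '' Q i).indicator 1 μ := by
    intro i
    have := lintegral_image_eq_lintegral_abs_deriv_mul (hQ i)
      (fun t ht => (hd t (hQT i ht)).hasDerivWithinAt) (hinj i) 1
    simp only [Pi.one_apply, lintegral_one, Measure.restrict_apply_univ, mul_one] at this
    rw [lintegral_indicator_one (him i), this]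
    exact setLIntegral_congr_fun (hQ i) fun t ht => by
      rw [abs_of_pos (hpos t (hQT i ht))]
  rw [← hU, lintegral_iUnion hQ hdisj]
  simp only [hpiece]
  rw [← lintegral_tsum fun i => (measurable_one.indicator (him i)).aemeasurable]
  refine lintegral_mono fun μ => ?_
  rw [ENNReal.tsum_eq_iSup_sum]
  refine iSup_le fun I => ?_
  set I' := I.filter fun i => μ ∈ h '' Q i with hI'
  have hsum : ∑ i ∈ I, (h '' Q i).indicator (1 : ℝ → ℝ≥0∞) μ = (I'.card : ℝ≥0∞) := by
    rw [hI', ← Finset.sum_boole]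
    exact Finset.sum_congr rfl fun i _ => by simp [indicator_apply]
  have hmem : ∀ i ∈ I', ∃ t ∈ Q i, h t = μ := fun i hi => (Finset.mem_filter.1 hi).2
  choose! t ht1 ht2 using hmem
  have htinj : Set.InjOn t I' := fun i hi j hj hij => by
    by_contra hne
    exact Set.disjoint_left.1 (hdisj hne) (ht1 i hi) (hij ▸ ht1 j hj)
  rw [hsum, ← Finset.card_image_of_injOn htinj]
  refine hN μ _ fun s hs => ?_
  obtain ⟨i, hi, rfl⟩ := Finset.mem_image.1 hs
  exact ⟨hQT i (ht1 i hi), ht2 i hi⟩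

/-! ### Averaging along lines -/

variable {d : ℕ}

lemma lintegral_line {Ψ : E d → ℝ≥0∞} (hΨ : Measurable Ψ) (v : E d) (s : Set ℝ) :
    ∫⁻ x : E d, ∫⁻ t in s, Ψ (x + t • v) = volume s * ∫⁻ x, Ψ x := by
  rw [lintegral_lintegral_swap]
  · simp only [lintegral_add_right_eq_self Ψ]
    rw [setLIntegral_const, mul_comm]
  · exact (hΨ.comp (by fun_prop)).aemeasurable

end Vale.Agent.P137
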