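import Vale.Agent.P137.GmaxBasic
import Vale.Agent.P137.Line1D

/-!
Module High: balls in which `{f > g}` has density bounded below.
-/

namespace Vale.Agent.P137

open MeasureTheory Metric Set Filter
open scoped InnerProductSpace ENNReal Topology

variable {d : ℕ}

namespace High

section basics
variable (R : Rep d)

lemma cont_gn (n : ℕ) : Continuous (gn R.f n) := GmaxBasic.continuous_gn R.nonneg R.int_f n

lemma avg_le (n : ℕ) {c y : E d} {r : ℝ} (hr : δs n ≤ r) (hy : dist y c ≤ r) :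
    avg R.f c r ≤ gn R.f n y :=
  GmaxBasic.avg_le_gmax R.nonneg R.int_f (GmaxBasic.δs_pos n) hr hy

lemma gn_mono {I n : ℕ} (h : I ≤ n) (x : E d) : gn R.f I x ≤ gn R.f n x :=
  GmaxBasic.gn_mono R.nonneg R.int_f h x

lemma gn_le_max (n : ℕ) (x : E d) : ENNReal.ofReal (gn R.f n x) ≤ maxFn R.f x :=
  GmaxBasic.ofReal_gn_le_maxFn R.nonneg R.int_f n x

lemma exists_gn_gt {x : E d} {μ : ℝ} (h : ENNReal.ofReal μ < maxFn R.f x) :
    ∃ I, μ < gn R.f I x := by
  rw [GmaxBasic.maxFn_eq_iSup R.nonneg R.int_f x, lt_iSup_iff] at h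
  exact h.imp fun I hI => lt_of_not_ge fun hle => hI.not_ge (ENNReal.ofReal_le_ofReal hle)

lemma meas_max : Measurable (maxFn R.f) := GmaxBasic.measurable_maxFn R.nonneg R.int_f

end basics

/-- Pairs for which the level of `g_n` is exceeded by `f` within time `Q`, staying above it. -/
def HSet (R : Rep d) (n : ℕ) (Q : ℝ) : Set (E d × E d) :=
  {p | R.f p.1 ≤ gn R.f n p.1 ∧ 0 < lineDeriv ℝ (gn R.f n) p.1 p.2 ∧
    ∃ q : ℚ, 0 ≤ (q : ℝ) ∧ (q : ℝ) ≤ Q ∧ gn R.f n p.1 < R.f (p.1 + (q : ℝ) • p.2) ∧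
      ∀ s : ℚ, 0 ≤ (s : ℝ) → (s : ℝ) ≤ (q : ℝ) →
        gn R.f n p.1 ≤ gn R.f n (p.1 + (s : ℝ) • p.2)}

/-- All pairs. -/
def HAll (R : Rep d) (n : ℕ) : Set (E d × E d) := ⋃ K : ℕ, HSet R n K

/-- Pairs at small scale where the maximal function exceeds `f`. -/
def HSmall (R : Rep d) (n J : ℕ) : Set (E d × E d) :=
  HSet R n (2 * δs J) ∩ {p | ENNReal.ofReal (R.f p.1) < maxFn R.f p.1}

/-- The positive part of the derivative in the direction `v`. -/
noncomputable def dG (R : Rep d) (n : ℕ) (p : E d × E d) : ℝ≥0∞ :=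
  ENNReal.ofReal (lineDeriv ℝ (gn R.f n) p.1 p.2)

lemma measurable_dG (R : Rep d) (n : ℕ) : Measurable (dG R n) :=
  (measurable_lineDeriv_uncurry (cont_gn R n)).ennreal_ofReal

lemma measurableSet_HSet (R : Rep d) (n : ℕ) (Q : ℝ) : MeasurableSet (HSet R n Q) := by
  have hg : Measurable fun p : E d × E d => gn R.f n p.1 :=
    (cont_gn R n).measurable.comp measurable_fst
  unfold HSet
  simp only [ofPred_and, ofPred_exists, ofPred_forall]
  exact (measurableSet_le (R.meas_f.comp measurable_fst) hg).inter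
    ((measurableSet_lt measurable_const (measurable_lineDeriv_uncurry (cont_gn R n))).inter
    (MeasurableSet.iUnion fun q => (MeasurableSet.const _).inter ((MeasurableSet.const _).inter
      ((measurableSet_lt hg (R.meas_f.comp (by fun_prop))).inter
      (MeasurableSet.iInter fun s => MeasurableSet.iInter fun _ => MeasurableSet.iInter fun _ =>
        measurableSet_le hg ((cont_gn R n).measurable.comp (by fun_prop)))))))

lemma measurableSet_HAll (R : Rep d) (n : ℕ) : MeasurableSet (HAll R n) :=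
  MeasurableSet.iUnion fun _ => measurableSet_HSet R n _

lemma measurableSet_HSmall (R : Rep d) (n J : ℕ) : MeasurableSet (HSmall R n J) :=
  (measurableSet_HSet R n _).inter (measurableSet_lt
    (R.meas_f.comp measurable_fst).ennreal_ofReal ((meas_max R).comp measurable_fst))

lemma HSet_mono (R : Rep d) (n : ℕ) {Q Q' : ℝ} (h : Q ≤ Q') : HSet R n Q ⊆ HSet R n Q' :=
  fun _ ⟨a, b, q, q0, q1, c⟩ => ⟨a, b, q, q0, q1.trans h, c⟩

lemma δs_le_one (n : ℕ) : δs n ≤ 1 := by
  unfold δs; rw [div_le_one (by positivity)]; simp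

/-! ### Analysis on one line -/

section line
variable {R : Rep d} {n : ℕ} {Q : ℝ} {x v : E d}

lemma hasDerivAt_of_mem {t : ℝ} (ht : (x + t • v, v) ∈ HSet R n Q) :
    HasDerivAt (fun s => gn R.f n (x + s • v)) (lineDeriv ℝ (gn R.f n) (x + t • v) v) t := by
  have hl : LineDifferentiableAt ℝ (gn R.f n) (x + t • v) v := by
    by_contra h
    have := ht.2.1
    rw [lineDeriv_zero_of_not_lineDifferentiableAt h] at this
    exact lt_irrefl _ this
  have h : HasDerivAt (fun s => gn R.f n (x + t • v + s • v))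
      (lineDeriv ℝ (gn R.f n) (x + t • v) v) (t - t) := by
    rw [sub_self]; exact hl.hasLineDerivAt
  refine (h.comp_sub_const t t).congr_of_eventuallyEq (Eventually.of_forall fun s => ?_)
  simp only [sub_smul]
  congr 1
  abel

/-- The point where `f` last meets the level before exceeding it. -/
lemma exists_zero (hF : Continuous fun s : ℝ => R.f (x + s • v)) {t : ℝ}
    (ht : (x + t • v, v) ∈ HSet R n Q) :
    ∃ z q : ℝ, t ≤ z ∧ z < t + q ∧ q ≤ Q ∧ R.f (x + z • v) = gn R.f n (x + t • v) ∧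
      ∀ w ∈ Icc t (t + q), gn R.f n (x + t • v) ≤ gn R.f n (x + w • v) := by
  obtain ⟨hft, -, q, hq0, hqQ, hlt, hge⟩ := ht
  set μ := gn R.f n (x + t • v) with hμ
  set F := fun s : ℝ => R.f (x + s • v) with hFdef
  have e : ∀ s : ℝ, x + t • v + s • v = x + (t + s) • v := fun s => by rw [add_smul, add_assoc]
  simp only [e] at hlt hge
  set A := Icc t (t + q) ∩ {w | F w ≤ μ} with hA
  have hAc : IsCompact A := isCompact_Icc.inter_right (isClosed_le hF continuous_const)
  have hAne : A.Nonempty := ⟨t, ⟨le_rfl, by linarith⟩, hft⟩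
  obtain ⟨z, hzA, hzmax⟩ := hAc.exists_isGreatest hAne
  have hzlt : z < t + q := by
    rcases hzA.1.2.lt_or_eq with h | h
    · exact h
    · exact absurd (h ▸ hzA.2 : F (t + q) ≤ μ) (not_le.2 hlt)
  refine ⟨z, q, hzA.1.1, hzlt, hqQ, ?_, fun w hw => ?_⟩
  · refine le_antisymm hzA.2 (not_lt.1 fun h => ?_)
    obtain ⟨u, hu, hFu⟩ := intermediate_value_Icc hzlt.le hF.continuousOn ⟨h.le, hlt.le⟩
    have := hzmax (⟨⟨hzA.1.1.trans hu.1, hu.2⟩, hFu.le⟩ : u ∈ A)
    have hzu : u = z := le_antisymm this hu.1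
    rw [hzu] at hFu
    exact h.ne hFu
  · rcases eq_or_lt_of_le hq0 with h0 | h0
    · rw [← h0, add_zero] at hw
      rw [le_antisymm hw.2 hw.1]
    have hcl : IsClosed {s : ℝ | μ ≤ gn R.f n (x + (t + s) • v)} :=
      isClosed_le continuous_const ((cont_gn R n).comp (by fun_prop))
    have hsub : (Ioo 0 (q : ℝ) ∩ range ((↑) : ℚ → ℝ)) ⊆
        {s : ℝ | μ ≤ gn R.f n (x + (t + s) • v)} := by
      rintro _ ⟨hs, s, rfl⟩
      exact hge s hs.1.le hs.2.le
    have h1 := closure_minimal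
      ((Rat.denseRange_cast.open_subset_closure_inter isOpen_Ioo).trans
        (hcl.closure_subset_iff.2 hsub)) hcl
    rw [closure_Ioo h0.ne] at h1
    have := h1 (show w - t ∈ Icc 0 (q : ℝ) from ⟨sub_nonneg.2 hw.1, by linarith [hw.2]⟩)
    simpa using this

/-- At most as many points of a level as zeros of `f - μ`. -/
lemma card_le (hF : Continuous fun s : ℝ => R.f (x + s • v)) {a b μ : ℝ} {S : Finset ℝ}
    (hS : ∀ t ∈ S, (t ∈ Icc a b ∧ (x + t • v, v) ∈ HSet R n Q) ∧ gn R.f n (x + t • v) = μ) :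
    (S.card : ℝ≥0∞) ≤ indic (fun s => R.f (x + s • v)) a (b + Q) μ := by
  classical
  have hz : ∀ t ∈ S, ∃ z q : ℝ, t ≤ z ∧ z < t + q ∧ q ≤ Q ∧ R.f (x + z • v) = μ ∧
      ∀ w ∈ Icc t (t + q), μ ≤ gn R.f n (x + w • v) := fun t ht => by
    have := exists_zero hF (hS t ht).1.2
    rwa [(hS t ht).2] at this
  choose! z q hz1 hz2 hz3 hz4 hz5 using hz
  have hsep : ∀ s ∈ S, ∀ t ∈ S, s < t → z s < z t := by
    intro s hs t ht hst
    refine lt_of_lt_of_le ?_ (hz1 t ht)
    by_contra hle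
    push Not at hle
    have htq : t ≤ s + q s := hle.trans (hz2 s hs).le
    have hd := hasDerivAt_of_mem (hS t ht).1.2
    have hlim := hd.tendsto_slope.mono_left
      (nhdsWithin_mono t (show Ioo s t ⊆ {t}ᶜ from fun w hw => hw.2.ne))
    have : NeBot (𝓝[Ioo s t] t) := by
      rw [← mem_closure_iff_nhdsWithin_neBot, closure_Ioo hst.ne]; exact ⟨hst.le, le_rfl⟩
    refine not_lt.2 (le_of_tendsto hlim (eventually_nhdsWithin_of_forall fun w hw => ?_))
      (hS t ht).1.2.2.1
    rw [slope_def_field, (hS t ht).2]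
    exact div_nonpos_of_nonneg_of_nonpos
      (sub_nonneg.2 (hz5 s hs w ⟨hw.1.le, hw.2.le.trans htq⟩)) (sub_nonpos.2 hw.2.le)
  have hinj : Set.InjOn z S := fun s hs t ht h => by
    rcases lt_trichotomy s t with hl | hl | hl
    · exact absurd h (hsep s hs t ht hl).ne
    · exact hl
    · exact absurd h (hsep t ht s hs hl).ne'
  rw [← Finset.card_image_of_injOn hinj]
  refine card_le_indic fun u hu => ?_
  obtain ⟨t, ht, rfl⟩ := Finset.mem_image.1 hu
  obtain ⟨⟨hta, -⟩, -⟩ := hS t ht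
  exact ⟨⟨hta.1.trans (hz1 t ht), by linarith [hz2 t ht, hz3 t ht, hta.2]⟩, hz4 t ht⟩

lemma measurableSet_window {S : Set (E d × E d)} (hS : MeasurableSet S) (a b : ℝ) :
    MeasurableSet (Icc a b ∩ {t : ℝ | (x + t • v, v) ∈ S}) :=
  measurableSet_Icc.inter (hS.preimage (by fun_prop))

lemma window_eq {S : Set (E d × E d)} (hS : MeasurableSet S) (a b : ℝ) :
    ∫⁻ t in Icc a b, S.indicator (dG R n) (x + t • v, v) =
      ∫⁻ t in Icc a b ∩ {t : ℝ | (x + t • v, v) ∈ S},
        ENNReal.ofReal (lineDeriv ℝ (gn R.f n) (x + t • v) v) := by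
  have hm : MeasurableSet {t : ℝ | (x + t • v, v) ∈ S} := hS.preimage (by fun_prop)
  rw [inter_comm, ← setLIntegral_indicator hm]
  rfl

lemma window_le (hg : (x, v) ∈ R.good) {a b : ℝ} (hab : a ≤ b) (hQ : 0 ≤ Q) :
    ∫⁻ t in Icc a b, (HSet R n Q).indicator (dG R n) (x + t • v, v)
      ≤ ∫⁻ t in Icc a (b + Q), ‖⟪R.D (x + t • v), v⟫_ℝ‖ₑ := by
  obtain ⟨hF, hFD⟩ := R.lineGood x v hg
  rw [window_eq (measurableSet_HSet R n Q)]
  refine le_trans ?_ (lintegral_indic_le hF hFD (hab.trans (le_add_of_nonneg_right hQ)))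
  exact lintegral_deriv_le (h := fun s => gn R.f n (x + s • v))
    ((cont_gn R n).comp (by fun_prop)) (measurableSet_window (measurableSet_HSet R n Q) a b)
    (fun t ht => hasDerivAt_of_mem ht.2) (fun t ht => ht.2.2.1) _ fun μ S hS => card_le hF hS

lemma HSmall_subset (J : ℕ) : HSmall R n J ⊆ HSet R n 2 :=
  fun _ hp => HSet_mono R n (by linarith [δs_le_one J]) hp.1

lemma window_small_le (hg : (x, v) ∈ R.good) (J : ℕ) :
    ∫⁻ t in Icc (-1 : ℝ) 1, (HSmall R n J).indicator (dG R n) (x + t • v, v)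
      ≤ ∫⁻ t in Icc (-1 : ℝ) 3, ‖⟪R.D (x + t • v), v⟫_ℝ‖ₑ := by
  have h := window_le (n := n) hg (Q := 2) (show (-1 : ℝ) ≤ 1 by norm_num) two_pos.le
  rw [show (1 : ℝ) + 2 = 3 by norm_num] at h
  refine le_trans (lintegral_mono fun t => ?_) h
  exact indicator_le_indicator_of_subset (HSmall_subset J) (fun _ => zero_le) _

end line

/-- Left-isolated points of a set of reals are countable. -/
lemma countable_left_isolated (K : Set ℝ) :
    {z | z ∈ K ∧ ∃ a < z, Ioo a z ∩ K = ∅}.Countable := by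
  have : {z | z ∈ K ∧ ∃ a < z, Ioo a z ∩ K = ∅} ⊆
      ⋃ q : ℚ, {z | z ∈ K ∧ (q : ℝ) < z ∧ Ioo (q : ℝ) z ∩ K = ∅} := by
    rintro z ⟨hz, a, ha, he⟩
    obtain ⟨q, hq1, hq2⟩ := exists_rat_btwn ha
    exact mem_iUnion.2 ⟨q, hz, hq2,
      subset_eq_empty (inter_subset_inter_left _ (Ioo_subset_Ioo_left hq1.le)) he⟩
  refine Countable.mono this (countable_iUnion fun q => Subsingleton.countable ?_)
  rintro z ⟨hz, hqz, he⟩ w ⟨hw, hqw, he'⟩
  rcases lt_trichotomy z w with h | h | h
  · exact absurd (show z ∈ Ioo (q : ℝ) w ∩ K from ⟨⟨hqz, h⟩, hz⟩) (by simp [he'])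
  · exact h
  · exact absurd (show w ∈ Ioo (q : ℝ) z ∩ K from ⟨⟨hqw, h⟩, hw⟩) (by simp [he])

/-- The window integral at small scale tends to zero on every good line. -/
lemma tendsto_window (R : Rep d) {x v : E d} (hg : (x, v) ∈ R.good) :
    Tendsto (fun J : ℕ => ⨆ (n : ℕ) (_ : J ≤ n),
      ∫⁻ t in Icc (-1 : ℝ) 1, (HSmall R n J).indicator (dG R n) (x + t • v, v)) atTop (𝓝 0) := by
  classical
  obtain ⟨hF, hFD⟩ := R.lineGood x v hg
  set F := fun s : ℝ => R.f (x + s • v) with hFdef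
  set h : ℕ → ℝ → ℝ := fun n s => gn R.f n (x + s • v) with hh
  have hhc : ∀ n, Continuous (h n) := fun n => (cont_gn R n).comp (by fun_prop)
  set T : ℕ → ℕ → Set ℝ := fun n J => Icc (-1 : ℝ) 1 ∩ {t | (x + t • v, v) ∈ HSmall R n J} with hT
  have hTm : ∀ n J, MeasurableSet (T n J) := fun n J =>
    measurableSet_window (measurableSet_HSmall R n J) _ _
  set bad : ℕ → Set ℝ := fun J => ⋃ (n : ℕ) (_ : J ≤ n), h n '' T n J with hbad
  have hbadm : ∀ J, MeasurableSet (bad J) := fun J =>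
    MeasurableSet.iUnion fun n => MeasurableSet.iUnion fun _ =>
      measurableSet_image_of_deriv_pos (hhc n) (hTm n J) (fun t ht => hasDerivAt_of_mem ht.2.1)
        (fun t ht => ht.2.1.2.1)
  set N := indic F (-1) 3 with hN
  have hNint : ∫⁻ μ, N μ ≠ ⊤ :=
    ne_top_of_le_ne_top ((intervalIntegrable_iff_integrableOn_Icc_of_le (by norm_num)).1
      (hFD (-1) 3).1).hasFiniteIntegral.ne (lintegral_indic_le hF hFD (by norm_num))
  have hB : Tendsto (fun J => ∫⁻ μ, (bad J).indicator N μ) atTop (𝓝 0) := by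
    rw [← lintegral_zero (α := ℝ) (μ := volume)]
    refine tendsto_lintegral_of_dominated_convergence N
      (fun J => (measurable_indic hF).indicator (hbadm J))
      (fun J => Eventually.of_forall (indicator_le_self' fun _ _ => zero_le)) hNint ?_
    set K := {s : ℝ | maxFn R.f (x + s • v) ≤ ENNReal.ofReal (F s)} with hK
    filter_upwards [ae_finite_level hF hFD (show (-1 : ℝ) ≤ 3 by norm_num),
      ((countable_left_isolated K).image F).ae_notMem volume] with μ hfin hiso
    refine tendsto_const_nhds.congr' ?_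
    have hev : ∀ z ∈ {t | t ∈ Icc (-1 : ℝ) 3 ∧ F t = μ}, ∀ᶠ J : ℕ in atTop, ∀ n, J ≤ n →
        ∀ t ∈ T n J, h n t = μ → z ∈ Icc t (t + 2 * δs J) →
          (∀ w ∈ Icc t z, μ ≤ h n w) → False := by
      intro z hz
      by_cases hmax : ENNReal.ofReal μ < maxFn R.f (x + z • v)
      · obtain ⟨I, hI⟩ := exists_gn_gt R hmax
        obtain ⟨ε, hε, hball⟩ := Metric.isOpen_iff.1
          ((isOpen_Ioi (a := μ)).preimage (hhc I)) z hI
        filter_upwards [eventually_ge_atTop I, GmaxBasic.tendsto_δs.eventually_lt_const (half_pos hε)]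
          with J hJI hJ n hn t ht hμ htz _
        have : μ < h I t := hball (by
          rw [mem_ball, Real.dist_eq, abs_sub_comm, abs_of_nonneg (sub_nonneg.2 htz.1)]
          linarith [htz.2])
        exact (this.trans_le (gn_mono R (hJI.trans hn) _)).ne hμ.symm
      · push Not at hmax
        have hzK : z ∈ K := by rw [hK, mem_ofPred_eq, hz.2]; exact hmax
        have hnbhd : {w | w ∈ Icc (-1 : ℝ) 3 ∧ F w = μ ∧ w ≠ z}ᶜ ∈ 𝓝 z :=
          ((hfin.subset fun w hw => (⟨hw.1, hw.2.1⟩ : w ∈ Icc (-1 : ℝ) 3 ∧ F w = μ)).isClosed.isOpen_compl).mem_nhds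
            (fun h => h.2.2 rfl)
        obtain ⟨ε, hε, hball⟩ := Metric.mem_nhds_iff.1 hnbhd
        have hnoniso : ∀ a < z, (Ioo a z ∩ K).Nonempty := fun a ha => by
          rw [nonempty_iff_ne_empty]
          exact fun he => hiso ⟨z, ⟨hzK, a, ha, he⟩, hz.2⟩
        filter_upwards [GmaxBasic.tendsto_δs.eventually_lt_const (half_pos hε)]
          with J hJ n hn t ht hμ htz hge
        rcases htz.1.eq_or_lt with rfl | htlt
        · have := ht.2.2
          rw [mem_ofPred_eq] at this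
          exact not_le.2 this hzK
        obtain ⟨w, hw, hwK⟩ := hnoniso t htlt
        have hFt : F t ≤ μ := hμ ▸ ht.2.1.1
        have hFw : F w < μ := by
          by_contra hle
          push Not at hle
          obtain ⟨u, hu, hFu⟩ := intermediate_value_Icc hw.1.le hF.continuousOn ⟨hFt, hle⟩
          refine hball ?_ ⟨⟨ht.1.1.trans hu.1, by linarith [hu.2, hw.2, hz.1.2]⟩, hFu,
            (hu.2.trans_lt hw.2).ne⟩
          rw [mem_ball, Real.dist_eq, abs_sub_comm,
            abs_of_nonneg (sub_nonneg.2 (hu.2.trans hw.2.le))]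
          linarith [hu.1, htz.2]
        have h2 : h n w ≤ F w := (ENNReal.ofReal_le_ofReal_iff (R.nonneg _)).1
          ((gn_le_max R n _).trans hwK)
        linarith [hge w ⟨hw.1.le, hw.2.le⟩]
    filter_upwards [(eventually_all_finite hfin).2 hev] with J hJ
    refine (indicator_of_notMem (fun hμ => ?_) _).symm
    obtain ⟨n, hn, t, ht, htμ⟩ := mem_iUnion₂.1 hμ
    obtain ⟨z, q, h1, h2, h3, h4, h5⟩ := exists_zero hF ht.2.1
    refine hJ z ⟨⟨ht.1.1.trans h1, ?_⟩, h4.trans htμ⟩ n hn t ht htμ ⟨h1, by linarith⟩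
      fun w hw => htμ ▸ h5 w ⟨hw.1, hw.2.trans h2.le⟩
    linarith [ht.1.2, δs_le_one J]
  refine tendsto_of_tendsto_of_tendsto_of_le_of_le tendsto_const_nhds hB (fun _ => zero_le)
    fun J => iSup₂_le fun n hn => ?_
  rw [window_eq (measurableSet_HSmall R n J)]
  refine lintegral_deriv_le (hhc n) (hTm n J) (fun t ht => hasDerivAt_of_mem ht.2.1)
    (fun t ht => ht.2.1.2.1) _ fun μ S hS => ?_
  rcases S.eq_empty_or_nonempty with rfl | ⟨t0, ht0⟩
  · simp
  rw [indicator_of_mem (show μ ∈ bad J from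
    mem_iUnion₂.2 ⟨n, hn, t0, (hS t0 ht0).1, (hS t0 ht0).2⟩)]
  have h := card_le (R := R) (n := n) (Q := 2) hF (a := -1) (b := 1) (μ := μ) (S := S)
    fun t ht => ⟨⟨(hS t ht).1.1, HSmall_subset J (hS t ht).1.2⟩, (hS t ht).2⟩
  rw [show (1 : ℝ) + 2 = 3 by norm_num] at h
  exact h

/-- Slabs through the unit ball are uniformly small. -/
lemma exists_slab (hd : 0 < d) {β : ℝ≥0∞} (hβ : 0 < β) :
    ∃ s : ℝ, 0 < s ∧ ∀ u : E d, ‖u‖ = 1 →
      volume (closedBall (0 : E d) 1 ∩ {v | |⟪u, v⟫_ℝ| ≤ s}) ≤ β := by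
  set e : E d := EuclideanSpace.single ⟨0, hd⟩ 1 with he
  have he1 : ‖e‖ = 1 := by rw [he]; simp
  have hm : ∀ (u : E d) (s : ℝ), MeasurableSet (closedBall (0 : E d) 1 ∩ {v | |⟪u, v⟫_ℝ| ≤ s}) :=
    fun u s => measurableSet_closedBall.inter (measurableSet_le (by fun_prop) measurable_const)
  set S : ℕ → Set (E d) := fun k =>
    closedBall (0 : E d) 1 ∩ {v | |⟪e, v⟫_ℝ| ≤ 1 / ((k : ℝ) + 1)} with hS
  have hanti : Antitone S := fun i j hij v hv =>
    ⟨hv.1, le_trans (b := 1 / ((j : ℝ) + 1)) hv.2 (Nat.one_div_le_one_div hij)⟩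
  have hzero : volume (⋂ k, S k) = 0 := by
    refine measure_mono_null (fun v hv => ?_)
      (Measure.addHaar_submodule volume (innerSL ℝ e).ker fun h => ?_)
    · have h0 : |⟪e, v⟫_ℝ| ≤ 0 := ge_of_tendsto' tendsto_one_div_add_atTop_nhds_zero_nat
        fun k => (mem_iInter.1 hv k).2
      simpa using abs_nonpos_iff.1 h0
    · have h1 : e ∈ (innerSL ℝ e).ker := h ▸ Submodule.mem_top
      simp [he1] at h1
  have ht := tendsto_measure_iInter_atTop (μ := volume) (fun k => (hm e _).nullMeasurableSet) hanti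
    ⟨0, ne_top_of_le_ne_top measure_closedBall_lt_top.ne (measure_mono inter_subset_left)⟩
  rw [hzero] at ht
  obtain ⟨k, hk⟩ := (ht.eventually_lt_const hβ).exists
  refine ⟨1 / ((k : ℝ) + 1), by positivity, fun u hu => ?_⟩
  set L := (ℝ ∙ (u - e))ᗮ.reflection with hL
  have hLu : L u = e := Submodule.reflection_sub (by rw [hu, he1])
  have hset : closedBall (0 : E d) 1 ∩ {v | |⟪u, v⟫_ℝ| ≤ 1 / ((k : ℝ) + 1)} = L ⁻¹' S k := by
    ext v
    simp only [hS, mem_inter_iff, mem_closedBall, dist_zero_right, mem_preimage, mem_ofPred_eq,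
      LinearIsometryEquiv.norm_map, ← hLu, L.inner_map_map]
  rw [hset, L.measurePreserving.measure_preimage (hm e _).nullMeasurableSet]
  exact hk.le

/-- On a high density ball the gradient is controlled by directional increases. -/
lemma grad_le (hd : 0 < d) {θ : ℝ} (hθ : 0 < θ) : ∃ C : ℝ≥0∞, C ≠ ⊤ ∧ ∀ (R : Rep d) (n : ℕ),
    ∀ᵐ x : E d, R.f x ≤ gn R.f n x → ∀ ρ, HasBall R n θ ρ true x →
      ∀ S : Set (E d × E d), (∀ v, (x, v) ∈ HSet R n (2 * ρ) → (x, v) ∈ S) →
        ‖fderiv ℝ (gn R.f n) x‖ₑ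
          ≤ C * ∫⁻ v in closedBall (0 : E d) 1, S.indicator (dG R n) (x, v) := by
  set κ := volume.real (closedBall (0 : E d) 1) with hκ
  have hκ0 : 0 < κ := ENNReal.toReal_pos (measure_closedBall_pos volume 0 one_pos).ne'
    measure_closedBall_lt_top.ne
  set β := θ * κ / 2 ^ d / 2 with hβ
  have hβ0 : 0 < β := by rw [hβ]; positivity
  obtain ⟨s, hs, hslab⟩ := exists_slab hd (ENNReal.ofReal_pos.2 hβ0)
  refine ⟨ENNReal.ofReal (1 / (β * s)), ENNReal.ofReal_ne_top, fun R n => ?_⟩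
  have hgood : ∀ᵐ x : E d, ∀ᵐ v : E d, (x, v) ∈ R.good :=
    (Measure.ae_ae_comm (p := fun x v => (x, v) ∈ R.good) R.meas_good).2
      (Eventually.of_forall R.ae_good)
  filter_upwards [hgood] with x hx hfx ρ hball S hS
  set g := gn R.f n with hg
  by_cases hdiff : DifferentiableAt ℝ g x
  swap
  · rw [fderiv_zero_of_not_differentiableAt hdiff, ← ofReal_norm, norm_zero, ENNReal.ofReal_zero]
    exact zero_le
  set L := fderiv ℝ g x with hLdef
  rcases eq_or_ne L 0 with hL0 | hL0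
  · rw [hL0, ← ofReal_norm, ContinuousLinearMap.opNorm_zero, ENNReal.ofReal_zero]
    exact zero_le
  obtain ⟨c, r, hr, hrρ, hxc, havg, hdens⟩ := hball
  simp only [cond_true] at hdens
  have hr0 : 0 < r := (GmaxBasic.δs_pos n).trans_le hr
  set A := closedBall c r ∩ {y | g x < R.f y} with hA
  set V : Set (E d) := (fun v => x + (2 * r) • v) ⁻¹' A with hV
  have hVball : V ⊆ closedBall 0 1 := fun v hv => by
    have h1 : dist (x + (2 * r) • v) x ≤ 2 * r :=
      (dist_triangle_right _ _ c).trans (by linarith [mem_closedBall.1 hv.1])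
    rw [dist_eq_norm, add_sub_cancel_left, norm_smul, Real.norm_eq_abs,
      abs_of_pos (by linarith)] at h1
    rw [mem_closedBall, dist_zero_right]
    nlinarith [norm_nonneg v]
  have hVvol : ENNReal.ofReal (2 * β) ≤ volume V := by
    have : Nonempty (Fin d) := ⟨⟨0, hd⟩⟩
    rw [hV, show (fun v : E d => x + (2 * r) • v) = (fun y => x + y) ∘ ((2 * r) • ·) from rfl,
      preimage_comp, Measure.addHaar_preimage_smul volume (by positivity), measure_preimage_add,
      finrank_euclideanSpace_fin]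
    refine le_trans ?_ (mul_le_mul_right hdens _)
    rw [Measure.addHaar_closedBall' volume c hr0.le, finrank_euclideanSpace_fin,
      ← ENNReal.ofReal_toReal (measure_closedBall_lt_top (x := (0 : E d)) (r := 1)).ne,
      ← Measure.real, ← hκ, ← ENNReal.ofReal_mul (by positivity),
      ← ENNReal.ofReal_mul hθ.le, ← ENNReal.ofReal_mul (abs_nonneg _)]
    refine ENNReal.ofReal_le_ofReal (le_of_eq ?_)
    rw [abs_of_pos (by positivity), hβ, mul_pow]
    field_simp
  have hgeball : ∀ y ∈ closedBall c r, g x ≤ g y := fun y hy => by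
    rw [hg, ← havg]; exact avg_le R n hr hy
  have key : ∀ᵐ v : E d, v ∈ V → ‖L v‖ₑ ≤ S.indicator (dG R n) (x, v) := by
    filter_upwards [hx] with v hgv hv
    have hF := (R.lineGood x v hgv).1
    have hsegm : ∀ w ∈ Icc 0 (2 * r), g x ≤ g (x + w • v) := by
      intro w hw
      refine hgeball _ ?_
      have := (convex_closedBall c r).add_smul_mem (mem_closedBall.2 hxc) hv.1
        (t := w / (2 * r)) ⟨div_nonneg hw.1 (by linarith), by
          rw [div_le_one (by linarith)]; exact hw.2⟩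
      rwa [smul_smul, div_mul_cancel₀ _ (by linarith)] at this
    have hline : lineDeriv ℝ g x v = L v := hdiff.lineDeriv_eq_fderiv
    have hder : HasDerivAt (fun w : ℝ => g (x + w • v)) (L v) 0 :=
      hdiff.hasFDerivAt.hasLineDerivAt v
    have hnonneg : 0 ≤ L v := by
      refine ge_of_tendsto hder.tendsto_slope_zero_right ?_
      filter_upwards [Ioc_mem_nhdsGT (show (0 : ℝ) < 2 * r by positivity)] with w hw
      simp only [smul_eq_mul, zero_add, zero_smul, add_zero]
      exact mul_nonneg (inv_nonneg.2 hw.1.le) (sub_nonneg.2 (hsegm w ⟨hw.1.le, hw.2⟩))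
    rcases hnonneg.eq_or_lt with h0 | h0
    · simp [← h0]
    have hmem : (x, v) ∈ S := by
      refine hS v ⟨hfx, by rw [hline]; exact h0, ?_⟩
      obtain ⟨ε, hε, hbl⟩ := Metric.isOpen_iff.1
        ((isOpen_Ioi (a := g x)).preimage hF) (2 * r) hv.2
      obtain ⟨q, hq1, hq2⟩ := exists_rat_btwn
        (show max 0 (2 * r - ε) < 2 * r from max_lt (by linarith) (by linarith))
      refine ⟨q, (le_max_left _ _).trans hq1.le, by linarith, hbl ?_, fun w hw1 hw2 =>
        hsegm _ ⟨hw1, hw2.trans hq2.le⟩⟩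
      rw [mem_ball, Real.dist_eq, abs_sub_comm, abs_of_pos (sub_pos.2 hq2)]
      linarith [le_max_right (0 : ℝ) (2 * r - ε)]
    rw [indicator_of_mem hmem, dG, ← hg, hline, Real.enorm_eq_ofReal h0.le]
  set u : E d := ‖L‖⁻¹ • (InnerProductSpace.toDual ℝ (E d)).symm L with hu
  have hLn : 0 < ‖L‖ := norm_pos_iff.2 hL0
  have hu1 : ‖u‖ = 1 := by
    rw [hu, norm_smul, LinearIsometryEquiv.norm_map, norm_inv, norm_norm, inv_mul_cancel₀ hLn.ne']
  have huv : ∀ v, ⟪u, v⟫_ℝ = ‖L‖⁻¹ * L v := fun v => by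
    rw [hu, real_inner_smul_left, InnerProductSpace.toDual_symm_apply]
  set W := V \ (closedBall (0 : E d) 1 ∩ {v | |⟪u, v⟫_ℝ| ≤ s}) with hW
  have hWvol : ENNReal.ofReal β ≤ volume W := by
    refine le_trans ?_ le_measure_sdiff
    refine le_trans ?_ (tsub_le_tsub hVvol (hslab u hu1))
    rw [← ENNReal.ofReal_sub _ hβ0.le]
    exact ENNReal.ofReal_le_ofReal (by linarith)
  have hVm : MeasurableSet V :=
    (measurableSet_closedBall.inter (measurableSet_lt measurable_const R.meas_f)).preimage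
      (by fun_prop)
  have hWm : MeasurableSet W := hVm.diff
    (measurableSet_closedBall.inter (measurableSet_le (by fun_prop) measurable_const))
  have hmain : ENNReal.ofReal β * ENNReal.ofReal (s * ‖L‖)
      ≤ ∫⁻ v in closedBall (0 : E d) 1, S.indicator (dG R n) (x, v) := by
    refine le_trans ?_ (lintegral_mono_set (sdiff_subset.trans hVball : W ⊆ _))
    refine le_trans (mul_le_mul_left hWvol _) ?_
    rw [mul_comm, ← setLIntegral_const]
    refine setLIntegral_mono_ae' hWm ?_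
    filter_upwards [key] with v hv hvW
    refine le_trans ?_ (hv hvW.1)
    rw [Real.enorm_eq_ofReal_abs]
    refine ENNReal.ofReal_le_ofReal ?_
    have h1 : s < |⟪u, v⟫_ℝ| := not_le.1 fun h => hvW.2 ⟨hVball hvW.1, h⟩
    rw [huv, abs_mul, abs_inv, abs_norm, ← div_eq_inv_mul, lt_div_iff₀ hLn] at h1
    exact h1.le
  calc ‖L‖ₑ = ENNReal.ofReal (1 / (β * s)) * (ENNReal.ofReal β * ENNReal.ofReal (s * ‖L‖)) := by
        rw [← ENNReal.ofReal_mul hβ0.le, ← ENNReal.ofReal_mul (by positivity), ← ofReal_norm]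
        congr 1
        field_simp
    _ ≤ _ := mul_le_mul_right hmain _

lemma lintegral_inner_le (R : Rep d) {v : E d} (hv : ‖v‖ ≤ 1) :
    ∫⁻ x, ‖⟪R.D x, v⟫_ℝ‖ₑ ≤ ∫⁻ x, ‖R.D x‖ₑ := lintegral_mono fun x => by
  rw [← ofReal_norm, ← ofReal_norm]
  exact ENNReal.ofReal_le_ofReal ((norm_inner_le_norm _ _).trans
    (mul_le_of_le_one_right (norm_nonneg _) hv))

lemma measurable_slice (R : Rep d) (n : ℕ) {S : Set (E d × E d)} (hS : MeasurableSet S) (v : E d) :
    Measurable fun x => S.indicator (dG R n) (x, v) :=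
  ((measurable_dG R n).indicator hS).comp (by fun_prop)

/-- All scales: per direction. -/
lemma lintegral_HAll_le (R : Rep d) (n : ℕ) {v : E d} (hv : ‖v‖ ≤ 1) :
    ∫⁻ x, (HAll R n).indicator (dG R n) (x, v) ≤ 2 * ∫⁻ x, ‖R.D x‖ₑ := by
  have hmono : Monotone fun K : ℕ => HSet R n K :=
    fun i j hij => HSet_mono R n (Nat.cast_le.2 hij)
  simp only [HAll, indicator_iUnion_apply (M := ℝ≥0∞) rfl]
  rw [lintegral_iSup (fun K : ℕ => measurable_slice R n (measurableSet_HSet R n _) v)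
    fun i j hij x => indicator_le_indicator_of_subset (hmono hij) (fun _ => zero_le) _]
  refine iSup_le fun K => le_trans ?_ (mul_le_mul_right (lintegral_inner_le R hv) _)
  set M : ℝ := (K : ℝ) + 1 with hM
  have hM0 : 0 < M := by positivity
  have hD : Measurable fun x => ‖⟪R.D x, v⟫_ℝ‖ₑ := (R.meas_D.inner measurable_const).enorm
  refine (ENNReal.mul_le_mul_iff_right (ENNReal.ofReal_pos.2 hM0).ne' ENNReal.ofReal_ne_top).1 ?_
  have h1 := lintegral_line (measurable_slice R n (measurableSet_HSet R n (K : ℝ)) v) v (Icc 0 M)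
  rw [Real.volume_Icc, sub_zero] at h1
  rw [← h1]
  have h2 := lintegral_line hD v (Icc 0 (2 * M))
  rw [Real.volume_Icc, sub_zero, ENNReal.ofReal_mul zero_le_two, ENNReal.ofReal_ofNat] at h2
  rw [← mul_assoc, mul_comm _ (2 : ℝ≥0∞), ← h2]
  refine lintegral_mono_ae ?_
  filter_upwards [R.ae_good v] with x hx
  exact (window_le hx hM0.le (Nat.cast_nonneg K)).trans
    (lintegral_mono_set (Icc_subset_Icc_right (by rw [hM]; linarith)))

lemma measurable_window (R : Rep d) (n : ℕ) {S : Set (E d × E d)} (hS : MeasurableSet S) :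
    Measurable fun p : E d × E d =>
      ∫⁻ t in Icc (-1 : ℝ) 1, S.indicator (dG R n) (p.2 + t • p.1, p.1) :=
  Measurable.lintegral_prod_right'
    (f := fun q : (E d × E d) × ℝ => S.indicator (dG R n) (q.1.2 + q.2 • q.1.1, q.1.1))
    (((measurable_dG R n).indicator hS).comp (by fun_prop))

/-- Small scales, integrated over directions. -/
lemma tendsto_small (R : Rep d) :
    Tendsto (fun J : ℕ => ⨆ (n : ℕ) (_ : J ≤ n), ∫⁻ v in closedBall (0 : E d) 1,
      ∫⁻ x, (HSmall R n J).indicator (dG R n) (x, v)) atTop (𝓝 0) := by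
  set ν := (volume : Measure (E d)).restrict (closedBall (0 : E d) 1) with hν
  set P := ν.prod (volume : Measure (E d)) with hP
  set W : ℕ → E d × E d → ℝ≥0∞ := fun J p => ⨆ (n : ℕ) (_ : J ≤ n),
    ∫⁻ t in Icc (-1 : ℝ) 1, (HSmall R n J).indicator (dG R n) (p.2 + t • p.1, p.1) with hW
  have hWm : ∀ J, Measurable (W J) := fun J => Measurable.iSup fun n => Measurable.iSup fun _ =>
    measurable_window R n (measurableSet_HSmall R n J)
  set B : E d × E d → ℝ≥0∞ := fun p =>
    ∫⁻ t in Icc (-1 : ℝ) 3, ‖⟪R.D (p.2 + t • p.1), p.1⟫_ℝ‖ₑ with hB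
  have hgood : ∀ᵐ p ∂P, (p.2, p.1) ∈ R.good :=
    (Measure.ae_prod_iff_ae_ae (p := fun p : E d × E d => (p.2, p.1) ∈ R.good)
      (R.meas_good.preimage (by fun_prop))).2 (Eventually.of_forall R.ae_good)
  have hBm : Measurable B :=
    Measurable.lintegral_prod_right'
      (f := fun q : (E d × E d) × ℝ => ‖⟪R.D (q.1.2 + q.2 • q.1.1), q.1.1⟫_ℝ‖ₑ)
      (((R.meas_D.comp (by fun_prop)).inner (by fun_prop)).enorm)
  have hBint : ∫⁻ p, B p ∂P ≠ ⊤ := by
    rw [hP, lintegral_prod _ hBm.aemeasurable]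
    refine ne_top_of_le_ne_top ?_ (setLIntegral_mono'
      (g := fun _ => volume (Icc (-1 : ℝ) 3) * ∫⁻ x, ‖R.D x‖ₑ) measurableSet_closedBall
      fun v hv => ?_)
    · rw [setLIntegral_const]
      exact ENNReal.mul_ne_top (ENNReal.mul_ne_top measure_Icc_lt_top.ne R.int_D.hasFiniteIntegral.ne)
        measure_closedBall_lt_top.ne
    · simp only [hB]
      rw [lintegral_line (Ψ := fun x => ‖⟪R.D x, v⟫_ℝ‖ₑ) (R.meas_D.inner measurable_const).enorm v]
      exact mul_le_mul_right (lintegral_inner_le R (by simpa using hv)) _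
  have hlim : Tendsto (fun J => ∫⁻ p, W J p ∂P) atTop (𝓝 0) := by
    rw [← lintegral_zero (α := E d × E d) (μ := P)]
    refine tendsto_lintegral_of_dominated_convergence B hWm (fun J => ?_) hBint ?_
    · filter_upwards [hgood] with p hp
      exact iSup₂_le fun n _ => window_small_le hp J
    · filter_upwards [hgood] with p hp
      exact tendsto_window R hp
  refine tendsto_of_tendsto_of_tendsto_of_le_of_le tendsto_const_nhds hlim (fun _ => zero_le)
    fun J => iSup₂_le fun n hn => ?_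
  calc ∫⁻ v in closedBall (0 : E d) 1, ∫⁻ x, (HSmall R n J).indicator (dG R n) (x, v)
      ≤ ∫⁻ v in closedBall (0 : E d) 1, ∫⁻ x, ∫⁻ t in Icc (-1 : ℝ) 1,
          (HSmall R n J).indicator (dG R n) (x + t • v, v) := by
        refine lintegral_mono fun v => ?_
        rw [lintegral_line (Ψ := fun x => (HSmall R n J).indicator (dG R n) (x, v))
          (measurable_slice R n (measurableSet_HSmall R n J) v) v, Real.volume_Icc]
        exact le_mul_of_one_le_left' (by norm_num)
    _ ≤ ∫⁻ p, W J p ∂P := by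
        rw [hP, lintegral_prod _ (hWm J).aemeasurable]
        refine lintegral_mono fun v => lintegral_mono fun x => ?_
        exact le_iSup₂ (f := fun (m : ℕ) (_ : J ≤ m) => ∫⁻ t in Icc (-1 : ℝ) 1,
          (HSmall R m J).indicator (dG R m) (x + t • v, v)) n hn

end High

open High in
/-- Module High. -/
theorem high : HighStmt := by
  intro d hd θ hθ
  obtain ⟨C, hC, hgrad⟩ := grad_le hd hθ
  refine ⟨C * (2 * volume (closedBall (0 : E d) 1)), ENNReal.mul_ne_top hC
    (ENNReal.mul_ne_top ENNReal.ofNat_ne_top measure_closedBall_lt_top.ne), fun R => ?_⟩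
  have hmeas : ∀ (n : ℕ) (S : Set (E d × E d)), MeasurableSet S →
      Measurable fun x => C * ∫⁻ v in closedBall (0 : E d) 1, S.indicator (dG R n) (x, v) :=
    fun n S hS => (Measurable.lintegral_prod_right'
      ((measurable_dG R n).indicator hS)).const_mul C
  have hint : ∀ (n : ℕ) (S : Set (E d × E d)), MeasurableSet S →
      (∫⁻ x, C * ∫⁻ v in closedBall (0 : E d) 1, S.indicator (dG R n) (x, v)) =
        C * ∫⁻ v in closedBall (0 : E d) 1, ∫⁻ x, S.indicator (dG R n) (x, v) := fun n S hS => by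
    rw [lintegral_const_mul' _ _ hC, lintegral_lintegral_swap]
    exact ((measurable_dG R n).indicator hS).aemeasurable
  refine ⟨fun n x => C * ∫⁻ v in closedBall (0 : E d) 1, (HAll R n).indicator (dG R n) (x, v),
    fun n J x => C * ∫⁻ v in closedBall (0 : E d) 1, (HSmall R n J).indicator (dG R n) (x, v),
    fun n => hmeas n _ (measurableSet_HAll R n), fun n J => hmeas n _ (measurableSet_HSmall R n J),
    fun n => ?_, fun n J _ => ?_, fun n => ?_, ?_⟩
  · filter_upwards [hgrad R n] with x hx hfx hb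
    obtain ⟨ρ, hρ⟩ := hb
    exact hx hfx ρ hρ _ fun v hv => mem_iUnion.2 ⟨⌈2 * ρ⌉₊, HSet_mono R n (Nat.le_ceil _) hv⟩
  · filter_upwards [hgrad R n] with x hx hfx hmax hb
    exact hx hfx _ hb _ fun v hv => ⟨hv, hmax⟩
  · rw [hint n _ (measurableSet_HAll R n), mul_assoc]
    gcongr
    refine le_trans (setLIntegral_mono' measurableSet_closedBall
      (g := fun _ => 2 * ∫⁻ x, ‖R.D x‖ₑ) fun v hv => lintegral_HAll_le R n (by simpa using hv)) ?_
    rw [setLIntegral_const, mul_right_comm]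
  · have h := ENNReal.Tendsto.const_mul (a := C) (tendsto_small R) (Or.inr hC)
    rw [mul_zero] at h
    refine h.congr fun J => ?_
    simp only [ENNReal.mul_iSup, hint _ _ (measurableSet_HSmall R _ J)]

end Vale.Agent.P137
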