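import Vale.Agent.P137.LowScale
import Vale.Agent.P137.Gmax
import Vale.Agent.P137.Line1D

/-!
Module Low: the gradient of `gn` at the points with a maximising ball of low density.

In a dyadic cell all maximal values of low density balls lie within the excess bound of each
other, and on the points of the cell `gn` is monotone along short chords in a coordinate direction.
-/

namespace Vale.Agent.P137.Low

open MeasureTheory Metric Set Filter
open scoped InnerProductSpace ENNReal Topology

variable {d : ℕ}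

/-- The maximal values realised by low density balls of the cell `(k, i)`. -/
def LowVal (R : Rep d) (n : ℕ) (θ : ℝ) (k : ℤ) (i : Fin d → ℤ) (l : ℝ) : Prop :=
  ∃ x c r, δs n ≤ r ∧ (2 : ℝ) ^ k ≤ r ∧ r < (2 : ℝ) ^ (k + 1) ∧
    dist c (grid k i) ≤ (2 : ℝ) ^ k / 4 ∧ dist x c ≤ r ∧ avg R.f c r = gn R.f n x ∧
    gn R.f n x = l ∧
    volume (closedBall c r ∩ {y | gn R.f n x < R.f y}) ≤ ENNReal.ofReal θ * volume (closedBall c r)

/-- The spread of the values of one cell. -/
noncomputable def spread (R : Rep d) (n : ℕ) (L C : ℝ) (k : ℤ) (i : Fin d → ℤ) : ℝ≥0∞ :=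
  ENNReal.ofReal (4 * C / (((2 : ℝ) ^ k) ^ d * ((3 * (2 : ℝ) ^ k / 4) ^ d
    * volume.real (closedBall (0 : E d) 1)))) * cellX R n L k i

open scoped Classical in
/-- The interval containing all values of one cell. -/
noncomputable def valSet (R : Rep d) (n : ℕ) (θ L C : ℝ) (k : ℤ) (i : Fin d → ℤ) : Set ℝ :=
  if h : ∃ l, LowVal R n θ k i l then Metric.closedEBall h.choose (spread R n L C k i) else ∅

lemma measurableSet_valSet (R : Rep d) (n : ℕ) (θ L C : ℝ) (k : ℤ) (i : Fin d → ℤ) :
    MeasurableSet (valSet R n θ L C k i) := by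
  unfold valSet
  split_ifs
  · exact Metric.isClosed_closedEBall.measurableSet
  · exact MeasurableSet.empty

lemma volume_valSet_le (R : Rep d) (n : ℕ) (θ L C : ℝ) (k : ℤ) (i : Fin d → ℤ) :
    volume (valSet R n θ L C k i) ≤ 2 * spread R n L C k i := by
  unfold valSet
  split_ifs
  · rw [Real.volume_closedEBall]
  · simp

/-- The points of one cell on which `gn` increases along chords in direction `v`. -/
def cellT (R : Rep d) (n : ℕ) (θ L C : ℝ) (k : ℤ) (i : Fin d → ℤ) (v : E d) : Set (E d) :=
  {x | x ∈ closedBall (grid k i) (3 * (2 : ℝ) ^ k) ∧ DifferentiableAt ℝ (gn R.f n) x ∧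
    gn R.f n x ∈ valSet R n θ L C k i ∧
    ∀ q : ℚ, 0 ≤ (q : ℝ) → (q : ℝ) ≤ (2 : ℝ) ^ k / d → gn R.f n x ≤ gn R.f n (x + (q : ℝ) • v)}

lemma measurableSet_cellT (R : Rep d) (n : ℕ) (θ L C : ℝ) (k : ℤ) (i : Fin d → ℤ) (v : E d) :
    MeasurableSet (cellT R n θ L C k i v) := by
  have hc := GmaxBasic.continuous_gn R.nonneg R.int_f n
  unfold cellT
  simp only [ofPred_and, ofPred_forall]
  refine measurableSet_closedBall.inter ((measurableSet_of_differentiableAt ℝ _).inter
    ((hc.measurable (measurableSet_valSet R n θ L C k i)).inter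
      (MeasurableSet.iInter fun q => MeasurableSet.iInter fun _ => MeasurableSet.iInter fun _ => ?_)))
  exact measurableSet_le hc.measurable (hc.comp (by fun_prop)).measurable

/-- The majorant contributed by one cell and one direction. -/
noncomputable def term (R : Rep d) (n : ℕ) (θ L C : ℝ) (k : ℤ) (i : Fin d → ℤ) (v : E d) :
    E d → ℝ≥0∞ :=
  (cellT R n θ L C k i v).indicator fun x => ENNReal.ofReal (fderiv ℝ (gn R.f n) x v)

lemma measurable_term (R : Rep d) (n : ℕ) (θ L C : ℝ) (k : ℤ) (i : Fin d → ℤ) (v : E d) :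
    Measurable (term R n θ L C k i v) :=
  (measurable_fderiv_apply_const ℝ (gn R.f n) v).ennreal_ofReal.indicator
    (measurableSet_cellT R n θ L C k i v)

/-- The constant of one cell. -/
noncomputable def cellConst (d : ℕ) (C : ℝ) : ℝ := 8 * C * d * 4 ^ d / (3 / 4) ^ d

lemma lintegral_term_le (hd : 0 < d) (R : Rep d) (n : ℕ) {θ L C : ℝ} (hC : 0 < C) (k : ℤ)
    (i : Fin d → ℤ) {v : E d} (hv : ‖v‖ = 1) :
    ∫⁻ x, term R n θ L C k i v x
      ≤ ENNReal.ofReal (cellConst d C) * ENNReal.ofReal ((((2 : ℝ) ^ k) ^ (d + 1))⁻¹)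
        * cellX R n L k i := by
  set s := (2 : ℝ) ^ k with hs
  have hs0 : 0 < s := zpow_pos two_pos k
  have hd' : (0 : ℝ) < d := Nat.cast_pos.2 hd
  set ℓ := s / d with hℓ
  have hℓ0 : 0 < ℓ := by positivity
  have hℓs : ℓ ≤ s := div_le_self hs0.le (Nat.one_le_cast.2 hd)
  set g := gn R.f n with hg
  have hgc : Continuous g := GmaxBasic.continuous_gn R.nonneg R.int_f n
  set J := valSet R n θ L C k i with hJ
  have hinner : ∀ x : E d, ∫⁻ t in Icc (-(ℓ / 2)) (ℓ / 2), term R n θ L C k i v (x + t • v)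
      ≤ (closedBall (grid k i) (4 * s)).indicator (fun _ => volume J) x := by
    intro x
    set A := {t : ℝ | x + t • v ∈ cellT R n θ L C k i v} with hA
    have hAm : MeasurableSet A :=
      ((continuous_const.add (continuous_id.smul continuous_const)).measurable)
        (measurableSet_cellT R n θ L C k i v)
    have hterm : (fun t : ℝ => term R n θ L C k i v (x + t • v))
        = A.indicator fun t => ENNReal.ofReal (fderiv ℝ g (x + t • v) v) := by
      funext t
      by_cases ht : x + t • v ∈ cellT R n θ L C k i v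
      · rw [term, indicator_of_mem ht, indicator_of_mem (show t ∈ A from ht)]
      · rw [term, indicator_of_notMem ht, indicator_of_notMem (show t ∉ A from ht)]
    rw [hterm, setLIntegral_indicator hAm]
    by_cases hx : x ∈ closedBall (grid k i) (4 * s)
    · rw [indicator_of_mem hx]
      set S := A ∩ Icc (-(ℓ / 2)) (ℓ / 2) with hS
      set h : ℝ → ℝ := fun t => g (x + t • v) with hh
      have hderiv : ∀ t ∈ S, HasDerivWithinAt h (fderiv ℝ g (x + t • v) v) S t := fun t ht => by
        have h1 : HasDerivAt (fun t : ℝ => x + t • v) v t := by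
          simpa using ((hasDerivAt_id t).smul_const v).const_add x
        exact (ht.1.2.1.hasFDerivAt.comp_hasDerivAt t h1).hasDerivWithinAt
      have hmono : MonotoneOn h S := by
        intro t ht u hu htu
        have hcl : IsClosed {q : ℝ | g (x + t • v) ≤ g (x + t • v + q • v)} :=
          isClosed_le continuous_const (hgc.comp (by fun_prop))
        have hI : Icc (0 : ℝ) ℓ ⊆ {q : ℝ | g (x + t • v) ≤ g (x + t • v + q • v)} := by
          rw [← closure_Ioo hℓ0.ne]
          refine (closure_mono (Rat.denseRange_cast.open_subset_closure_inter isOpen_Ioo)).trans ?_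
          rw [closure_closure]
          refine hcl.closure_subset_iff.2 ?_
          rintro _ ⟨hq, q, rfl⟩
          exact ht.1.2.2.2 q hq.1.le hq.2.le
        have := hI (show u - t ∈ Icc (0 : ℝ) ℓ from
          ⟨sub_nonneg.2 htu, by linarith [ht.2.1, hu.2.2]⟩)
        simpa only [mem_ofPred_eq, add_assoc, ← add_smul, add_sub_cancel, hh] using this
      rw [lintegral_deriv_eq_volume_image_of_monotoneOn (hAm.inter measurableSet_Icc) hderiv hmono]
      refine measure_mono ?_
      rintro _ ⟨t, ht, rfl⟩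
      exact ht.1.2.2.1
    · rw [indicator_of_notMem hx]
      refine le_of_eq ?_
      have hempty : A ∩ Icc (-(ℓ / 2)) (ℓ / 2) = ∅ := by
        refine eq_empty_iff_forall_notMem.2 fun t ht => hx ?_
        have h1 : dist (x + t • v) (grid k i) ≤ 3 * s := ht.1.1
        have h2 : dist x (x + t • v) ≤ ℓ / 2 := by
          rw [dist_self_add_right, norm_smul, hv, mul_one, Real.norm_eq_abs]
          exact abs_le.2 ht.2
        rw [mem_closedBall]
        linarith [dist_triangle x (x + t • v) (grid k i)]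
      rw [hempty, Measure.restrict_empty, lintegral_zero_measure]
  have hline := lintegral_line (measurable_term R n θ L C k i v) v (Icc (-(ℓ / 2)) (ℓ / 2))
  rw [Real.volume_Icc, show ℓ / 2 - -(ℓ / 2) = ℓ by ring] at hline
  have h2 : ENNReal.ofReal ℓ * ∫⁻ x, term R n θ L C k i v x
      ≤ 2 * spread R n L C k i * volume (closedBall (grid k i) (4 * s)) := by
    rw [← hline]
    refine (lintegral_mono hinner).trans ?_
    rw [lintegral_indicator measurableSet_closedBall, setLIntegral_const]
    exact mul_le_mul_left (volume_valSet_le R n θ L C k i) _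
  have hV := vol_ball_pos (0 : E d) one_pos
  calc ∫⁻ x, term R n θ L C k i v x
      = ENNReal.ofReal ℓ⁻¹ * (ENNReal.ofReal ℓ * ∫⁻ x, term R n θ L C k i v x) := by
        rw [← mul_assoc, ← ENNReal.ofReal_mul (by positivity), inv_mul_cancel₀ hℓ0.ne',
          ENNReal.ofReal_one, one_mul]
    _ ≤ ENNReal.ofReal ℓ⁻¹ * (2 * spread R n L C k i * volume (closedBall (grid k i) (4 * s))) :=
        mul_le_mul_right h2 _
    _ = ENNReal.ofReal (cellConst d C) * ENNReal.ofReal ((s ^ (d + 1))⁻¹)
        * cellX R n L k i := by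
        have two : ∀ y : ℝ≥0∞, 2 * y = ENNReal.ofReal 2 * y := fun y => by simp
        rw [spread, ← ofReal_vol, vol_ball_eq hd (grid k i) (show (0 : ℝ) ≤ 4 * s by positivity),
          two, ← ENNReal.ofReal_mul (by unfold cellConst; positivity)]
        generalize cellX R n L k i = X
        generalize volume.real (closedBall (0 : E d) 1) = V at hV ⊢
        have e : ∀ a b c e : ℝ≥0∞, a * (b * (c * X) * e) = a * b * c * e * X := fun a b c e => by ring
        rw [e, ← ENNReal.ofReal_mul (by positivity), ← ENNReal.ofReal_mul (by positivity),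
          ← ENNReal.ofReal_mul (by positivity)]
        congr 2
        rw [hℓ, ← hs, cellConst, pow_succ, mul_pow, div_pow, div_pow, mul_pow]
        field_simp
        ring

lemma lintegral_edist_le {f : E d → ℝ} (hf : Measurable f) (hfi : LocallyIntegrable f volume)
    (c : E d) {r : ℝ} (hr : 0 < r) :
    ∫⁻ y in closedBall c r, edist (f y) (avg f c r)
      ≤ 2 * ∫⁻ y in closedBall c r, ENNReal.ofReal (f y - avg f c r) := by
  set l := avg f c r with hl
  have hpos := lintegral_excess_ne_top hfi c r l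
  have hneg : ∫⁻ y in closedBall c r, ENNReal.ofReal (l - f y) ≠ ⊤ :=
    ne_top_of_le_ne_top (((integrableOn_const (C := l) measure_closedBall_lt_top.ne).sub
      (hfi.integrableOn_isCompact (isCompact_closedBall c r))).hasFiniteIntegral.ne)
      (lintegral_mono fun _ => Real.ofReal_le_enorm _)
  have h := posneg hfi c r l
  have hv := vol_ball_pos c hr
  have h0 : (∫ y in closedBall c r, f y) - volume.real (closedBall c r) * l = 0 := by
    rw [hl, avg]
    change (∫ y in closedBall c r, f y) - volume.real (closedBall c r)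
      * ((∫ y in closedBall c r, f y) / volume.real (closedBall c r)) = 0
    rw [mul_div_cancel₀ _ hv.ne', sub_self]
  rw [h0, eq_comm, sub_eq_zero, ENNReal.toReal_eq_toReal_iff' hpos hneg] at h
  rw [two_mul]
  conv_rhs => arg 2; rw [h]
  rw [← lintegral_add_left (hf.sub_const l).ennreal_ofReal]
  refine lintegral_mono fun y => ?_
  rw [edist_dist, Real.dist_eq]
  rcases le_total l (f y) with h' | h'
  · rw [abs_of_nonneg (sub_nonneg.2 h')]; exact le_self_add
  · rw [abs_sub_comm, abs_of_nonneg (sub_nonneg.2 h')]; exact le_add_self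

theorem low (hcore : CoreStmt) (hsums : SumsStmt) : LowStmt := by
  intro d hd
  obtain ⟨θ, L, C, hθ, hL, hC, hcoreF⟩ := hcore d hd
  refine ⟨θ, hθ, ?_⟩
  obtain ⟨CS, hCS, hsum⟩ := hsums d hd (2 * L) 2 (by linarith) one_lt_two le_rfl
  have hd' : (0 : ℝ) < d := Nat.cast_pos.2 hd
  set u : Fin d × Bool → E d := fun jb =>
    (if jb.2 then (1 : ℝ) else -1) • EuclideanSpace.single jb.1 (1 : ℝ) with hu
  have hunorm : ∀ jb, ‖u jb‖ = 1 := by
    intro jb
    rw [hu, norm_smul, PiLp.norm_single]
    split_ifs <;> simp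
  set A : ℝ≥0∞ := ENNReal.ofReal d * ((2 * d : ℕ) : ℝ≥0∞) * ENNReal.ofReal (cellConst d C)
    * (overlap d L : ℝ≥0∞) with hA
  have hAtop : A ≠ ⊤ := ENNReal.mul_ne_top (ENNReal.mul_ne_top (ENNReal.mul_ne_top
    ENNReal.ofReal_ne_top (ENNReal.natCast_ne_top _)) ENNReal.ofReal_ne_top)
      (ENNReal.natCast_ne_top _)
  refine ⟨A * (2 * CS), ENNReal.mul_ne_top hAtop (ENNReal.mul_ne_top (by simp) hCS), fun R => ?_⟩
  obtain ⟨hIb, hIt, hWb, hWt⟩ := hsum R
  set Lay : ℕ → ℤ → E d → ℝ≥0∞ := fun n k x =>
    ENNReal.ofReal d * ∑' i : Fin d → ℤ, ∑ jb : Fin d × Bool, term R n θ L C k i (u jb) x with hLay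
  have hLaym : ∀ n k, Measurable (Lay n k) := fun n k =>
    (Measurable.tsum fun i => Finset.measurable_sum _ fun jb _ =>
      measurable_term R n θ L C k i (u jb)).const_mul _
  have hLayint : ∀ n k, ∫⁻ x, Lay n k x
      ≤ A * (scaleI R (2 * L) ((2 : ℝ) ^ k) + scaleW R n (2 * L) ((2 : ℝ) ^ k)) := by
    intro n k
    simp only [hLay]
    rw [lintegral_const_mul' _ _ ENNReal.ofReal_ne_top, lintegral_tsum fun i =>
      (Finset.measurable_sum _ fun jb _ => measurable_term R n θ L C k i (u jb)).aemeasurable]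
    have hi : ∀ i, ∫⁻ x, ∑ jb : Fin d × Bool, term R n θ L C k i (u jb) x
        ≤ ((2 * d : ℕ) : ℝ≥0∞) * ENNReal.ofReal (cellConst d C)
          * (ENNReal.ofReal ((((2 : ℝ) ^ k) ^ (d + 1))⁻¹) * cellX R n L k i) := by
      intro i
      rw [lintegral_finsetSum _ fun jb _ => measurable_term R n θ L C k i (u jb)]
      refine (Finset.sum_le_card_nsmul _ _ _ fun jb _ =>
        lintegral_term_le hd R n hC k i (hunorm jb)).trans (le_of_eq ?_)
      simp [mul_comm 2 d, mul_assoc]
    refine (mul_le_mul_right (ENNReal.tsum_le_tsum hi) _).trans ?_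
    rw [ENNReal.tsum_mul_left, ENNReal.tsum_mul_left, ← mul_assoc, hA,
      mul_assoc (ENNReal.ofReal (d : ℝ) * _ * _) (overlap d L : ℝ≥0∞), ← mul_assoc (ENNReal.ofReal (d : ℝ))]
    exact mul_le_mul_right (tsum_cellX_le hd R n L k) _
  have hpoint : ∀ n (x : E d) c r, δs n ≤ r → dist x c ≤ r → avg R.f c r = gn R.f n x →
      volume (closedBall c r ∩ {y | gn R.f n x < R.f y})
        ≤ ENNReal.ofReal θ * volume (closedBall c r) →
      ∃ k : ℤ, (2 : ℝ) ^ k ≤ r ∧ ‖fderiv ℝ (gn R.f n) x‖ₑ ≤ Lay n k x := by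
    intro n x c r hr hx he hlow
    have hr0 : 0 < r := (GmaxBasic.δs_pos n).trans_le hr
    obtain ⟨k, hk1, hk2⟩ := exists_mem_Ico_zpow hr0 one_lt_two
    refine ⟨k, hk1, ?_⟩
    set g := gn R.f n with hg
    by_cases hD : fderiv ℝ g x = 0
    · rw [← ofReal_norm, hD, norm_zero, ENNReal.ofReal_zero]; exact zero_le
    have hdiff : DifferentiableAt ℝ g x := by
      by_contra h; exact hD (fderiv_zero_of_not_differentiableAt h)
    set s := (2 : ℝ) ^ k with hs
    have hs0 : 0 < s := zpow_pos two_pos k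
    have hk2' : r < 2 * s := by rw [zpow_add_one₀ two_ne_zero, ← hs] at hk2; linarith
    obtain ⟨i, hi⟩ := exists_grid hd k c
    have hw : ‖c - x‖ = r := by
      rw [← dist_eq_norm, dist_comm]; exact (gn_grad_radial R n hr hx he 0).2 hD
    obtain ⟨j, hj⟩ : ∃ j, r ≤ (d : ℝ) * |(c - x) j| := by
      by_contra hne
      push Not at hne
      have h1 : ∀ j ∈ (Finset.univ : Finset (Fin d)), ((c - x) j) ^ 2 < (r / d) ^ 2 := fun j _ => by
        rw [← sq_abs ((c - x) j)]
        exact pow_lt_pow_left₀ (by rw [lt_div_iff₀ hd', mul_comm]; exact hne j) (abs_nonneg _)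
          two_ne_zero
      have : Nonempty (Fin d) := ⟨⟨0, hd⟩⟩
      have h2 := Finset.sum_lt_sum_of_nonempty Finset.univ_nonempty h1
      rw [← EuclideanSpace.real_norm_sq_eq, hw, Finset.sum_const, Finset.card_univ,
        Fintype.card_fin, nsmul_eq_mul] at h2
      have e : (d : ℝ) * (r / d) ^ 2 = r ^ 2 / d := by field_simp
      rw [e, lt_div_iff₀ hd'] at h2
      have : (1 : ℝ) ≤ d := Nat.one_le_cast.2 hd
      nlinarith [mul_le_mul_of_nonneg_left this (sq_nonneg r)]
    set b : Bool := decide (0 ≤ (c - x) j) with hb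
    have hinner : ⟪c - x, u (j, b)⟫_ℝ = |(c - x) j| := by
      simp only [hu, real_inner_smul_right, EuclideanSpace.inner_single_right, hb,
        decide_eq_true_eq]
      split_ifs with h0
      · rw [abs_of_nonneg h0]; simp
      · rw [abs_of_neg (not_le.1 h0)]; simp
    have hrad := (gn_grad_radial R n hr hx he (u (j, b))).1
    rw [hinner] at hrad
    have hbound : ‖fderiv ℝ g x‖ ≤ d * fderiv ℝ g x (u (j, b)) := by
      refine le_of_mul_le_mul_left ?_ hr0
      have h1 := mul_le_mul_of_nonneg_left hj (norm_nonneg (fderiv ℝ g x))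
      linear_combination h1 - (d : ℝ) * hrad
    have hall : ∀ l, LowVal R n θ k i l → edist (gn R.f n x) l ≤ spread R n L C k i := by
      rintro l ⟨x', c', r', hr', hk1', hk2'', hi', hx', he', hl', hlow'⟩
      set B := closedBall (grid k i) (3 * s / 4) with hB
      have hsub : ∀ (c : E d) (r : ℝ), s ≤ r → dist c (grid k i) ≤ s / 4 → B ⊆ closedBall c r :=
        fun c r h1 h2 => closedBall_subset_closedBall' (by rw [dist_comm]; linarith)
      have hr0' : 0 < r' := (GmaxBasic.δs_pos n).trans_le hr'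
      have x1 := excess_le hL hC hcoreF R n k i hr hk1 hk2 hi hx he hlow
      have x2 := excess_le hL hC hcoreF R n k i hr' hk1' hk2'' hi' hx' he' hlow'
      have d1 := lintegral_edist_le R.meas_f R.int_f.locallyIntegrable c hr0
      have d2 := lintegral_edist_le R.meas_f R.int_f.locallyIntegrable c' hr0'
      rw [he] at d1
      rw [he'] at d2
      rw [← hs] at x1 x2
      have e1 := d1.trans (mul_le_mul_right x1 2)
      have e2 := d2.trans (mul_le_mul_right x2 2)
      rw [hl'] at e2
      have h1 : edist (gn R.f n x) l * volume B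
          ≤ ENNReal.ofReal (4 * C / s ^ d) * cellX R n L k i := by
        rw [← setLIntegral_const]
        calc ∫⁻ _ in B, edist (gn R.f n x) l
            ≤ ∫⁻ y in B, (edist (R.f y) (gn R.f n x) + edist (R.f y) l) :=
              lintegral_mono fun y => edist_triangle_left _ _ _
          _ = (∫⁻ y in B, edist (R.f y) (gn R.f n x)) + ∫⁻ y in B, edist (R.f y) l :=
              lintegral_add_left (R.meas_f.edist measurable_const) _
          _ ≤ _ := add_le_add ((lintegral_mono_set (hsub c r hk1 hi)).trans e1)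
              ((lintegral_mono_set (hsub c' r' hk1' hi')).trans e2)
          _ = ENNReal.ofReal (4 * C / s ^ d) * cellX R n L k i := by
              have two : ∀ y : ℝ≥0∞, 2 * y = ENNReal.ofReal 2 * y := fun y => by simp
              rw [← two_mul, two, two (_ * cellX R n L k i), ← mul_assoc, ← mul_assoc,
                ← ENNReal.ofReal_mul two_pos.le, ← ENNReal.ofReal_mul (by positivity)]
              congr 2
              ring
      have hV := vol_ball_pos (0 : E d) one_pos
      have hBvol : volume B = ENNReal.ofReal ((3 * s / 4) ^ d * volume.real (closedBall (0 : E d) 1)) := by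
        rw [hB, ← ofReal_vol, vol_ball_eq hd (grid k i) (show (0 : ℝ) ≤ 3 * s / 4 by positivity)]
      rw [hBvol, ← ENNReal.le_div_iff_mul_le
        (Or.inl (ENNReal.ofReal_pos.2 (by positivity)).ne') (Or.inl ENNReal.ofReal_ne_top)] at h1
      refine h1.trans (le_of_eq ?_)
      rw [spread, ← hs, div_eq_mul_inv, ← ENNReal.ofReal_inv_of_pos (by positivity), mul_right_comm,
        ← ENNReal.ofReal_mul (by positivity)]
      congr 2
      field_simp
    have hmemT : x ∈ cellT R n θ L C k i (u (j, b)) := by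
      refine ⟨?_, hdiff, ?_, fun q hq0 hq1 => ?_⟩
      · rw [mem_closedBall, ← hs]
        linarith [dist_triangle x c (grid k i)]
      · have hself : LowVal R n θ k i (gn R.f n x) :=
          ⟨x, c, r, hr, hk1, hk2, hi, hx, he, rfl, hlow⟩
        rw [valSet, dif_pos ⟨_, hself⟩, Metric.mem_closedEBall]
        exact hall _ (Exists.choose_spec (p := LowVal R n θ k i) ⟨_, hself⟩)
      · refine gn_ge_on_ball R n hr he ?_
        rw [mem_closedBall, dist_eq_norm, ← pow_le_pow_iff_left₀ (norm_nonneg _) hr0.le two_ne_zero,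
          show x + (q : ℝ) • u (j, b) - c = (q : ℝ) • u (j, b) - (c - x) by abel,
          norm_sub_sq_real, norm_smul, hunorm, mul_one, Real.norm_eq_abs, sq_abs, hw,
          real_inner_smul_left, real_inner_comm, hinner]
        have hqs : (q : ℝ) ≤ |(c - x) j| := by
          refine hq1.trans ?_
          rw [div_le_iff₀ hd', mul_comm]
          exact hk1.trans hj
        have h1 := mul_le_mul_of_nonneg_left hqs hq0
        linarith [mul_nonneg hq0 (abs_nonneg ((c - x) j))]
    calc ‖fderiv ℝ g x‖ₑ = ENNReal.ofReal ‖fderiv ℝ g x‖ := (ofReal_norm _).symm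
      _ ≤ ENNReal.ofReal d * term R n θ L C k i (u (j, b)) x := by
          rw [term, indicator_of_mem hmemT, ← ENNReal.ofReal_mul hd'.le]
          exact ENNReal.ofReal_le_ofReal hbound
      _ ≤ Lay n k x := mul_le_mul_right ((Finset.single_le_sum
          (f := fun jb => term R n θ L C k i (u jb) x) (fun _ _ => zero_le)
          (Finset.mem_univ (j, b))).trans (ENNReal.le_tsum i)) _
  refine ⟨fun n x => ∑' k : ℤ, Lay n k x,
    fun n J x => ∑' k : {k : ℤ // (2 : ℝ) ^ k < δs J}, Lay n k x,
    fun n => Measurable.tsum fun k => hLaym n k,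
    fun n J => Measurable.tsum fun k => hLaym n k, fun n => ?_, fun n J _ => ?_,
    fun n => ?_, ?_⟩
  · refine Eventually.of_forall fun x _ ⟨ρ, c, r, hr, _, hx, he, hlow⟩ => ?_
    obtain ⟨k, -, hb⟩ := hpoint n x c r hr hx he (by simpa using hlow)
    exact hb.trans (ENNReal.le_tsum k)
  · refine Eventually.of_forall fun x _ _ ⟨c, r, hr, hrJ, hx, he, hlow⟩ => ?_
    obtain ⟨k, hk, hb⟩ := hpoint n x c r hr hx he (by simpa using hlow)
    exact hb.trans (ENNReal.le_tsum (f := fun k : {k : ℤ // (2 : ℝ) ^ k < δs J} => Lay n k x)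
      ⟨k, hk.trans_lt hrJ⟩)
  · rw [lintegral_tsum fun k => (hLaym n k).aemeasurable]
    refine (ENNReal.tsum_le_tsum (hLayint n)).trans ?_
    rw [ENNReal.tsum_mul_left, ENNReal.tsum_add]
    refine (mul_le_mul_right (add_le_add hIb (hWb n)) A).trans (le_of_eq ?_)
    ring
  · have hzero : Tendsto (fun J => A * ((∑' k : {k : ℤ // (2 : ℝ) ^ k < δs J},
        scaleI R (2 * L) ((2 : ℝ) ^ (k : ℤ))) + ⨆ (n : ℕ) (_ : J ≤ n),
        ∑' k : {k : ℤ // (2 : ℝ) ^ k < δs J}, scaleW R n (2 * L) ((2 : ℝ) ^ (k : ℤ)))) atTop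
        (𝓝 0) := by
      simpa using ENNReal.Tendsto.const_mul (hIt.add hWt) (Or.inr hAtop)
    refine tendsto_of_tendsto_of_tendsto_of_le_of_le tendsto_const_nhds hzero (fun _ => zero_le)
      fun J => iSup₂_le fun n hn => ?_
    dsimp only
    rw [lintegral_tsum (f := fun k : {k : ℤ // (2 : ℝ) ^ k < δs J} => Lay n k)
      fun k => (hLaym n k).aemeasurable]
    refine (ENNReal.tsum_le_tsum fun k : {k : ℤ // (2 : ℝ) ^ k < δs J} =>
      hLayint n k).trans ?_
    rw [ENNReal.tsum_mul_left, ENNReal.tsum_add]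
    exact mul_le_mul_right (add_le_add le_rfl (le_iSup₂ (f := fun (n : ℕ) (_ : J ≤ n) =>
      ∑' k : {k : ℤ // (2 : ℝ) ^ k < δs J}, scaleW R n (2 * L) ((2 : ℝ) ^ (k : ℤ))) n hn)) _

end Vale.Agent.P137.Low
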