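import Vale.Agent.P137.Core
import Vale.Agent.P137.GmaxBasic

/-!
Module Low, first part: the core inequality transferred to a ball of a dyadic cell, and the bounded
overlap of the cells.
-/

namespace Vale.Agent.P137.Low

open MeasureTheory Metric Set Filter
open scoped InnerProductSpace ENNReal Topology

variable {d : ℕ}

/-- The centre of a cell at scale `2 ^ k`. -/
noncomputable def grid (k : ℤ) (i : Fin d → ℤ) : E d :=
  WithLp.toLp 2 fun j => (i j : ℝ) * ((2 : ℝ) ^ k / (4 * d))

lemma grid_apply (k : ℤ) (i : Fin d → ℤ) (j : Fin d) :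
    grid k i j = (i j : ℝ) * ((2 : ℝ) ^ k / (4 * d)) := rfl

lemma exists_grid (hd : 0 < d) (k : ℤ) (c : E d) :
    ∃ i : Fin d → ℤ, dist c (grid k i) ≤ (2 : ℝ) ^ k / 4 := by
  have hd' : (0 : ℝ) < d := Nat.cast_pos.2 hd
  set η := (2 : ℝ) ^ k / (4 * d) with hη
  have hη0 : 0 < η := by positivity
  refine ⟨fun j => ⌊c j / η⌋, ?_⟩
  have hb : ∀ j, (c - grid k fun j => ⌊c j / η⌋) j ^ 2 ≤ η ^ 2 := by
    intro j
    have h1 : (⌊c j / η⌋ : ℝ) * η ≤ c j := (le_div_iff₀ hη0).1 (Int.floor_le _)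
    have h2 : c j < ((⌊c j / η⌋ : ℝ) + 1) * η := (div_lt_iff₀ hη0).1 (Int.lt_floor_add_one _)
    rw [PiLp.sub_apply, grid_apply, ← hη]
    exact pow_le_pow_left₀ (sub_nonneg.2 h1) (by linarith) 2
  rw [dist_eq_norm, ← pow_le_pow_iff_left₀ (norm_nonneg _) (by positivity) two_ne_zero,
    EuclideanSpace.real_norm_sq_eq]
  refine (Finset.sum_le_sum fun j _ => hb j).trans ?_
  rw [Finset.sum_const, Finset.card_univ, Fintype.card_fin, nsmul_eq_mul]
  have e : (2 : ℝ) ^ k / 4 = d * η := by rw [hη]; field_simp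
  have hd1 : (d : ℝ) ≤ (d : ℝ) ^ 2 := by
    have : (1 : ℝ) ≤ d := Nat.one_le_cast.2 hd
    nlinarith
  rw [e, mul_pow]
  exact mul_le_mul_of_nonneg_right hd1 (sq_nonneg _)

/-- The window of pairs seen by the cell `(k, i)`. -/
def cyl (L : ℝ) (k : ℤ) (i : Fin d → ℤ) : Set (E d × E d) :=
  {p | dist p.1 (grid k i) ≤ (2 * L + 1) * (2 : ℝ) ^ k}

lemma measurableSet_cyl (L : ℝ) (k : ℤ) (i : Fin d → ℤ) : MeasurableSet (cyl L k i) :=
  (measurable_fst.dist measurable_const) measurableSet_Iic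

/-- The overlap of the windows. -/
noncomputable def overlap (d : ℕ) (L : ℝ) : ℕ :=
  (2 * ⌈(2 * L + 1) * (4 * d)⌉₊ + 2) ^ d

lemma tsum_cyl_le (hd : 0 < d) (L : ℝ) (k : ℤ) (p : E d × E d) :
    ∑' i : Fin d → ℤ, (cyl L k i).indicator (1 : E d × E d → ℝ≥0∞) p ≤ overlap d L := by
  classical
  have hd' : (0 : ℝ) < d := Nat.cast_pos.2 hd
  set η := (2 : ℝ) ^ k / (4 * d) with hη
  have hη0 : 0 < η := by positivity
  set m : ℕ := ⌈(2 * L + 1) * (4 * d)⌉₊ with hm
  set S : Finset (Fin d → ℤ) := Fintype.piFinset fun j =>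
    Finset.Icc (⌊p.1 j / η⌋ - (m : ℤ)) (⌊p.1 j / η⌋ + (m : ℤ) + 1) with hS
  have hsupp : ∀ i ∉ S, (cyl L k i).indicator (1 : E d × E d → ℝ≥0∞) p = 0 := by
    intro i hi
    refine indicator_of_notMem (fun hmem => hi (Fintype.mem_piFinset.2 fun j => ?_)) _
    have h1 : |p.1 j - grid k i j| ≤ (2 * L + 1) * (2 : ℝ) ^ k := by
      have := (PiLp.norm_apply_le (p.1 - grid k i) j).trans ((dist_eq_norm _ _).symm.le.trans hmem)
      simpa [Real.norm_eq_abs] using this
    rw [grid_apply, ← hη] at h1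
    have h2 : |p.1 j / η - (i j : ℝ)| ≤ m := by
      have e : p.1 j / η - (i j : ℝ) = (p.1 j - (i j : ℝ) * η) / η := by field_simp
      rw [e, abs_div, abs_of_pos hη0, div_le_iff₀ hη0]
      refine h1.trans ?_
      have e2 : (2 * L + 1) * (2 : ℝ) ^ k = (2 * L + 1) * (4 * d) * η := by rw [hη]; field_simp
      rw [e2]
      exact mul_le_mul_of_nonneg_right (Nat.le_ceil _) hη0.le
    obtain ⟨h3, h4⟩ := abs_le.1 h2
    have h5 := Int.floor_le (p.1 j / η)
    have h6 := Int.lt_floor_add_one (p.1 j / η)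
    rw [Finset.mem_Icc]
    constructor
    · rw [sub_le_iff_le_add, ← Int.cast_le (R := ℝ)]; push_cast; linarith
    · rw [← Int.cast_le (R := ℝ)]; push_cast; linarith
  rw [tsum_eq_sum hsupp]
  refine (Finset.sum_le_card_nsmul _ _ 1 fun i _ => ?_).trans ?_
  · exact indicator_le_self' (fun _ _ => zero_le) p
  · rw [nsmul_one, hS, Fintype.card_piFinset, overlap, ← hm]
    refine Nat.cast_le.2 (le_of_eq ?_)
    rw [Finset.prod_congr rfl (g := fun _ => 2 * m + 2) fun j _ => by rw [Int.card_Icc]; omega,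
      Finset.prod_const, Finset.card_univ, Fintype.card_fin]

lemma tsum_volume_cyl_le (hd : 0 < d) (L : ℝ) (k : ℤ) (S : Set (E d × E d)) :
    ∑' i : Fin d → ℤ, volume (S ∩ cyl L k i) ≤ overlap d L * volume S := by
  set H := toMeasurable volume S with hH
  have hHm : MeasurableSet H := measurableSet_toMeasurable _ _
  calc ∑' i, volume (S ∩ cyl L k i)
      ≤ ∑' i, ∫⁻ p, (H ∩ cyl L k i).indicator 1 p := by
        refine ENNReal.tsum_le_tsum fun i => ?_
        rw [lintegral_indicator_one (hHm.inter (measurableSet_cyl L k i))]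
        exact measure_mono (inter_subset_inter_left _ (subset_toMeasurable _ _))
    _ = ∫⁻ p, ∑' i, (H ∩ cyl L k i).indicator 1 p := (lintegral_tsum fun i =>
        (measurable_one.indicator (hHm.inter (measurableSet_cyl L k i))).aemeasurable).symm
    _ ≤ ∫⁻ p, H.indicator (fun _ => (overlap d L : ℝ≥0∞)) p := by
        refine lintegral_mono fun p => ?_
        by_cases hp : p ∈ H
        · rw [indicator_of_mem hp]
          refine le_trans (ENNReal.tsum_le_tsum fun i => ?_) (tsum_cyl_le hd L k p)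
          exact indicator_le_indicator_of_subset inter_subset_right (fun _ => zero_le) p
        · refine le_of_eq_of_le (ENNReal.tsum_eq_zero.2 fun i => ?_) zero_le
          exact indicator_of_notMem (fun h => hp h.1) _
    _ = overlap d L * volume S := by
        rw [lintegral_indicator hHm, setLIntegral_const, hH, measure_toMeasurable]

lemma sum_lintegral_le {α ι : Type*} [MeasurableSpace α] {μ : Measure α} (s : Finset ι)
    (f : ι → α → ℝ≥0∞) : ∑ i ∈ s, ∫⁻ a, f i a ∂μ ≤ ∫⁻ a, ∑ i ∈ s, f i a ∂μ := by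
  classical
  induction s using Finset.induction_on with
  | empty => simp
  | @insert a s ha ih =>
    simp only [Finset.sum_insert ha]
    exact (add_le_add le_rfl ih).trans (le_lintegral_add _ _)

lemma tsum_lintegral_cyl_le (hd : 0 < d) (L : ℝ) (k : ℤ) (S : ℝ → Set (E d × E d)) :
    ∑' i : Fin d → ℤ, ∫⁻ μ in Ioi (0 : ℝ), volume (S μ ∩ cyl L k i)
      ≤ overlap d L * ∫⁻ μ in Ioi (0 : ℝ), volume (S μ) := by
  rw [ENNReal.tsum_eq_iSup_sum, ← lintegral_const_mul' _ _ (ENNReal.natCast_ne_top _)]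
  exact iSup_le fun s => (sum_lintegral_le s _).trans (lintegral_mono fun μ =>
    (ENNReal.sum_le_tsum s).trans (tsum_volume_cyl_le hd L k (S μ)))

/-- Short intervals at scale `2 ^ k`. -/
def pat (R : Rep d) (L : ℝ) (k : ℤ) (μ : ℝ) : Set (E d × E d) :=
  {p | ‖p.2‖ ≤ 2 * L * (2 : ℝ) ^ k ∧ Pattern R.f (2 * L) μ p.1 p.2}

/-- Crossings at scale `2 ^ k`. -/
def cro (R : Rep d) (n : ℕ) (L : ℝ) (k : ℤ) (μ : ℝ) : Set (E d × E d) :=
  {p | Crossing R.f {z | μ < gn R.f n z} (2 * L) ((2 : ℝ) ^ k) μ p.1 p.2}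

/-- The short intervals and crossings seen by one cell. -/
noncomputable def cellX (R : Rep d) (n : ℕ) (L : ℝ) (k : ℤ) (i : Fin d → ℤ) : ℝ≥0∞ :=
  (∫⁻ μ in Ioi (0 : ℝ), volume (pat R L k μ ∩ cyl L k i))
    + ∫⁻ μ in Ioi (0 : ℝ), volume (cro R n L k μ ∩ cyl L k i)

lemma tsum_cellX_le (hd : 0 < d) (R : Rep d) (n : ℕ) (L : ℝ) (k : ℤ) :
    ENNReal.ofReal ((((2 : ℝ) ^ k) ^ (d + 1))⁻¹) * ∑' i, cellX R n L k i
      ≤ overlap d L * (scaleI R (2 * L) ((2 : ℝ) ^ k) + scaleW R n (2 * L) ((2 : ℝ) ^ k)) := by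
  simp only [cellX, ENNReal.tsum_add, mul_add, scaleI, scaleW, mul_left_comm (overlap d L : ℝ≥0∞)]
  exact add_le_add (mul_le_mul_right (tsum_lintegral_cyl_le hd L k (pat R L k)) _)
    (mul_le_mul_right (tsum_lintegral_cyl_le hd L k (cro R n L k)) _)

/-! ### Scaling -/

/-- The change of variables of a ball. -/
def aff (c : E d) (r : ℝ) (y : E d) : E d := c + r • y

lemma measurable_aff (c : E d) (r : ℝ) : Measurable (aff c r) := by unfold aff; fun_prop

lemma map_aff (c : E d) {r : ℝ} (hr : 0 < r) :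
    Measure.map (aff c r) (volume : Measure (E d)) = ENNReal.ofReal ((r ^ d)⁻¹) • volume := by
  rw [show aff c r = (fun z => c + z) ∘ fun y => r • y from rfl,
    ← Measure.map_map (measurable_const_add c) (measurable_const_smul r),
    Measure.map_addHaar_smul volume hr.ne', Measure.map_smul, map_add_left_eq_self,
    finrank_euclideanSpace_fin, abs_of_pos (inv_pos.2 (pow_pos hr d))]

lemma aff_preimage_closedBall (c c' : E d) {r : ℝ} (hr : 0 < r) (ρ : ℝ) :
    aff c r ⁻¹' closedBall (c + r • c') (r * ρ) = closedBall c' ρ := by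
  ext y
  rw [mem_preimage, mem_closedBall, mem_closedBall, aff, dist_add_left, dist_smul₀,
    Real.norm_eq_abs, abs_of_pos hr, mul_le_mul_iff_right₀ hr]

lemma aff_preimage_ball (c : E d) {r : ℝ} (hr : 0 < r) :
    aff c r ⁻¹' closedBall c r = closedBall 0 1 := by
  simpa using aff_preimage_closedBall c (0 : E d) hr 1

lemma volume_aff_preimage (c : E d) {r : ℝ} (hr : 0 < r) {S : Set (E d)} (hS : MeasurableSet S) :
    volume (aff c r ⁻¹' S) = ENNReal.ofReal ((r ^ d)⁻¹) * volume S := by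
  rw [← Measure.map_apply (measurable_aff c r) hS, map_aff c hr, Measure.smul_apply, smul_eq_mul]

lemma setLIntegral_aff (c : E d) {r : ℝ} (hr : 0 < r) {S : Set (E d)} (hS : MeasurableSet S)
    {φ : E d → ℝ≥0∞} (hφ : Measurable φ) :
    ∫⁻ y in aff c r ⁻¹' S, φ (aff c r y) = ENNReal.ofReal ((r ^ d)⁻¹) * ∫⁻ y in S, φ y := by
  rw [← setLIntegral_map hS hφ (measurable_aff c r), map_aff c hr, Measure.restrict_smul,
    lintegral_smul_measure, smul_eq_mul]

lemma avg_aff {f : E d → ℝ} (hf : Measurable f) (c c' : E d) {r : ℝ} (hr : 0 < r) (ρ : ℝ) :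
    avg (fun y => f (aff c r y)) c' ρ = avg f (c + r • c') (r * ρ) := by
  have e := aff_preimage_closedBall c c' hr ρ
  have h1 := setIntegral_map (μ := (volume : Measure (E d))) (g := aff c r) (f := f)
    (s := closedBall (c + r • c') (r * ρ)) measurableSet_closedBall hf.aestronglyMeasurable
    (measurable_aff c r).aemeasurable
  rw [e, map_aff c hr, Measure.restrict_smul, integral_smul_measure, smul_eq_mul,
    ENNReal.toReal_ofReal (by positivity)] at h1
  rw [avg, avg, ← h1, ← e, volume_aff_preimage c hr measurableSet_closedBall, ENNReal.toReal_mul,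
    ENNReal.toReal_ofReal (by positivity), mul_div_mul_left _ _ (by positivity)]

lemma volume_pair_preimage (c : E d) {r : ℝ} (hr : 0 < r) (S : Set (E d × E d)) :
    volume ((fun p : E d × E d => (aff c r p.1, r • p.2)) ⁻¹' S)
      = ENNReal.ofReal ((r ^ (d + d))⁻¹) * volume S := by
  have : (volume : Measure (E d × E d)).IsAddHaarMeasure :=
    inferInstanceAs ((volume : Measure (E d)).prod volume).IsAddHaarMeasure
  have e : (fun p : E d × E d => (aff c r p.1, r • p.2))
      = (fun z : E d × E d => (c, (0 : E d)) + z) ∘ fun p => r • p :=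
    funext fun p => Prod.ext rfl (by simp)
  rw [e, preimage_comp, Measure.addHaar_preimage_smul volume hr.ne', measure_preimage_add,
    Module.finrank_prod, finrank_euclideanSpace_fin, abs_of_pos (inv_pos.2 (pow_pos hr _))]

/-- The core inequality at a maximising ball of low density. -/
lemma excess_le {θ L C : ℝ} (hL : 1 ≤ L) (hC : 0 < C)
    (hcore : ∀ (F : E d → ℝ) (O : ℝ → Set (E d)) (x : E d), Measurable F →
      LocallyIntegrable F volume → (∀ y, 0 ≤ F y) →
      (∀ v : E d, ∀ᵐ y : E d, Continuous fun t : ℝ => F (y + t • v)) →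
      (∀ (c : E d) (R μ : ℝ), 1 ≤ R → μ < avg F c R → closedBall c R ⊆ O μ) →
      ‖x‖ ≤ 1 → (∀ μ, avg F 0 1 < μ → x ∉ O μ) →
      volume (closedBall (0 : E d) 1 ∩ {y | avg F 0 1 < F y})
        ≤ ENNReal.ofReal θ * volume (closedBall (0 : E d) 1) →
      ∫⁻ y in closedBall (0 : E d) 1, ENNReal.ofReal (F y - avg F 0 1)
        ≤ ENNReal.ofReal C * ((∫⁻ μ in Ioi 0, volume (PatternSet F L μ))
          + ∫⁻ μ in Ioi 0, volume (CrossingSet F (O μ) L μ)))
    (R : Rep d) (n : ℕ) (k : ℤ) (i : Fin d → ℤ) {x c : E d} {r : ℝ} (hr : δs n ≤ r)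
    (hk1 : (2 : ℝ) ^ k ≤ r) (hk2 : r < (2 : ℝ) ^ (k + 1))
    (hc : dist c (grid k i) ≤ (2 : ℝ) ^ k / 4) (hx : dist x c ≤ r)
    (he : avg R.f c r = gn R.f n x)
    (hlow : volume (closedBall c r ∩ {y | gn R.f n x < R.f y})
      ≤ ENNReal.ofReal θ * volume (closedBall c r)) :
    ∫⁻ y in closedBall c r, ENNReal.ofReal (R.f y - gn R.f n x)
      ≤ ENNReal.ofReal (C / ((2 : ℝ) ^ k) ^ d) * cellX R n L k i := by
  have hr0 : 0 < r := (GmaxBasic.δs_pos n).trans_le hr
  set s := (2 : ℝ) ^ k with hs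
  have hs0 : 0 < s := zpow_pos two_pos k
  have hk2' : r < 2 * s := by rw [zpow_add_one₀ two_ne_zero, ← hs] at hk2; linarith
  have hLr : L * r ≤ 2 * L * s := by
    have := mul_le_mul_of_nonneg_left hk2'.le (zero_le_one.trans hL)
    linarith
  set F : E d → ℝ := fun y => R.f (aff c r y) with hF
  set O : ℝ → Set (E d) := fun μ => aff c r ⁻¹' {z | μ < gn R.f n z} with hO
  set x0 : E d := r⁻¹ • (x - c) with hx0
  have hTx0 : aff c r x0 = x := by
    rw [aff, hx0, smul_smul, mul_inv_cancel₀ hr0.ne', one_smul, add_sub_cancel]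
  have hav : avg F 0 1 = gn R.f n x := by
    rw [hF, avg_aff R.meas_f c 0 hr0 1, smul_zero, add_zero, mul_one, he]
  have hqm : Measure.QuasiMeasurePreserving (aff c r) (volume : Measure (E d)) volume :=
    ⟨measurable_aff c r, by rw [map_aff c hr0]; exact Measure.smul_absolutelyContinuous⟩
  have hline : ∀ v : E d, ∀ᵐ y : E d, Continuous fun t : ℝ => F (y + t • v) := by
    intro v
    filter_upwards [hqm.ae (R.ae_good (r • v))] with y hy
    have h := (R.lineGood _ _ hy).1
    have e : (fun t : ℝ => F (y + t • v)) = fun t : ℝ => R.f (aff c r y + t • r • v) := by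
      funext t
      simp only [hF, aff, smul_add, smul_comm r t, add_assoc]
    rwa [e]
  have hball : ∀ (p : E d) (ρ μ : ℝ), 1 ≤ ρ → μ < avg F p ρ → closedBall p ρ ⊆ O μ := by
    intro p ρ μ hρ hμ y hy
    rw [hF, avg_aff R.meas_f c p hr0 ρ] at hμ
    rw [← aff_preimage_closedBall c p hr0 ρ] at hy
    exact hμ.trans_le (GmaxBasic.avg_le_gmax R.nonneg R.int_f (GmaxBasic.δs_pos n)
      (hr.trans (le_mul_of_one_le_right hr0.le hρ)) hy)
  have hint : LocallyIntegrable F volume := by
    have := (R.int_f.comp_add_left c).comp_smul hr0.ne'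
    exact this.locallyIntegrable
  have hFm : Measurable F := R.meas_f.comp (measurable_aff c r)
  have hset : ∀ S : Set ℝ, MeasurableSet S → closedBall (0 : E d) 1 ∩ F ⁻¹' S
      = aff c r ⁻¹' (closedBall c r ∩ R.f ⁻¹' S) := by
    intro S _
    rw [preimage_inter, aff_preimage_ball c hr0]
    rfl
  have key := hcore F O x0 hFm hint (fun y => R.nonneg _) hline hball
    (by
      rw [hx0, norm_smul, norm_inv, Real.norm_eq_abs, abs_of_pos hr0, ← dist_eq_norm,
        inv_mul_le_iff₀ hr0, mul_one]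
      exact hx)
    (fun μ hμ hmem => by
      rw [hav] at hμ
      simp only [hO, mem_preimage, mem_ofPred_eq, hTx0] at hmem
      exact lt_asymm hμ hmem)
    (by
      rw [hav]
      have e := hset (Ioi (gn R.f n x)) measurableSet_Ioi
      have e' : closedBall (0 : E d) 1 = aff c r ⁻¹' closedBall c r := (aff_preimage_ball c hr0).symm
      change volume (closedBall (0 : E d) 1 ∩ F ⁻¹' Ioi (gn R.f n x)) ≤ _
      rw [e, e', volume_aff_preimage c hr0 measurableSet_closedBall,
        volume_aff_preimage c hr0 (measurableSet_closedBall.inter (R.meas_f measurableSet_Ioi)),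
        mul_left_comm (ENNReal.ofReal θ)]
      exact mul_le_mul_right hlow _)
  rw [hav, ← aff_preimage_ball c hr0, hF,
    setLIntegral_aff c hr0 measurableSet_closedBall
      (φ := fun y => ENNReal.ofReal (R.f y - gn R.f n x))
      (R.meas_f.sub_const _).ennreal_ofReal] at key
  set Q := ENNReal.ofReal ((r ^ (d + d))⁻¹) with hQ
  have hQtop : Q ≠ ⊤ := ENNReal.ofReal_ne_top
  have hmemcyl : ∀ p : E d, ‖p‖ ≤ L → dist (aff c r p) (grid k i) ≤ (2 * L + 1) * s := by
    intro p hp
    have h1 : dist (aff c r p) c ≤ L * r := by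
      rw [aff, dist_self_add_left, norm_smul, Real.norm_eq_abs, abs_of_pos hr0, mul_comm]
      exact mul_le_mul_of_nonneg_right hp hr0.le
    calc dist (aff c r p) (grid k i) ≤ dist (aff c r p) c + dist c (grid k i) :=
          dist_triangle _ _ _
      _ ≤ (2 * L + 1) * s := by linarith
  have hP : ∀ μ, volume (PatternSet F L μ) ≤ Q * volume (pat R L k μ ∩ cyl L k i) := by
    intro μ
    rw [← volume_pair_preimage c hr0]
    refine measure_mono fun p hp => ?_
    obtain ⟨h1, h2, h3⟩ := hp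
    rw [mem_closedBall, dist_zero_right] at h1 h2
    refine ⟨⟨?_, ?_⟩, hmemcyl p.1 h1⟩
    · change ‖r • p.2‖ ≤ _
      rw [norm_smul, Real.norm_eq_abs, abs_of_pos hr0]
      have := mul_le_mul_of_nonneg_left h2 hr0.le
      linarith
    · have hq : L ≤ 2 * L := by linarith
      have eq1 : ∀ q : ℝ, aff c r p.1 - q • r • p.2 = aff c r (p.1 - q • p.2) := by
        intro q; simp only [aff, smul_sub, smul_comm r q]; abel
      have eq2 : ∀ q : ℝ, aff c r p.1 + q • r • p.2 = aff c r (p.1 + q • p.2) := by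
        intro q; simp only [aff, smul_add, smul_comm r q]; abel
      simp only [Pattern, eq1, eq2]
      exact h3.imp
        (fun h => ⟨h.1, fun m => (h.2.1 m).imp fun q hq' => ⟨hq'.1, hq'.2.1.trans hq, hq'.2.2⟩,
          fun m => (h.2.2 m).imp fun q hq' => ⟨hq'.1, hq'.2.1.trans hq, hq'.2.2⟩⟩)
        (fun h => ⟨h.1, h.2.1.imp fun q hq' => ⟨hq'.1, hq'.2.1.trans hq, hq'.2.2⟩,
          h.2.2.imp fun q hq' => ⟨hq'.1, hq'.2.1.trans hq, hq'.2.2⟩⟩)
  have hW : ∀ μ, volume (CrossingSet F (O μ) L μ) ≤ Q * volume (cro R n L k μ ∩ cyl L k i) := by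
    intro μ
    rw [← volume_pair_preimage c hr0]
    refine measure_mono fun p hp => ?_
    obtain ⟨h1, h2, -, h4, h5, h6, h7⟩ := hp
    rw [mem_closedBall, dist_zero_right] at h1
    refine ⟨⟨?_, h4, ?_, ?_, ?_⟩, hmemcyl p.1 h1⟩
    · change ‖r • p.2‖ ≤ _
      rw [norm_smul, Real.norm_eq_abs, abs_of_pos hr0]
      have := mul_le_mul_of_nonneg_left h2 hr0.le
      linarith
    · have e : aff c r p.1 + r • p.2 = aff c r (p.1 + p.2) := by
        simp only [aff, smul_add]; abel
      rw [e]; exact h5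
    · intro y hy
      have hy' : r⁻¹ • (y - c) ∈ closedBall p.1 (3 * (1 : ℝ) / 20) := by
        rw [← aff_preimage_closedBall c p.1 hr0, mem_preimage, aff, smul_smul,
          mul_inv_cancel₀ hr0.ne', one_smul, add_sub_cancel]
        exact closedBall_subset_closedBall (by linarith) hy
      have := h6 hy'
      simp only [hO, mem_preimage, aff, smul_smul, mul_inv_cancel₀ hr0.ne', one_smul,
        add_sub_cancel] at this
      exact this
    · refine fun hsub => h7 fun z hz => hsub ?_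
      rw [← aff_preimage_closedBall c p.1 hr0, mem_preimage] at hz
      exact closedBall_subset_closedBall (by linarith) hz
  have hX := key.trans (mul_le_mul_right (add_le_add (lintegral_mono hP) (lintegral_mono hW)) _)
  rw [lintegral_const_mul' _ _ hQtop, lintegral_const_mul' _ _ hQtop, ← mul_add] at hX
  change _ ≤ _ * (Q * cellX R n L k i) at hX
  have hrd : (0 : ℝ) < r ^ d := pow_pos hr0 d
  calc ∫⁻ y in closedBall c r, ENNReal.ofReal (R.f y - gn R.f n x)
      = ENNReal.ofReal (r ^ d) * (ENNReal.ofReal ((r ^ d)⁻¹)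
          * ∫⁻ y in closedBall c r, ENNReal.ofReal (R.f y - gn R.f n x)) := by
        rw [← mul_assoc, ← ENNReal.ofReal_mul hrd.le, mul_inv_cancel₀ hrd.ne', ENNReal.ofReal_one,
          one_mul]
    _ ≤ ENNReal.ofReal (r ^ d) * (ENNReal.ofReal C * (Q * cellX R n L k i)) :=
        mul_le_mul_right hX _
    _ = ENNReal.ofReal (C / r ^ d) * cellX R n L k i := by
        rw [hQ, ← mul_assoc, ← mul_assoc, ← ENNReal.ofReal_mul hrd.le,
          ← ENNReal.ofReal_mul (by positivity)]
        congr 2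
        rw [pow_add]
        field_simp
    _ ≤ ENNReal.ofReal (C / s ^ d) * cellX R n L k i :=
        mul_le_mul_left (ENNReal.ofReal_le_ofReal
          (div_le_div_of_nonneg_left hC.le (pow_pos hs0 d) (pow_le_pow_left₀ hs0.le hk1 d))) _

end Vale.Agent.P137.Low
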