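import Vale.Agent.P137.Defs

/-!
Measurability of `Pattern`, and how to enter it from real parameters.
-/

namespace Vale.Agent.P137

open MeasureTheory Metric Set Filter
open scoped InnerProductSpace ENNReal Topology

variable {d : ℕ}

lemma measurable_line {F : E d → ℝ} (hF : Measurable F) (q : ℝ) :
    Measurable fun p : ℝ × E d × E d => F (p.2.1 + q • p.2.2) :=
  hF.comp (by fun_prop)

lemma measurableSet_pattern {F : E d → ℝ} (hF : Measurable F) (L : ℝ) :
    MeasurableSet {p : ℝ × E d × E d | Pattern F L p.1 p.2.1 p.2.2} := by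
  have hy : Measurable fun p : ℝ × E d × E d => F p.2.1 := hF.comp (by fun_prop)
  have hm : ∀ q : ℝ, Measurable fun p : ℝ × E d × E d => F (p.2.1 - q • p.2.2) :=
    fun q => hF.comp (by fun_prop)
  unfold Pattern
  simp only [ofPred_or, ofPred_and, ofPred_forall, ofPred_exists]
  refine ((measurableSet_lt measurable_fst hy).inter ((MeasurableSet.iInter fun n => ?_).inter
    (MeasurableSet.iInter fun n => ?_))).union ((measurableSet_le hy measurable_fst).inter
    ((MeasurableSet.iUnion fun q => ?_).inter (MeasurableSet.iUnion fun q => ?_)))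
  · exact MeasurableSet.iUnion fun q => (MeasurableSet.const _).inter
      ((MeasurableSet.const _).inter (measurableSet_lt (hm q) (measurable_fst.add_const _)))
  · exact MeasurableSet.iUnion fun q => (MeasurableSet.const _).inter
      ((MeasurableSet.const _).inter
        (measurableSet_lt (measurable_line hF q) (measurable_fst.add_const _)))
  · exact (MeasurableSet.const _).inter
      ((MeasurableSet.const _).inter (measurableSet_lt measurable_fst (hm q)))
  · exact (MeasurableSet.const _).inter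
      ((MeasurableSet.const _).inter (measurableSet_lt measurable_fst (measurable_line hF q)))

lemma measurableSet_patternSet {F : E d → ℝ} (hF : Measurable F) (L : ℝ) :
    MeasurableSet {p : ℝ × E d × E d | p.2 ∈ PatternSet F L p.1} := by
  have h1 : MeasurableSet {p : ℝ × E d × E d | p.2.1 ∈ closedBall (0 : E d) L} :=
    (measurable_fst.comp measurable_snd) measurableSet_closedBall
  have h2 : MeasurableSet {p : ℝ × E d × E d | p.2.2 ∈ closedBall (0 : E d) L} :=
    (measurable_snd.comp measurable_snd) measurableSet_closedBall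
  exact h1.inter (h2.inter (measurableSet_pattern hF L))

lemma measurableSet_patternSet' {F : E d → ℝ} (hF : Measurable F) (L μ : ℝ) :
    MeasurableSet (PatternSet F L μ) :=
  (measurable_const.prodMk measurable_id) (measurableSet_patternSet hF L)

lemma measurable_vol_patternSet {F : E d → ℝ} (hF : Measurable F) (L : ℝ) :
    Measurable fun μ => volume (PatternSet F L μ) :=
  measurable_measure_prodMk_left (measurableSet_patternSet hF L)

lemma patternSet_mono {F : E d → ℝ} {L L' μ : ℝ} (h : L ≤ L') :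
    PatternSet F L μ ⊆ PatternSet F L' μ := by
  rintro p ⟨h1, h2, hp⟩
  refine ⟨closedBall_subset_closedBall h h1, closedBall_subset_closedBall h h2, ?_⟩
  rcases hp with ⟨a, b, c⟩ | ⟨a, ⟨q, q0, q1, q2⟩, ⟨r, r0, r1, r2⟩⟩
  · exact Or.inl ⟨a, fun n => (b n).imp fun q hq => ⟨hq.1, hq.2.1.trans h, hq.2.2⟩,
      fun n => (c n).imp fun q hq => ⟨hq.1, hq.2.1.trans h, hq.2.2⟩⟩
  · exact Or.inr ⟨a, ⟨q, q0, q1.trans h, q2⟩, ⟨r, r0, r1.trans h, r2⟩⟩

/-- A rational point of `[0, L]` as close as desired to a given real one. -/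
lemma exists_rat_near {φ : ℝ → ℝ} (hφ : Continuous φ) {L a : ℝ} (ha : 0 ≤ a) (haL : a < L)
    (s : Set ℝ) (hs : IsOpen s) (hmem : φ a ∈ s) :
    ∃ q : ℚ, 0 ≤ (q : ℝ) ∧ (q : ℝ) ≤ L ∧ φ (q : ℝ) ∈ s := by
  obtain ⟨ε, hε, hball⟩ := Metric.isOpen_iff.1 (hs.preimage hφ) a hmem
  obtain ⟨q, hq1, hq2⟩ := exists_rat_btwn (lt_min (lt_add_of_pos_right a hε) haL)
  exact ⟨q, ha.trans hq1.le, hq2.le.trans (min_le_right _ _),
    hball (by rw [mem_ball, Real.dist_eq, abs_of_pos (sub_pos.2 hq1)]
              linarith [hq2.trans_le (min_le_left _ _)])⟩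

/-- Real parameters give a rational pattern on a line of continuity. -/
lemma pattern_of_real {F : E d → ℝ} {L μ : ℝ} {y v : E d} {a b : ℝ}
    (hc : Continuous fun t : ℝ => F (y + t • v)) (ha : 0 ≤ a) (haL : a < L) (hb : 0 ≤ b)
    (hbL : b < L)
    (h : (μ < F y ∧ F (y - a • v) ≤ μ ∧ F (y + b • v) ≤ μ) ∨
      (F y ≤ μ ∧ μ < F (y - a • v) ∧ μ < F (y + b • v))) :
    Pattern F L μ y v := by
  have hc' : Continuous fun t : ℝ => F (y - t • v) := by
    have := hc.comp continuous_neg
    simpa [Function.comp_def, sub_eq_add_neg] using this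
  rcases h with ⟨h1, h2, h3⟩ | ⟨h1, h2, h3⟩
  · exact Or.inl ⟨h1,
      fun n => exists_rat_near hc' ha haL (Iio _) isOpen_Iio
        (h2.trans_lt (lt_add_of_pos_right _ (by positivity))),
      fun n => exists_rat_near hc hb hbL (Iio _) isOpen_Iio
        (h3.trans_lt (lt_add_of_pos_right _ (by positivity)))⟩
  · exact Or.inr ⟨h1, exists_rat_near hc' ha haL (Ioi _) isOpen_Ioi h2,
      exists_rat_near hc hb hbL (Ioi _) isOpen_Ioi h3⟩

/-- A measurable set of triples with fixed real parameters is dominated by the pattern set. -/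
lemma volume_triple_le {F : E d → ℝ} (hF : Measurable F)
    (hline : ∀ v : E d, ∀ᵐ y : E d, Continuous fun t : ℝ => F (y + t • v)) {L μ a b : ℝ}
    (ha : 0 ≤ a) (haL : a < L) (hb : 0 ≤ b) (hbL : b < L) (S : Set (E d × E d))
    (hS : MeasurableSet S)
    (hmem : ∀ p ∈ S, p.1 ∈ closedBall 0 L ∧ p.2 ∈ closedBall 0 L ∧
      ((μ < F p.1 ∧ F (p.1 - a • p.2) ≤ μ ∧ F (p.1 + b • p.2) ≤ μ) ∨
        (F p.1 ≤ μ ∧ μ < F (p.1 - a • p.2) ∧ μ < F (p.1 + b • p.2)))) :
    volume S ≤ volume (PatternSet F L μ) := by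
  rw [Measure.volume_eq_prod, Measure.prod_apply_symm hS,
    Measure.prod_apply_symm (measurableSet_patternSet' hF L μ)]
  refine lintegral_mono fun v => measure_mono_ae ?_
  filter_upwards [hline v] with y hy hyS
  obtain ⟨h1, h2, h3⟩ := hmem _ hyS
  exact ⟨h1, h2, pattern_of_real hy ha haL hb hbL h3⟩

end Vale.Agent.P137
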