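import Vale.Agent.P137.Defs
import Vale.Agent.P137.Approx

/-! Absolutely continuous representative of `|f|` (module Rep of P137). -/

open MeasureTheory Filter Topology Set Metric Function
open scoped RealInnerProductSpace ENNReal

noncomputable section

namespace Vale.Agent.P137

variable {d : ℕ}

/-- sum of a series of functions on the set where it converges absolutely -/
def sumOn {V : Type*} [NormedAddCommGroup V] (e : ℕ → E d → V) : E d → V :=
  {y | ∑' k, ‖e k y‖ₑ < ∞}.indicator fun y => ∑' k, e k y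

section SumOn

set_option linter.unusedSectionVars false

variable {V : Type*} [NormedAddCommGroup V] [CompleteSpace V] {e : ℕ → E d → V}

theorem summable_norm_of_lt {y : E d} (h : ∑' k, ‖e k y‖ₑ < ∞) :
    Summable fun k => ‖e k y‖ := by
  have h1 : ∑' k, ((‖e k y‖₊ : NNReal) : ℝ≥0∞) ≠ ∞ := by simpa [← enorm_eq_nnnorm] using h.ne
  have h2 := ENNReal.tsum_coe_ne_top_iff_summable.1 h1
  simpa using NNReal.summable_coe.2 h2

theorem sumOn_eq {y : E d} (h : ∑' k, ‖e k y‖ₑ < ∞) : sumOn e y = ∑' k, e k y := by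
  rw [sumOn, indicator_of_mem]
  exact h

theorem tendsto_sum_sumOn {y : E d} (h : ∑' k, ‖e k y‖ₑ < ∞) :
    Tendsto (fun n => ∑ k ∈ Finset.range n, e k y) atTop (𝓝 (sumOn e y)) := by
  rw [sumOn_eq h]
  exact (summable_norm_of_lt h).of_norm.hasSum.tendsto_sum_nat

theorem norm_sum_range_le {y : E d} (h : ∑' k, ‖e k y‖ₑ < ∞) (n : ℕ) :
    ‖∑ k ∈ Finset.range n, e k y‖ ≤ (∑' k, ‖e k y‖ₑ).toReal := by
  refine (norm_sum_le _ _).trans ?_
  calc ∑ k ∈ Finset.range n, ‖e k y‖
      = (∑ k ∈ Finset.range n, ‖e k y‖ₑ).toReal := by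
        rw [ENNReal.toReal_sum fun k _ => enorm_ne_top]
        simp
    _ ≤ _ := ENNReal.toReal_mono h.ne (ENNReal.sum_le_tsum _)

theorem measurable_sumOn [MeasurableSpace V] [BorelSpace V] [SecondCountableTopology V]
    (he : ∀ k, Measurable (e k)) : Measurable (sumOn e) := by
  have hS : MeasurableSet {y | ∑' k, ‖e k y‖ₑ < ∞} :=
    (Measurable.ennreal_tsum fun k => (he k).enorm) measurableSet_Iio
  refine measurable_of_tendsto_metrizable
    (f := fun n => {y | ∑' k, ‖e k y‖ₑ < ∞}.indicator fun y => ∑ k ∈ Finset.range n, e k y)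
    (fun n => (Finset.measurable_sum _ fun k _ => he k).indicator hS) ?_
  rw [tendsto_pi_nhds]
  intro y
  by_cases h : ∑' k, ‖e k y‖ₑ < ∞
  · simpa [indicator_of_mem (show y ∈ {y | ∑' k, ‖e k y‖ₑ < ∞} from h)] using tendsto_sum_sumOn h
  · simp [sumOn, indicator_of_notMem (show y ∉ {y | ∑' k, ‖e k y‖ₑ < ∞} from h)]

end SumOn

/-- A function summable in `L¹` along a sequence converges almost everywhere. -/
theorem ae_tendsto_of_summable_integral {V : Type*} [NormedAddCommGroup V] {u : ℕ → E d → V}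
    (hu : ∀ k, AEStronglyMeasurable (u k) volume) (h : ∑' k, ∫⁻ x, ‖u k x‖ₑ ≠ ∞) :
    ∀ᵐ x : E d, Tendsto (fun k => u k x) atTop (𝓝 0) := by
  rw [← lintegral_tsum fun k => (hu k).enorm] at h
  filter_upwards [ae_lt_top' (AEMeasurable.ennreal_tsum fun k => (hu k).enorm) h] with x hx
  have h1 := ENNReal.tendsto_atTop_zero_of_tsum_ne_top hx.ne
  rw [tendsto_zero_iff_norm_tendsto_zero]
  have h2 := (ENNReal.tendsto_toReal ENNReal.zero_ne_top).comp h1
  simpa [Function.comp_def] using h2

/-- Smooth sequence converging fast in `W^{1,1}`. -/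
structure Fast (d : ℕ) where
  F : ℕ → E d → ℝ
  smooth : ∀ k, ContDiff ℝ (⊤ : ℕ∞) (F k)
  supp : ∀ k, HasCompactSupport (F k)
  sum_F : ∑' k, ∫⁻ x, ‖F (k + 1) x - F k x‖ₑ ≠ ∞
  sum_D : ∑' k, ∫⁻ x, ‖gradient (F (k + 1)) x - gradient (F k) x‖ₑ ≠ ∞

namespace Fast

variable (S : Fast d)

def df (k : ℕ) (x : E d) : ℝ := S.F (k + 1) x - S.F k x

def dg (k : ℕ) (x : E d) : E d := gradient (S.F (k + 1)) x - gradient (S.F k) x

def lim (x : E d) : ℝ := S.F 0 x + sumOn S.df x

def limD (x : E d) : E d := gradient (S.F 0) x + sumOn S.dg x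

def sgnLim (x : E d) : ℝ := if 0 < S.lim x then 1 else if S.lim x < 0 then -1 else 0

def absD (x : E d) : E d := S.sgnLim x • S.limD x

theorem continuous_F (k : ℕ) : Continuous (S.F k) := (S.smooth k).continuous

theorem continuous_grad (k : ℕ) : Continuous (gradient (S.F k)) :=
  (InnerProductSpace.toDual ℝ (E d)).symm.continuous.comp
    ((S.smooth k).continuous_fderiv (by simp))

theorem continuous_df (k : ℕ) : Continuous (S.df k) := (S.continuous_F _).sub (S.continuous_F _)

theorem continuous_dg (k : ℕ) : Continuous (S.dg k) :=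
  (S.continuous_grad _).sub (S.continuous_grad _)

theorem F_eq_sum (n : ℕ) (x : E d) : S.F n x = S.F 0 x + ∑ k ∈ Finset.range n, S.df k x := by
  unfold df
  rw [Finset.sum_range_sub (fun k => S.F k x) n]
  ring

theorem grad_eq_sum (n : ℕ) (x : E d) :
    gradient (S.F n) x = gradient (S.F 0) x + ∑ k ∈ Finset.range n, S.dg k x := by
  unfold dg
  rw [Finset.sum_range_sub (fun k => gradient (S.F k) x) n]
  abel

theorem measurable_lim : Measurable S.lim :=
  (S.continuous_F 0).measurable.add (measurable_sumOn fun k => (S.continuous_df k).measurable)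

theorem measurable_limD : Measurable S.limD :=
  (S.continuous_grad 0).measurable.add (measurable_sumOn fun k => (S.continuous_dg k).measurable)

theorem measurable_sgnLim : Measurable S.sgnLim :=
  Measurable.ite (measurableSet_lt measurable_const S.measurable_lim) measurable_const
    (Measurable.ite (measurableSet_lt S.measurable_lim measurable_const) measurable_const
      measurable_const)

theorem measurable_absD : Measurable S.absD :=
  show Measurable fun x => S.sgnLim x • S.limD x from S.measurable_sgnLim.smul S.measurable_limD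

theorem abs_sgnLim_le (x : E d) : |S.sgnLim x| ≤ 1 := by
  unfold sgnLim
  split_ifs <;> simp

theorem norm_absD_le (x : E d) : ‖S.absD x‖ ≤ ‖S.limD x‖ := by
  rw [absD, norm_smul, Real.norm_eq_abs]
  exact mul_le_of_le_one_left (norm_nonneg _) (S.abs_sgnLim_le x)

/-- the density whose line integrals must be finite -/
def dens (y : E d) : ℝ≥0∞ := (∑' k, ‖S.df k y‖ₑ) + ∑' k, ‖S.dg k y‖ₑ

theorem measurable_dens : Measurable S.dens :=
  (Measurable.ennreal_tsum fun k => (S.continuous_df k).measurable.enorm).add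
    (Measurable.ennreal_tsum fun k => (S.continuous_dg k).measurable.enorm)

def lineInt (N : ℕ) (p : E d × E d) : ℝ≥0∞ :=
  ∫⁻ t in Icc (-(N : ℝ)) N, S.dens (p.1 + t • p.2)

theorem measurable_lineInt (N : ℕ) : Measurable (S.lineInt N) := by
  have h : Measurable fun q : (E d × E d) × ℝ => S.dens (q.1.1 + q.2 • q.1.2) :=
    S.measurable_dens.comp (by fun_prop)
  exact h.lintegral_prod_right'

def good : Set (E d × E d) := {p | ∀ N, S.lineInt N p < ∞}

theorem measurableSet_good : MeasurableSet S.good := by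
  rw [good, setOf_forall]
  exact MeasurableSet.iInter fun N => S.measurable_lineInt N measurableSet_Iio

theorem lintegral_dens_ne_top : ∫⁻ y, S.dens y ≠ ∞ := by
  unfold dens
  rw [lintegral_add_left (Measurable.ennreal_tsum fun k => (S.continuous_df k).measurable.enorm),
    lintegral_tsum fun k => (S.continuous_df k).measurable.enorm.aemeasurable,
    lintegral_tsum fun k => (S.continuous_dg k).measurable.enorm.aemeasurable]
  exact ENNReal.add_ne_top.2 ⟨S.sum_F, S.sum_D⟩

theorem ae_good (v : E d) : ∀ᵐ x : E d, (x, v) ∈ S.good := by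
  simp only [good, mem_setOf_eq]
  rw [ae_all_iff]
  intro N
  have hm : Measurable fun q : E d × ℝ => S.dens (q.1 + q.2 • v) :=
    S.measurable_dens.comp (by fun_prop)
  refine ae_lt_top ((S.measurable_lineInt N).comp (measurable_id.prodMk measurable_const)) ?_
  simp only [lineInt]
  rw [lintegral_lintegral_swap hm.aemeasurable]
  simp only [lintegral_add_right_eq_self S.dens]
  rw [setLIntegral_const]
  exact ENNReal.mul_ne_top S.lintegral_dens_ne_top measure_Icc_lt_top.ne

theorem good_shift (x v : E d) (s : ℝ) (h : (x, v) ∈ S.good) : (x + s • v, v) ∈ S.good := by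
  intro N
  refine lt_of_le_of_lt ?_ (h (N + ⌈|s|⌉₊))
  simp only [lineInt]
  rw [← lintegral_indicator measurableSet_Icc, ← lintegral_indicator measurableSet_Icc]
  conv_rhs => rw [← lintegral_add_right_eq_self _ s]
  refine lintegral_mono fun t => ?_
  by_cases ht : t ∈ Icc (-(N : ℝ)) N
  · have hs : |s| ≤ (⌈|s|⌉₊ : ℝ) := Nat.le_ceil _
    have hs' := abs_le.1 hs
    have ht' : t + s ∈ Icc (-((N + ⌈|s|⌉₊ : ℕ) : ℝ)) ((N + ⌈|s|⌉₊ : ℕ) : ℝ) := by
      push_cast
      constructor <;> linarith [ht.1, ht.2, hs'.1, hs'.2]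
    rw [indicator_of_mem ht, indicator_of_mem ht']
    refine le_of_eq (congrArg S.dens ?_)
    rw [add_smul]
    abel
  · simp [indicator_of_notMem ht]

theorem hasDerivAt_line (n : ℕ) (x v : E d) (t : ℝ) :
    HasDerivAt (fun t => S.F n (x + t • v)) ⟪gradient (S.F n) (x + t • v), v⟫ t := by
  have h1 : HasDerivAt (fun t : ℝ => x + t • v) v t := by
    simpa using ((hasDerivAt_id t).smul_const v).const_add x
  have h2 := (((S.smooth n).differentiable (by simp)).differentiableAt.hasFDerivAt).comp_hasDerivAt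
    t h1
  rw [gradient, InnerProductSpace.toDual_symm_apply]
  exact h2

theorem hasDerivAt_line_df (k : ℕ) (x v : E d) (t : ℝ) :
    HasDerivAt (fun t => S.df k (x + t • v)) ⟪S.dg k (x + t • v), v⟫ t := by
  rw [dg, inner_sub_left]
  exact (S.hasDerivAt_line (k + 1) x v t).sub (S.hasDerivAt_line k x v t)

theorem continuous_line (x v : E d) : Continuous fun t : ℝ => x + t • v := by fun_prop

/-- sup bound on a window -/
theorem enorm_df_le (k : ℕ) (x v : E d) {N : ℕ} (hN : 1 ≤ N) {s : ℝ}
    (hs : s ∈ Icc (-(N : ℝ)) N) :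
    ‖S.df k (x + s • v)‖ₑ ≤ (∫⁻ t in Icc (-(N : ℝ)) N, ‖S.df k (x + t • v)‖ₑ) +
      ‖v‖ₑ * ∫⁻ t in Icc (-(N : ℝ)) N, ‖S.dg k (x + t • v)‖ₑ := by
  set u : ℝ → ℝ := fun t => S.df k (x + t • v)
  set I := Icc (-(N : ℝ)) N with hI
  set A := ‖v‖ₑ * ∫⁻ t in I, ‖S.dg k (x + t • v)‖ₑ with hA
  have hpt : ∀ t ∈ I, ‖u s‖ₑ ≤ ‖u t‖ₑ + A := by
    intro t ht
    have hc : Continuous fun τ : ℝ => ⟪S.dg k (x + τ • v), v⟫ :=
      ((S.continuous_dg k).comp (continuous_line x v)).inner continuous_const
    have h1 : u s - u t = ∫ τ in t..s, ⟪S.dg k (x + τ • v), v⟫ :=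
      (intervalIntegral.integral_eq_sub_of_hasDerivAt (fun τ _ => S.hasDerivAt_line_df k x v τ)
        (hc.intervalIntegrable _ _)).symm
    have h2 : ‖u s - u t‖ₑ ≤ A := by
      rw [h1, ← ofReal_norm, intervalIntegral.norm_intervalIntegral_eq, ofReal_norm]
      refine (enorm_integral_le_lintegral_enorm _).trans ?_
      rw [hA, ← lintegral_const_mul']
      · refine le_trans (lintegral_mono_set (uIoc_subset_uIcc.trans ?_)) (lintegral_mono fun τ => ?_)
        · exact uIcc_subset_Icc ht hs
        · rw [mul_comm, ← ofReal_norm, ← ofReal_norm, ← ofReal_norm,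
            ← ENNReal.ofReal_mul (norm_nonneg _)]
          exact ENNReal.ofReal_le_ofReal (norm_inner_le_norm _ _)
      · exact enorm_ne_top
    calc ‖u s‖ₑ = ‖u t + (u s - u t)‖ₑ := by rw [add_sub_cancel]
      _ ≤ ‖u t‖ₑ + ‖u s - u t‖ₑ := enorm_add_le _ _
      _ ≤ _ := add_le_add le_rfl h2
  have h1N : (1 : ℝ) ≤ N := by exact_mod_cast hN
  set J := Icc (0 : ℝ) 1 with hJ
  have hJI : J ⊆ I := Icc_subset_Icc (by linarith) h1N
  calc ‖u s‖ₑ = ∫⁻ _ in J, ‖u s‖ₑ := by simp [hJ]
    _ ≤ ∫⁻ t in J, (‖u t‖ₑ + A) := setLIntegral_mono' measurableSet_Icc fun t ht => hpt t (hJI ht)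
    _ = (∫⁻ t in J, ‖u t‖ₑ) + A := by
        rw [lintegral_add_right _ measurable_const]
        simp [hJ]
    _ ≤ _ := add_le_add (lintegral_mono_set hJI) le_rfl

/-- the smoothed absolute value -/
def sabs (ε s : ℝ) : ℝ := Real.sqrt (s ^ 2 + ε ^ 2)

theorem hasDerivAt_sabs {ε : ℝ} (hε : 0 < ε) (s : ℝ) :
    HasDerivAt (sabs ε) (s / sabs ε s) s := by
  have h0 : s ^ 2 + ε ^ 2 ≠ 0 := by positivity
  have h := ((hasDerivAt_pow 2 s).add_const (ε ^ 2)).sqrt h0
  refine h.congr_deriv ?_
  unfold sabs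
  field_simp
  ring

theorem abs_div_sabs_le {ε : ℝ} (hε : 0 < ε) (s : ℝ) : |s / sabs ε s| ≤ 1 := by
  have h0 : 0 < sabs ε s := Real.sqrt_pos.2 (by positivity)
  rw [abs_div, abs_of_pos h0, div_le_one h0]
  refine (Real.sqrt_sq_eq_abs s).symm.le.trans (Real.sqrt_le_sqrt ?_)
  have := sq_nonneg ε
  linarith

theorem continuous_div_sabs {ε : ℝ} (hε : 0 < ε) : Continuous fun s => s / sabs ε s :=
  continuous_id.div (by unfold sabs; fun_prop) fun s => (Real.sqrt_pos.2 (by positivity)).ne'

theorem lineGood (x v : E d) (h : (x, v) ∈ S.good) :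
    LineGood (fun y => |S.lim y|) S.absD x v := by
  -- windows
  have hw : ∀ N : ℕ, (∑' k, ∫⁻ t in Icc (-(N : ℝ)) N, ‖S.df k (x + t • v)‖ₑ) < ∞ ∧
      (∑' k, ∫⁻ t in Icc (-(N : ℝ)) N, ‖S.dg k (x + t • v)‖ₑ) < ∞ := by
    intro N
    have hm1 : ∀ k, Measurable fun t : ℝ => ‖S.df k (x + t • v)‖ₑ := fun k =>
      ((S.continuous_df k).comp (continuous_line x v)).measurable.enorm
    have hm2 : ∀ k, Measurable fun t : ℝ => ‖S.dg k (x + t • v)‖ₑ := fun k =>
      ((S.continuous_dg k).comp (continuous_line x v)).measurable.enorm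
    have h1 := h N
    simp only [lineInt, dens] at h1
    rw [lintegral_add_left (Measurable.ennreal_tsum hm1),
      lintegral_tsum fun k => (hm1 k).aemeasurable,
      lintegral_tsum fun k => (hm2 k).aemeasurable] at h1
    exact ENNReal.add_lt_top.1 h1
  -- pointwise summability on the whole line
  set b : ℕ → ℕ → ℝ≥0∞ := fun N k => (∫⁻ t in Icc (-(N : ℝ)) N, ‖S.df k (x + t • v)‖ₑ) +
      ‖v‖ₑ * ∫⁻ t in Icc (-(N : ℝ)) N, ‖S.dg k (x + t • v)‖ₑ with hb
  have hbsum : ∀ N, ∑' k, b N k < ∞ := by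
    intro N
    simp only [hb]
    rw [ENNReal.tsum_add, ENNReal.tsum_mul_left]
    exact ENNReal.add_lt_top.2 ⟨(hw N).1, ENNReal.mul_lt_top enorm_lt_top (hw N).2⟩
  have hwin : ∀ s : ℝ, ∃ N : ℕ, 1 ≤ N ∧ s ∈ Ioo (-(N : ℝ)) N := by
    intro s
    refine ⟨⌈|s|⌉₊ + 1, by omega, ?_⟩
    have := abs_le.1 (Nat.le_ceil |s|)
    push_cast
    constructor <;> linarith [this.1, this.2]
  have hsum : ∀ s : ℝ, ∑' k, ‖S.df k (x + s • v)‖ₑ < ∞ := by
    intro s
    obtain ⟨N, hN, hs⟩ := hwin s
    exact lt_of_le_of_lt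
      (ENNReal.tsum_le_tsum fun k => S.enorm_df_le k x v hN (Ioo_subset_Icc_self hs)) (hbsum N)
  have htend : ∀ s : ℝ, Tendsto (fun n => S.F n (x + s • v)) atTop (𝓝 (S.lim (x + s • v))) := by
    intro s
    exact ((tendsto_sum_sumOn (hsum s)).const_add _).congr fun n => (S.F_eq_sum n _).symm
  have hcont : Continuous fun s : ℝ => S.lim (x + s • v) := by
    unfold lim
    refine ((S.continuous_F 0).comp (continuous_line x v)).add ?_
    have heq : (fun s : ℝ => sumOn S.df (x + s • v)) = fun s => ∑' k, S.df k (x + s • v) :=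
      funext fun s => sumOn_eq (hsum s)
    rw [heq]
    refine continuous_iff_continuousAt.2 fun s₀ => ?_
    obtain ⟨N, hN, hs⟩ := hwin s₀
    refine (continuousOn_tsum (u := fun k => (b N k).toReal)
      (fun k => ((S.continuous_df k).comp (continuous_line x v)).continuousOn)
      (ENNReal.summable_toReal (hbsum N).ne) (fun k s hs' => ?_)).continuousAt
      (Icc_mem_nhds hs.1 hs.2)
    have hle := S.enorm_df_le k x v hN hs'
    have hne : b N k ≠ ∞ := (lt_of_le_of_lt (ENNReal.le_tsum k) (hbsum N)).ne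
    have := ENNReal.toReal_mono hne hle
    simpa using this
  -- derivative data on intervals
  have hgsum : ∀ a c : ℝ, ∫⁻ t in uIoc a c, ∑' k, ‖S.dg k (x + t • v)‖ₑ < ∞ := by
    intro a c
    obtain ⟨N, hN⟩ := exists_nat_ge (max |a| |c|)
    have ha := abs_le.1 ((le_max_left _ _).trans hN)
    have hc := abs_le.1 ((le_max_right _ _).trans hN)
    refine lt_of_le_of_lt (lintegral_mono_set
      (uIoc_subset_uIcc.trans (uIcc_subset_Icc (mem_Icc.2 ha) (mem_Icc.2 hc)))) ?_
    have hm : ∀ k, Measurable fun t : ℝ => ‖S.dg k (x + t • v)‖ₑ := fun k =>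
      ((S.continuous_dg k).comp (continuous_line x v)).measurable.enorm
    rw [lintegral_tsum fun k => (hm k).aemeasurable]
    exact (hw N).2
  set G : ℝ → ℝ := fun t => (‖gradient (S.F 0) (x + t • v)‖ +
      (∑' k, ‖S.dg k (x + t • v)‖ₑ).toReal) * ‖v‖ with hG
  have hGint : ∀ a c : ℝ, IntervalIntegrable G volume a c := by
    intro a c
    refine IntervalIntegrable.mul_const ?_ _
    refine ((((S.continuous_grad 0).comp (continuous_line x v)).norm).intervalIntegrable _ _).add ?_
    rw [intervalIntegrable_iff]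
    exact integrable_toReal_of_lintegral_ne_top
      (Measurable.ennreal_tsum fun k =>
        ((S.continuous_dg k).comp (continuous_line x v)).measurable.enorm).aemeasurable
      (hgsum a c).ne
  have haefin : ∀ a c : ℝ, ∀ᵐ t ∂(volume : Measure ℝ), t ∈ uIoc a c →
      ∑' k, ‖S.dg k (x + t • v)‖ₑ < ∞ := by
    intro a c
    rw [← ae_restrict_iff' measurableSet_uIoc]
    exact ae_lt_top (Measurable.ennreal_tsum fun k =>
      ((S.continuous_dg k).comp (continuous_line x v)).measurable.enorm) (hgsum a c).ne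
  have hgn : ∀ (t : ℝ), ∑' k, ‖S.dg k (x + t • v)‖ₑ < ∞ → ∀ n,
      |⟪gradient (S.F n) (x + t • v), v⟫| ≤ G t := by
    intro t ht n
    refine (abs_real_inner_le_norm _ _).trans (mul_le_mul_of_nonneg_right ?_ (norm_nonneg _))
    rw [S.grad_eq_sum n]
    exact (norm_add_le _ _).trans (add_le_add le_rfl (norm_sum_range_le ht n))
  have hgt : ∀ (t : ℝ), ∑' k, ‖S.dg k (x + t • v)‖ₑ < ∞ →
      Tendsto (fun n => ⟪gradient (S.F n) (x + t • v), v⟫) atTop (𝓝 ⟪S.limD (x + t • v), v⟫) := by
    intro t ht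
    exact (((tendsto_sum_sumOn ht).const_add _).congr fun n =>
      (S.grad_eq_sum n _).symm).inner tendsto_const_nhds
  have hgD : ∀ (t : ℝ), ∑' k, ‖S.dg k (x + t • v)‖ₑ < ∞ → |⟪S.limD (x + t • v), v⟫| ≤ G t :=
    fun t ht => le_of_tendsto (hgt t ht).abs (Eventually.of_forall (hgn t ht))
  have hsgn : ∀ y, |⟪S.absD y, v⟫| ≤ |⟪S.limD y, v⟫| := by
    intro y
    rw [absD, real_inner_smul_left, abs_mul]
    exact mul_le_of_le_one_left (abs_nonneg _) (S.abs_sgnLim_le y)
  have hmD : Measurable fun t : ℝ => ⟪S.limD (x + t • v), v⟫ :=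
    ((S.measurable_limD).comp (continuous_line x v).measurable).inner measurable_const
  have hmA : Measurable fun t : ℝ => ⟪S.absD (x + t • v), v⟫ :=
    ((S.measurable_absD).comp (continuous_line x v).measurable).inner measurable_const
  refine ⟨hcont.abs, fun a c => ⟨?_, ?_⟩⟩
  · refine (hGint a c).mono_fun' hmA.aestronglyMeasurable ?_
    rw [EventuallyLE, ae_restrict_iff' measurableSet_uIoc]
    filter_upwards [haefin a c] with t ht hti
    rw [Real.norm_eq_abs]
    exact (hsgn _).trans (hgD t (ht hti))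
  -- the identity for the smoothed absolute value
  have hid : ∀ ε : ℝ, 0 < ε → sabs ε (S.lim (x + c • v)) - sabs ε (S.lim (x + a • v)) =
      ∫ t in a..c, S.lim (x + t • v) / sabs ε (S.lim (x + t • v)) * ⟪S.limD (x + t • v), v⟫ := by
    intro ε hε
    have hn : ∀ n, sabs ε (S.F n (x + c • v)) - sabs ε (S.F n (x + a • v)) =
        ∫ t in a..c, S.F n (x + t • v) / sabs ε (S.F n (x + t • v)) *
          ⟪gradient (S.F n) (x + t • v), v⟫ := by
      intro n
      refine (intervalIntegral.integral_eq_sub_of_hasDerivAt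
        (f := fun t => sabs ε (S.F n (x + t • v)))
        (fun t _ => (hasDerivAt_sabs hε _).comp t (S.hasDerivAt_line n x v t)) ?_).symm
      refine (Continuous.intervalIntegrable ?_ _ _)
      exact ((continuous_div_sabs hε).comp ((S.continuous_F n).comp (continuous_line x v))).mul
        (((S.continuous_grad n).comp (continuous_line x v)).inner continuous_const)
    have hsc : Continuous (sabs ε) := by unfold sabs; fun_prop
    refine tendsto_nhds_unique
      (((hsc.tendsto _).comp (htend c)).sub ((hsc.tendsto _).comp (htend a))) ?_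
    simp only [Function.comp_def, hn]
    refine intervalIntegral.tendsto_integral_filter_of_dominated_convergence G
      (Eventually.of_forall fun n => ?_) (Eventually.of_forall fun n => ?_) (hGint a c) ?_
    · exact (((continuous_div_sabs hε).comp ((S.continuous_F n).comp (continuous_line x v))).mul
        (((S.continuous_grad n).comp (continuous_line x v)).inner
          continuous_const)).aestronglyMeasurable
    · filter_upwards [haefin a c] with t ht hti
      rw [Real.norm_eq_abs, abs_mul]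
      exact (mul_le_of_le_one_left (abs_nonneg _) (abs_div_sabs_le hε _)).trans (hgn t (ht hti) n)
    · filter_upwards [haefin a c] with t ht hti
      exact (((continuous_div_sabs hε).tendsto _).comp (htend t)).mul (hgt t (ht hti))
  set ε : ℕ → ℝ := fun m => 1 / ((m : ℝ) + 1) with hεdef
  have hεpos : ∀ m, 0 < ε m := fun m => by positivity
  have hεto : Tendsto ε atTop (𝓝 0) := tendsto_one_div_add_atTop_nhds_zero_nat
  have hsto : ∀ s : ℝ, Tendsto (fun m => sabs (ε m) s) atTop (𝓝 |s|) := by
    intro s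
    have : Tendsto (fun m => Real.sqrt (s ^ 2 + ε m ^ 2)) atTop (𝓝 (Real.sqrt (s ^ 2 + 0 ^ 2))) :=
      ((hεto.pow 2).const_add (s ^ 2)).sqrt
    simpa [sabs, Real.sqrt_sq_eq_abs] using this
  have hdto : ∀ y, Tendsto (fun m => S.lim y / sabs (ε m) (S.lim y)) atTop (𝓝 (S.sgnLim y)) := by
    intro y
    rcases eq_or_ne (S.lim y) 0 with h0 | h0
    · simp [sgnLim, h0]
    · have h1 : Tendsto (fun m => S.lim y / sabs (ε m) (S.lim y)) atTop
          (𝓝 (S.lim y / |S.lim y|)) :=
        tendsto_const_nhds.div (hsto _) (abs_ne_zero.2 h0)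
      convert h1 using 2
      unfold sgnLim
      rcases lt_or_gt_of_ne h0 with hl | hl
      · rw [if_neg hl.le.not_gt, if_pos hl, abs_of_neg hl, div_neg, div_self h0]
      · rw [if_pos hl, abs_of_pos hl, div_self h0]
  refine tendsto_nhds_unique (((hsto (S.lim (x + c • v)))).sub (hsto (S.lim (x + a • v)))) ?_
  simp only [fun m => hid (ε m) (hεpos m)]
  refine intervalIntegral.tendsto_integral_filter_of_dominated_convergence G
    (Eventually.of_forall fun m => ?_) (Eventually.of_forall fun m => ?_) (hGint a c) ?_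
  · exact (((continuous_div_sabs (hεpos m)).comp hcont).measurable.mul
      hmD).aestronglyMeasurable
  · filter_upwards [haefin a c] with t ht hti
    rw [Real.norm_eq_abs, abs_mul]
    exact (mul_le_of_le_one_left (abs_nonneg _) (abs_div_sabs_le (hεpos m) _)).trans
      (hgD t (ht hti))
  · refine Eventually.of_forall fun t _ => ?_
    simp only [absD, real_inner_smul_left]
    exact (hdto _).mul_const _

end Fast

theorem exists_fast {f : E d → ℝ} {g : E d → E d} (hf : Integrable f) (hg : Integrable g)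
    (hw : HasWeakGrad f g) :
    ∃ S : Fast d, S.lim =ᵐ[volume] f ∧ S.limD =ᵐ[volume] g := by
  have hw' : IsWeakGrad f g := by
    intro φ h1 h2 v
    rw [hw φ h1 h2 v]
    simp_rw [mul_comm]
  obtain ⟨F, hF1, hF2, hA, hB⟩ := exists_smooth_approx hf hg hw'
  have hch : ∀ k : ℕ, ∃ n, ∫ x, |F n x - f x| ≤ (1 / 2) ^ k ∧
      ∫ x, ‖gradient (F n) x - g x‖ ≤ (1 / 2) ^ k := fun k =>
    ((hA.eventually_le_const (show (0 : ℝ) < (1 / 2) ^ k by positivity)).and
      (hB.eventually_le_const (show (0 : ℝ) < (1 / 2) ^ k by positivity))).exists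
  choose n hn1 hn2 using hch
  have hgi : ∀ m, Integrable (gradient (F m)) := fun m =>
    ((InnerProductSpace.toDual ℝ (E d)).symm.continuous.comp
      ((hF1 m).continuous_fderiv (by simp))).integrable_of_hasCompactSupport
      (((hF2 m).fderiv ℝ).comp_left
        (g := fun L => (InnerProductSpace.toDual ℝ (E d)).symm L) (map_zero _))
  have hFi : ∀ m, Integrable (F m) := fun m =>
    (hF1 m).continuous.integrable_of_hasCompactSupport (hF2 m)
  have key : ∀ {V : Type} [NormedAddCommGroup V] (u : ℕ → E d → V),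
      (∀ k, Integrable (u k)) → (∀ k, ∫ x, ‖u k x‖ ≤ (1 / 2) ^ k) →
      ∑' k, ∫⁻ x, ‖u k x‖ₑ ≠ ∞ ∧ ∑' k, ∫⁻ x, ‖u (k + 1) x - u k x‖ₑ ≠ ∞ := by
    intro V _ u hu hle
    have h1 : ∀ k, ∫⁻ x, ‖u k x‖ₑ ≤ ENNReal.ofReal ((1 / 2) ^ k) := by
      intro k
      rw [← ofReal_integral_norm_eq_lintegral_enorm (hu k)]
      exact ENNReal.ofReal_le_ofReal (hle k)
    have hs : ∑' k : ℕ, ENNReal.ofReal ((1 / 2 : ℝ) ^ k) ≠ ∞ := by
      rw [← ENNReal.ofReal_tsum_of_nonneg (fun k => by positivity)
        (summable_geometric_two)]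
      exact ENNReal.ofReal_ne_top
    refine ⟨ne_top_of_le_ne_top hs (ENNReal.tsum_le_tsum h1), ?_⟩
    refine ne_top_of_le_ne_top (ENNReal.add_ne_top.2 ⟨hs, hs⟩)
      (le_trans (ENNReal.tsum_le_tsum fun k => ?_) ENNReal.tsum_add.le)
    calc ∫⁻ x, ‖u (k + 1) x - u k x‖ₑ
        ≤ ∫⁻ x, (‖u (k + 1) x‖ₑ + ‖u k x‖ₑ) := lintegral_mono fun x => enorm_sub_le
      _ = (∫⁻ x, ‖u (k + 1) x‖ₑ) + ∫⁻ x, ‖u k x‖ₑ :=
          lintegral_add_left' (hu _).aestronglyMeasurable.enorm _
      _ ≤ _ := by
          refine add_le_add ((h1 _).trans (ENNReal.ofReal_le_ofReal ?_)) (h1 _)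
          exact pow_le_pow_of_le_one (by norm_num) (by norm_num) (Nat.le_succ k)
  obtain ⟨kF1, kF2⟩ := key (fun k x => F (n k) x - f x) (fun k => (hFi _).sub hf)
    (fun k => by simpa [Real.norm_eq_abs] using hn1 k)
  obtain ⟨kD1, kD2⟩ := key (fun k x => gradient (F (n k)) x - g x) (fun k => (hgi _).sub hg) hn2
  simp only [sub_sub_sub_cancel_right] at kF2 kD2
  let S : Fast d := ⟨fun k => F (n k), fun k => hF1 _, fun k => hF2 _, kF2, kD2⟩
  refine ⟨S, ?_, ?_⟩
  · filter_upwards [ae_tendsto_of_summable_integral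
      (u := fun k x => F (n k) x - f x) (fun k => ((hFi _).sub hf).aestronglyMeasurable) kF1,
      ae_lt_top (Measurable.ennreal_tsum fun k => (S.continuous_df k).measurable.enorm)
        (by rw [lintegral_tsum fun k => (S.continuous_df k).measurable.enorm.aemeasurable]
            exact kF2)] with x hx hx2
    have h1 : Tendsto (fun k => S.F k x) atTop (𝓝 (S.lim x)) := by
      exact ((tendsto_sum_sumOn hx2).const_add _).congr fun n => (S.F_eq_sum n _).symm
    have h2 : Tendsto (fun k => S.F k x) atTop (𝓝 (f x)) := by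
      simpa using hx.add_const (f x)
    exact tendsto_nhds_unique h1 h2
  · filter_upwards [ae_tendsto_of_summable_integral
      (u := fun k x => gradient (F (n k)) x - g x) (fun k => ((hgi _).sub hg).aestronglyMeasurable)
      kD1,
      ae_lt_top (Measurable.ennreal_tsum fun k => (S.continuous_dg k).measurable.enorm)
        (by rw [lintegral_tsum fun k => (S.continuous_dg k).measurable.enorm.aemeasurable]
            exact kD2)] with x hx hx2
    have h1 : Tendsto (fun k => gradient (S.F k) x) atTop (𝓝 (S.limD x)) := by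
      exact ((tendsto_sum_sumOn hx2).const_add _).congr fun n => (S.grad_eq_sum n _).symm
    have h2 : Tendsto (fun k => gradient (S.F k) x) atTop (𝓝 (g x)) := by
      simpa using hx.add_const (g x)
    exact tendsto_nhds_unique h1 h2

theorem rep : RepStmt := by
  intro d f g _ hf hg hw
  obtain ⟨S, h1, h2⟩ := exists_fast hf hg hw
  have hle : ∀ᵐ x : E d, ‖S.absD x‖ ≤ ‖g x‖ := by
    filter_upwards [h2] with x hx
    exact (S.norm_absD_le x).trans_eq (by rw [hx])
  refine ⟨{ f := fun y => |S.lim y|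
            D := S.absD
            meas_f := continuous_abs.measurable.comp S.measurable_lim
            meas_D := S.measurable_absD
            nonneg := fun y => abs_nonneg _
            int_f := (hf.congr h1.symm).abs
            int_D := hg.norm.mono' S.measurable_absD.aestronglyMeasurable hle
            good := S.good
            meas_good := S.measurableSet_good
            ae_good := S.ae_good
            good_shift := S.good_shift
            lineGood := S.lineGood }, ?_, ?_⟩
  · exact h1.fun_comp (fun r => |r|)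
  · refine lintegral_mono_ae ?_
    filter_upwards [hle] with x hx
    simpa [← ofReal_norm] using ENNReal.ofReal_le_ofReal hx

end Vale.Agent.P137
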