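import Vale.Agent.P137.PatternBasic
import Vale.Agent.P137.Line1D
import Vale.Agent.P137.GmaxBasic

/-!
Module Sums: both functionals are summable over geometric scales.
-/

namespace Vale.Agent.P137

open MeasureTheory Metric Set Filter
open scoped InnerProductSpace ENNReal Topology

variable {d : ℕ}

namespace Sums

lemma isOpen_gn (R : Rep d) (n : ℕ) (μ : ℝ) : IsOpen {z | μ < gn R.f n z} :=
  isOpen_lt continuous_const (GmaxBasic.continuous_gn R.nonneg R.int_f n)

/-! ### Scaling and line averaging -/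

/-- The mass of the times `t` in the window at which `(μ, y + t w, r w)` is in `P`, over `r`. -/
noncomputable def lineMass (P : Set (ℝ × E d × E d)) (T r : ℝ) (w y : E d) (μ : ℝ) : ℝ≥0∞ :=
  ENNReal.ofReal r⁻¹ * volume (Icc (-T) T ∩ {t : ℝ | (μ, y + t • w, r • w) ∈ P})

lemma measurable_lineMass {P : Set (ℝ × E d × E d)} (hP : MeasurableSet P) (T r : ℝ) :
    Measurable fun p : E d × E d × ℝ => lineMass P T r p.1 p.2.1 p.2.2 := by
  refine Measurable.const_mul ?_ _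
  have hm : Measurable fun z : (E d × E d × ℝ) × ℝ =>
      ((z.1.2.2, z.1.2.1 + z.2 • z.1.1, r • z.1.1) : ℝ × E d × E d) := by fun_prop
  exact measurable_measure_prodMk_left ((measurable_snd measurableSet_Icc).inter (hm hP))

lemma line_avg {P : Set (ℝ × E d × E d)} (hP : MeasurableSet P) {T : ℝ} (hT : 0 < T)
    (ν : Measure ℝ) [SFinite ν] (r : ℝ) (w : E d) :
    ∫⁻ μ, ENNReal.ofReal r⁻¹ * volume {x : E d | (μ, x, r • w) ∈ P} ∂ν
      = ENNReal.ofReal (2 * T)⁻¹ * ∫⁻ y, ∫⁻ μ, lineMass P T r w y μ ∂ν := by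
  have hA : MeasurableSet {p : ℝ × E d | (p.1, p.2, r • w) ∈ P} := by
    have : Measurable fun p : ℝ × E d => ((p.1, p.2, r • w) : ℝ × E d × E d) := by fun_prop
    exact this hP
  set H : E d → ℝ≥0∞ := fun x => ν {μ | (μ, x, r • w) ∈ P} with hH
  have hHm : Measurable H := measurable_measure_prodMk_right hA
  have h1 : ∫⁻ μ, volume {x : E d | (μ, x, r • w) ∈ P} ∂ν = ∫⁻ x, H x :=
    (Measure.prod_apply (μ := ν) (ν := (volume : Measure (E d))) hA).symm.trans
      (Measure.prod_apply_symm hA)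
  have h2 : ∀ y : E d, ∫⁻ μ, lineMass P T r w y μ ∂ν
      = ENNReal.ofReal r⁻¹ * ∫⁻ t in Icc (-T) T, H (y + t • w) := by
    intro y
    have hB : MeasurableSet {p : ℝ × ℝ | (p.1, y + p.2 • w, r • w) ∈ P} := by
      have : Measurable fun p : ℝ × ℝ =>
          ((p.1, y + p.2 • w, r • w) : ℝ × E d × E d) := by fun_prop
      exact this hP
    simp only [lineMass]
    rw [lintegral_const_mul' _ _ ENNReal.ofReal_ne_top]
    congr 1
    refine Eq.trans ?_ ((Measure.prod_apply (μ := ν) (ν := volume.restrict (Icc (-T) T)) hB).symm.trans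
      (Measure.prod_apply_symm hB))
    refine lintegral_congr fun μ => ?_
    rw [Measure.restrict_apply' measurableSet_Icc, inter_comm]
    rfl
  rw [lintegral_const_mul' _ _ ENNReal.ofReal_ne_top, h1, lintegral_congr h2,
    lintegral_const_mul' _ _ ENNReal.ofReal_ne_top, lintegral_line hHm w, Real.volume_Icc,
    sub_neg_eq_add, ← two_mul, mul_left_comm (ENNReal.ofReal r⁻¹), ← mul_assoc,
    ← ENNReal.ofReal_mul (by positivity), inv_mul_cancel₀ (by positivity), ENNReal.ofReal_one,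
    one_mul]

lemma scale_eq {P : Set (ℝ × E d × E d)} (hP : MeasurableSet P) {T r : ℝ} (hT : 0 < T)
    (hr : 0 < r) (ν : Measure ℝ) [SFinite ν] :
    ENNReal.ofReal ((r ^ (d + 1))⁻¹) * ∫⁻ μ, volume {p : E d × E d | (μ, p) ∈ P} ∂ν
      = ENNReal.ofReal (2 * T)⁻¹ * ∫⁻ w, ∫⁻ y, ∫⁻ μ, lineMass P T r w y μ ∂ν := by
  rw [← lintegral_const_mul' _ _ ENNReal.ofReal_ne_top]
  conv_rhs => rw [← lintegral_const_mul' _ _ ENNReal.ofReal_ne_top]
  simp only [← line_avg hP hT ν r]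
  have hvol : ∀ μ, volume {p : E d × E d | (μ, p) ∈ P}
      = ∫⁻ v, volume {x : E d | (μ, x, v) ∈ P} := fun μ => by
    rw [Measure.volume_eq_prod]
    exact Measure.prod_apply_symm (measurable_const.prodMk measurable_id hP)
  have hG : Measurable fun q : ℝ × E d => volume {x : E d | (q.1, x, q.2) ∈ P} := by
    have : Measurable fun z : (ℝ × E d) × E d => ((z.1.1, z.2, z.1.2) : ℝ × E d × E d) := by
      fun_prop
    exact measurable_measure_prodMk_left (this hP)
  have hG' : Measurable fun v : E d => ∫⁻ μ, volume {x : E d | (μ, x, v) ∈ P} ∂ν :=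
    hG.lintegral_prod_left'
  simp only [hvol, lintegral_const_mul' _ _ ENNReal.ofReal_ne_top]
  rw [lintegral_lintegral_swap (f := fun μ v => volume {x : E d | (μ, x, v) ∈ P}) hG.aemeasurable]
  have hmap := Measure.map_addHaar_smul (volume : Measure (E d)) hr.ne'
  have h3 := lintegral_map (μ := (volume : Measure (E d))) hG' (measurable_const_smul r)
  rw [hmap, finrank_euclideanSpace_fin, lintegral_smul_measure, smul_eq_mul] at h3
  rw [← h3, ← mul_assoc, ← ENNReal.ofReal_mul (by positivity),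
    abs_of_pos (by positivity), pow_succ, mul_inv_rev]

lemma tsum_scale {κ : Type*} [Countable κ] {P : κ → Set (ℝ × E d × E d)}
    (hP : ∀ k, MeasurableSet (P k)) {T : ℝ} (hT : 0 < T) {r : κ → ℝ} (hr : ∀ k, 0 < r k)
    (ν : Measure ℝ) [SFinite ν] :
    ∑' k, ENNReal.ofReal (((r k) ^ (d + 1))⁻¹) * ∫⁻ μ, volume {p : E d × E d | (μ, p) ∈ P k} ∂ν
      = ENNReal.ofReal (2 * T)⁻¹ *
        ∫⁻ w, ∫⁻ y, ∫⁻ μ, ∑' k, lineMass (P k) T (r k) w y μ ∂ν := by
  have h3 := fun k => measurable_lineMass (hP k) T (r k)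
  have h2 : ∀ k, Measurable fun p : E d × E d => ∫⁻ μ, lineMass (P k) T (r k) p.1 p.2 μ ∂ν :=
    fun k => Measurable.lintegral_prod_right' (ν := ν)
      (f := fun p : (E d × E d) × ℝ => lineMass (P k) T (r k) p.1.1 p.1.2 p.2)
      ((h3 k).comp (by fun_prop : Measurable fun p : (E d × E d) × ℝ => (p.1.1, p.1.2, p.2)))
  have h1 : ∀ k, Measurable fun w : E d => ∫⁻ y, ∫⁻ μ, lineMass (P k) T (r k) w y μ ∂ν :=
    fun k => (h2 k).lintegral_prod_right'
  rw [tsum_congr fun k => scale_eq (hP k) hT (hr k) ν, ENNReal.tsum_mul_left,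
    ← lintegral_tsum fun k => (h1 k).aemeasurable]
  congr 1
  refine lintegral_congr fun w => ?_
  rw [← lintegral_tsum (f := fun k y => ∫⁻ μ, lineMass (P k) T (r k) w y μ ∂ν)
    fun k => ((h2 k).comp measurable_prodMk_left).aemeasurable]
  refine lintegral_congr fun y => ?_
  rw [← lintegral_tsum fun k => ?_]
  exact ((h3 k).comp (by fun_prop : Measurable fun μ : ℝ => (w, y, μ))).aemeasurable

/-! ### Integrating a bound by the number of zeros -/

/-- `Φ` is at most `c` times the number of zeros, on good lines and in directions of length at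
most `Λ`. -/
def CountBound (R : Rep d) (T Λ : ℝ) (c : ℝ≥0∞) (Φ : E d → E d → ℝ → ℝ≥0∞) : Prop :=
  (∀ w y μ, Λ < ‖w‖ → Φ w y μ = 0) ∧
  ∀ w y μ, (y, w) ∈ R.good → ∀ Z : Finset ℝ,
    (∀ t, t ∈ Z ↔ t ∈ Icc (-(2 * T)) (2 * T) ∧ R.f (y + t • w) = μ) → Φ w y μ ≤ c * Z.card

/-- The derivative mass of `f` on a window of the line. -/
noncomputable def windowDeriv (R : Rep d) (T : ℝ) (w y : E d) : ℝ≥0∞ :=
  ∫⁻ t in Icc (-(2 * T)) (2 * T), ‖⟪R.D (y + t • w), w⟫_ℝ‖ₑ

lemma windowDeriv_ne_top (R : Rep d) {T : ℝ} (hT : 0 < T) {w y : E d} (h : (y, w) ∈ R.good) :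
    windowDeriv R T w y ≠ ⊤ := by
  have h1 := ((R.lineGood y w h).2 (-(2 * T)) (2 * T)).1
  rw [intervalIntegrable_iff_integrableOn_Icc_of_le (by linarith) (by finiteness)] at h1
  exact h1.hasFiniteIntegral.ne

lemma line_count (R : Rep d) {T : ℝ} (hT : 0 < T) {w y : E d} (h : (y, w) ∈ R.good) :
    ∃ N : ℝ → ℝ≥0∞, Measurable N ∧ ∫⁻ μ, N μ ≤ windowDeriv R T w y ∧
      ∀ᵐ μ : ℝ, ∃ Z : Finset ℝ,
        (∀ t, t ∈ Z ↔ t ∈ Icc (-(2 * T)) (2 * T) ∧ R.f (y + t • w) = μ) ∧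
          (Z.card : ℝ≥0∞) ≤ N μ := by
  obtain ⟨hc, hD⟩ := R.lineGood y w h
  have hab : -(2 * T) ≤ 2 * T := by linarith
  refine ⟨indic (fun t => R.f (y + t • w)) (-(2 * T)) (2 * T), measurable_indic hc,
    lintegral_indic_le hc hD hab, ?_⟩
  filter_upwards [ae_finite_level hc hD hab] with μ hμ
  exact ⟨hμ.toFinset, fun t => hμ.mem_toFinset,
    card_le_indic fun t ht => hμ.mem_toFinset.1 ht⟩

lemma lintegral_line_le (R : Rep d) {T Λ : ℝ} (hT : 0 < T) {c : ℝ≥0∞}
    {Φ : E d → E d → ℝ → ℝ≥0∞} (hΦ : CountBound R T Λ c Φ) {w y : E d} (h : (y, w) ∈ R.good) :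
    ∫⁻ μ in Ioi (0 : ℝ), Φ w y μ ≤ c * windowDeriv R T w y := by
  obtain ⟨N, hNm, hint, hae⟩ := line_count R hT h
  calc ∫⁻ μ in Ioi (0 : ℝ), Φ w y μ ≤ ∫⁻ μ, Φ w y μ := setLIntegral_le_lintegral _ _
    _ ≤ ∫⁻ μ, c * N μ := lintegral_mono_ae <| hae.mono fun μ hμ => by
        obtain ⟨Z, hZ, hcard⟩ := hμ
        exact (hΦ.2 w y μ h Z hZ).trans (by gcongr)
    _ ≤ _ := by rw [lintegral_const_mul _ hNm]; gcongr

lemma lintegral_windowDeriv_le (R : Rep d) {T Λ : ℝ} {w : E d} (hw : ‖w‖ ≤ Λ) :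
    ∫⁻ y, windowDeriv R T w y ≤ ENNReal.ofReal (4 * T) * (ENNReal.ofReal Λ * ∫⁻ x, ‖R.D x‖ₑ) := by
  have hD := R.meas_D
  have hm : Measurable fun x => ‖⟪R.D x, w⟫_ℝ‖ₑ := (hD.inner measurable_const).enorm
  unfold windowDeriv
  rw [lintegral_line hm w, Real.volume_Icc, show 2 * T - -(2 * T) = 4 * T by ring,
    ← lintegral_const_mul _ hD.enorm]
  gcongr with x
  rw [← ofReal_norm, ← ofReal_norm, ← ENNReal.ofReal_mul ((norm_nonneg w).trans hw)]
  refine ENNReal.ofReal_le_ofReal ((abs_real_inner_le_norm _ _).trans ?_)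
  rw [mul_comm]; gcongr

/-- The total bound furnished by a count bound, up to the window factor. -/
noncomputable def totalBound (R : Rep d) (T Λ : ℝ) (c : ℝ≥0∞) : ℝ≥0∞ :=
  c * (ENNReal.ofReal (4 * T) * (ENNReal.ofReal Λ * ∫⁻ x, ‖R.D x‖ₑ))

lemma lintegral_plane_le (R : Rep d) {T Λ : ℝ} (hT : 0 < T) {c : ℝ≥0∞} (hc : c ≠ ⊤)
    {Φ : E d → E d → ℝ → ℝ≥0∞} (hΦ : CountBound R T Λ c Φ) (w : E d) :
    ∫⁻ y, ∫⁻ μ in Ioi (0 : ℝ), Φ w y μ
      ≤ (closedBall (0 : E d) Λ).indicator (fun _ => totalBound R T Λ c) w := by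
  by_cases hw : ‖w‖ ≤ Λ
  · rw [indicator_of_mem (mem_closedBall_zero_iff.2 hw)]
    refine (lintegral_mono_ae ((R.ae_good w).mono fun y hy =>
      lintegral_line_le R hT hΦ hy)).trans ?_
    rw [lintegral_const_mul' _ _ hc]
    unfold totalBound
    gcongr
    exact lintegral_windowDeriv_le R hw
  · rw [indicator_of_notMem (fun h => hw (mem_closedBall_zero_iff.1 h))]
    simp [hΦ.1 w _ _ (not_le.1 hw)]

lemma lintegral_space_le (R : Rep d) {T Λ : ℝ} (hT : 0 < T) {c : ℝ≥0∞} (hc : c ≠ ⊤)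
    {Φ : E d → E d → ℝ → ℝ≥0∞} (hΦ : CountBound R T Λ c Φ) :
    ENNReal.ofReal (2 * T)⁻¹ * ∫⁻ w, ∫⁻ y, ∫⁻ μ in Ioi (0 : ℝ), Φ w y μ
      ≤ ENNReal.ofReal (2 * Λ) * c * volume (closedBall (0 : E d) Λ) * ∫⁻ x, ‖R.D x‖ₑ := by
  calc ENNReal.ofReal (2 * T)⁻¹ * ∫⁻ w, ∫⁻ y, ∫⁻ μ in Ioi (0 : ℝ), Φ w y μ
      ≤ ENNReal.ofReal (2 * T)⁻¹ *
          ∫⁻ w, (closedBall (0 : E d) Λ).indicator (fun _ => totalBound R T Λ c) w := by
        gcongr with w
        exact lintegral_plane_le R hT hc hΦ w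
    _ = (ENNReal.ofReal (2 * T)⁻¹ * ENNReal.ofReal (4 * T)) * ENNReal.ofReal Λ * c
          * volume (closedBall (0 : E d) Λ) * ∫⁻ x, ‖R.D x‖ₑ := by
        rw [lintegral_indicator_const measurableSet_closedBall, totalBound]; ring
    _ = _ := by
        have : ENNReal.ofReal (2 * T)⁻¹ * ENNReal.ofReal (4 * T) = ENNReal.ofReal 2 := by
          rw [← ENNReal.ofReal_mul (by positivity)]
          congr 1; field_simp; ring
        rw [this, ← ENNReal.ofReal_mul (by norm_num : (0 : ℝ) ≤ 2)]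

lemma tendsto_space (R : Rep d) {T Λ : ℝ} (hT : 0 < T) {c : ℝ≥0∞} (hc : c ≠ ⊤)
    {Φ : ℕ → E d → E d → ℝ → ℝ≥0∞}
    (hm : ∀ J, Measurable fun p : E d × E d × ℝ => Φ J p.1 p.2.1 p.2.2)
    (hΦ : ∀ J, CountBound R T Λ c (Φ J))
    (hev : ∀ w y μ, (y, w) ∈ R.good → ∀ Z : Finset ℝ,
      (∀ t, t ∈ Z ↔ t ∈ Icc (-(2 * T)) (2 * T) ∧ R.f (y + t • w) = μ) →
        ∀ᶠ J in atTop, Φ J w y μ = 0) :
    Tendsto (fun J => ∫⁻ w, ∫⁻ y, ∫⁻ μ in Ioi (0 : ℝ), Φ J w y μ) atTop (𝓝 0) := by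
  have h2 : ∀ J, Measurable fun p : E d × E d => ∫⁻ μ in Ioi (0 : ℝ), Φ J p.1 p.2 μ :=
    fun J => Measurable.lintegral_prod_right' (ν := volume.restrict (Ioi (0 : ℝ)))
      (f := fun p : (E d × E d) × ℝ => Φ J p.1.1 p.1.2 p.2)
      ((hm J).comp (by fun_prop : Measurable fun p : (E d × E d) × ℝ => (p.1.1, p.1.2, p.2)))
  have hfin : totalBound R T Λ c ≠ ⊤ := by
    unfold totalBound
    finiteness [hc, R.int_D.hasFiniteIntegral.ne]
  have hline : ∀ w y, (y, w) ∈ R.good →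
      Tendsto (fun J => ∫⁻ μ in Ioi (0 : ℝ), Φ J w y μ) atTop (𝓝 0) := by
    intro w y h
    obtain ⟨N, hNm, hint, hae⟩ := line_count R hT h
    have hN : ∫⁻ μ in Ioi (0 : ℝ), c * N μ ≠ ⊤ := by
      refine ne_top_of_le_ne_top ?_ (setLIntegral_le_lintegral _ _)
      rw [lintegral_const_mul _ hNm]
      exact ENNReal.mul_ne_top hc (ne_top_of_le_ne_top (windowDeriv_ne_top R hT h) hint)
    have hae' := ae_restrict_of_ae (s := Ioi (0 : ℝ)) hae
    simpa using tendsto_lintegral_of_dominated_convergence' (fun μ => c * N μ)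
      (fun J => ((hm J).comp (by fun_prop : Measurable fun μ : ℝ => (w, y, μ))).aemeasurable)
      (fun J => hae'.mono fun μ ⟨Z, hZ, hcard⟩ => ((hΦ J).2 w y μ h Z hZ).trans (mul_le_mul_right hcard c)) hN
      (hae'.mono fun μ ⟨Z, hZ, _⟩ => tendsto_const_nhds.congr'
        ((hev w y μ h Z hZ).mono fun J hJ => (hJ.trans rfl).symm))
  have hplane : ∀ w, Tendsto (fun J => ∫⁻ y, ∫⁻ μ in Ioi (0 : ℝ), Φ J w y μ) atTop (𝓝 0) := by
    intro w
    by_cases hw : ‖w‖ ≤ Λ
    · have hb : ∫⁻ y, c * windowDeriv R T w y ≠ ⊤ := by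
        rw [lintegral_const_mul' _ _ hc]
        refine ne_top_of_le_ne_top hfin ?_
        unfold totalBound
        gcongr
        exact lintegral_windowDeriv_le R hw
      simpa using tendsto_lintegral_of_dominated_convergence'
        (fun y => c * windowDeriv R T w y)
        (fun J => ((h2 J).comp measurable_prodMk_left).aemeasurable)
        (fun J => (R.ae_good w).mono fun y hy => lintegral_line_le R hT (hΦ J) hy) hb
        ((R.ae_good w).mono fun y hy => hline w y hy)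
    · simp [fun J y μ => (hΦ J).1 w y μ (not_le.1 hw)]
  simpa using tendsto_lintegral_of_dominated_convergence'
    (fun w => (closedBall (0 : E d) Λ).indicator (fun _ => totalBound R T Λ c) w)
    (fun J => (h2 J).lintegral_prod_right'.aemeasurable)
    (fun J => Eventually.of_forall fun w => lintegral_plane_le R hT hc (hΦ J) w)
    (by rw [lintegral_indicator_const measurableSet_closedBall]
        exact ENNReal.mul_ne_top hfin measure_closedBall_lt_top.ne)
    (Eventually.of_forall hplane)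

/-! ### Short intervals -/

/-- The zero after `a`. -/
noncomputable def nxt (Z : Finset ℝ) (a : ℝ) : ℝ :=
  if h : (Z.filter fun b => a < b).Nonempty then (Z.filter fun b => a < b).min' h else a

lemma le_nxt (Z : Finset ℝ) (a : ℝ) : a ≤ nxt Z a := by
  unfold nxt
  split_ifs with h
  · exact (Finset.mem_filter.1 (Finset.min'_mem _ h)).2.le
  · exact le_rfl

lemma sum_geom_le {q : ℝ} (hq : 1 < q) {g : ℝ} (s : Finset ℤ)
    (hs : ∀ k ∈ s, g ≤ q ^ k) : ∑ k ∈ s, (q ^ k)⁻¹ * g ≤ q / (q - 1) := by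
  have hq0 : 0 < q := by linarith
  rcases s.eq_empty_or_nonempty with rfl | hne
  · simp only [Finset.sum_empty]; exact div_nonneg hq0.le (by linarith)
  set m := s.min' hne
  have hm : ∀ k ∈ s, (m : ℤ) ≤ k := fun k hk => s.min'_le k hk
  have hinj : Set.InjOn (fun k : ℤ => (k - m).toNat) s := by
    intro a ha b hb hab
    have := hm a ha; have := hm b hb
    simp only at hab; omega
  have hterm : ∀ k ∈ s, (q ^ k)⁻¹ * g ≤ q⁻¹ ^ (k - m).toNat := by
    intro k hk
    have hk' : (q : ℝ) ^ k = q ^ m * q ^ (k - m).toNat := by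
      rw [← zpow_natCast q, ← zpow_add₀ hq0.ne']
      congr 1; have := hm k hk; omega
    rw [hk', inv_pow, mul_inv, mul_right_comm]
    refine mul_le_of_le_one_left (by positivity) ?_
    rw [inv_mul_le_iff₀ (by positivity), mul_one]
    exact hs m (s.min'_mem hne)
  calc ∑ k ∈ s, (q ^ k)⁻¹ * g ≤ ∑ k ∈ s, q⁻¹ ^ (k - m).toNat := Finset.sum_le_sum hterm
    _ = ∑ j ∈ s.image (fun k => (k - m).toNat), q⁻¹ ^ j := (Finset.sum_image hinj).symm
    _ ≤ ∑' j : ℕ, q⁻¹ ^ j :=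
        (summable_geometric_of_lt_one (by positivity) (inv_lt_one_of_one_lt₀ hq)).sum_le_tsum _
          fun _ _ => by positivity
    _ = q / (q - 1) := by
        rw [tsum_geometric_of_lt_one (by positivity) (inv_lt_one_of_one_lt₀ hq)]
        field_simp

/-- The pairs counted by `scaleI` at scale `r`. -/
def setI (R : Rep d) (L r : ℝ) : Set (ℝ × E d × E d) :=
  {p | ‖p.2.2‖ ≤ L * r ∧ Pattern R.f L p.1 p.2.1 p.2.2}

lemma measurableSet_setI (R : Rep d) (L r : ℝ) : MeasurableSet (setI R L r) :=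
  (measurableSet_le (by fun_prop : Measurable fun p : ℝ × E d × E d => ‖p.2.2‖)
    measurable_const).inter (measurableSet_pattern R.meas_f L)

lemma exists_zero {F : ℝ → ℝ} (hF : Continuous F) {a b μ : ℝ} (hab : a ≤ b)
    (h : μ ∈ uIcc (F a) (F b)) : ∃ z ∈ Icc a b, F z = μ := by
  have := intermediate_value_uIcc (a := a) (b := b) hF.continuousOn h
  rwa [uIcc_of_le hab] at this

lemma exists_le_of_forall_near {F : ℝ → ℝ} (hF : Continuous F) {a b μ : ℝ} (hab : a ≤ b)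
    (h : ∀ n : ℕ, ∃ s ∈ Icc a b, F s < μ + 1 / ((n : ℝ) + 1)) : ∃ s ∈ Icc a b, F s ≤ μ := by
  obtain ⟨s, hs, hmin⟩ := isCompact_Icc.exists_isMinOn (nonempty_Icc.2 hab) hF.continuousOn
  refine ⟨s, hs, le_of_forall_pos_lt_add fun ε hε => ?_⟩
  obtain ⟨n, hn⟩ := exists_nat_one_div_lt hε
  obtain ⟨u, hu, hlt⟩ := h n
  exact (hmin hu).trans_lt (hlt.trans (by linarith))

/-- A pattern on a line is a zero, or lies between two zeros at distance at most `2 L r`. -/
lemma pattern_line {F : ℝ → ℝ} (hF : Continuous F) {T L r μ t : ℝ} (hr : 0 < r) (hL : 0 ≤ L)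
    (hLr : L * r ≤ T) (ht : t ∈ Icc (-T) T) {Z : Finset ℝ}
    (hZ : ∀ s, s ∈ Z ↔ s ∈ Icc (-(2 * T)) (2 * T) ∧ F s = μ)
    (hP : (μ < F t ∧
        (∀ n : ℕ, ∃ s ∈ Icc (t - L * r) t, F s < μ + 1 / ((n : ℝ) + 1)) ∧
        (∀ n : ℕ, ∃ s ∈ Icc t (t + L * r), F s < μ + 1 / ((n : ℝ) + 1))) ∨
      (F t ≤ μ ∧ (∃ s ∈ Icc (t - L * r) t, μ < F s) ∧ (∃ s ∈ Icc t (t + L * r), μ < F s))) :
    t ∈ Z ∨ ∃ a ∈ Z, nxt Z a - a ≤ 2 * L * r ∧ t ∈ Ioo a (nxt Z a) := by
  have hLr0 : 0 ≤ L * r := by positivity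
  have hwin : ∀ s ∈ Icc (t - L * r) (t + L * r), s ∈ Icc (-(2 * T)) (2 * T) := fun s hs =>
    ⟨by linarith [hs.1, ht.1], by linarith [hs.2, ht.2]⟩
  by_cases hmt : F t = μ
  · exact Or.inl ((hZ t).2 ⟨hwin t ⟨by linarith, by linarith⟩, hmt⟩)
  right
  obtain ⟨⟨u, hu, hu'⟩, ⟨v, hv, hv'⟩⟩ :
      (∃ u ∈ Icc (t - L * r) t, μ ∈ uIcc (F u) (F t)) ∧
      (∃ v ∈ Icc t (t + L * r), μ ∈ uIcc (F t) (F v)) := by
    rcases hP with ⟨h1, h2, h3⟩ | ⟨h1, ⟨u, hu, h2⟩, ⟨v, hv, h3⟩⟩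
    · obtain ⟨u, hu, h2⟩ := exists_le_of_forall_near hF (by linarith) h2
      obtain ⟨v, hv, h3⟩ := exists_le_of_forall_near hF (by linarith) h3
      exact ⟨⟨u, hu, Icc_subset_uIcc ⟨h2, h1.le⟩⟩, ⟨v, hv, Icc_subset_uIcc' ⟨h3, h1.le⟩⟩⟩
    · exact ⟨⟨u, hu, Icc_subset_uIcc' ⟨h1, h2.le⟩⟩, ⟨v, hv, Icc_subset_uIcc ⟨h1, h3.le⟩⟩⟩
  obtain ⟨a, ha, hFa⟩ := exists_zero hF hu.2 hu'
  obtain ⟨b, hb, hFb⟩ := exists_zero hF hv.1 hv'
  have hat : a < t := lt_of_le_of_ne ha.2 fun h => hmt (h ▸ hFa)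
  have htb : t < b := lt_of_le_of_ne hb.1 fun h => hmt (h ▸ hFb)
  have haZ : a ∈ Z := (hZ a).2 ⟨hwin a ⟨hu.1.trans ha.1, by linarith⟩, hFa⟩
  have hbZ : b ∈ Z := (hZ b).2 ⟨hwin b ⟨by linarith, hb.2.trans hv.2⟩, hFb⟩
  have hne : (Z.filter fun s => s < t).Nonempty := ⟨a, Finset.mem_filter.2 ⟨haZ, hat⟩⟩
  set z := (Z.filter fun s => s < t).max' hne with hz
  obtain ⟨hzZ, hzt⟩ := Finset.mem_filter.1 ((Z.filter fun s => s < t).max'_mem hne)
  have haz : a ≤ z := Finset.le_max' _ a (Finset.mem_filter.2 ⟨haZ, hat⟩)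
  have hne' : (Z.filter fun s => z < s).Nonempty :=
    ⟨b, Finset.mem_filter.2 ⟨hbZ, hzt.trans htb⟩⟩
  have hn : nxt Z z = (Z.filter fun s => z < s).min' hne' := by rw [nxt, dif_pos hne']
  obtain ⟨hnZ, hzn⟩ := Finset.mem_filter.1 ((Z.filter fun s => z < s).min'_mem hne')
  rw [← hn] at hnZ hzn
  have hnb : nxt Z z ≤ b := hn ▸ Finset.min'_le _ b (Finset.mem_filter.2 ⟨hbZ, hzt.trans htb⟩)
  have htn : t < nxt Z z := by
    rcases lt_trichotomy t (nxt Z z) with h | h | h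
    · exact h
    · exact absurd ((hZ _).1 hnZ).2 (h ▸ hmt)
    · exact absurd (Finset.le_max' _ _ (Finset.mem_filter.2 ⟨hnZ, h⟩)) (not_le.2 hzn)
  exact ⟨z, hzZ, by linarith [hu.1, ha.1, hb.2, hv.2], hzt, htn⟩

lemma countBound_setI (R : Rep d) {L q T : ℝ} (hL : 1 ≤ L) (hq : 1 < q) (s : Finset ℤ)
    (hs : ∀ k ∈ s, L * q ^ k ≤ T) :
    CountBound R T L (ENNReal.ofReal (2 * L * (q / (q - 1))))
      (fun w y μ => ∑' k : s, lineMass (setI R L (q ^ (k : ℤ))) T (q ^ (k : ℤ)) w y μ) := by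
  have hr : ∀ k : ℤ, 0 < q ^ k := fun k => zpow_pos (by linarith) k
  refine ⟨fun w y μ hw => ?_, fun w y μ hg Z hZ => ?_⟩
  · refine ENNReal.tsum_eq_zero.2 fun k => ?_
    have : {t : ℝ | (μ, y + t • w, (q ^ (k : ℤ)) • w) ∈ setI R L (q ^ (k : ℤ))} = ∅ := by
      refine Set.eq_empty_of_forall_notMem fun t ht => ?_
      have h := ht.1
      simp only [norm_smul, Real.norm_eq_abs, abs_of_pos (hr k)] at h
      nlinarith [hr k]
    simp [lineMass, this]
  have hF := (R.lineGood y w hg).1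
  set F : ℝ → ℝ := fun t => R.f (y + t • w) with hFdef
  -- the gaps
  set G : ℤ → ℝ → ℝ := fun k a =>
    if nxt Z a - a ≤ 2 * L * q ^ k then (q ^ k)⁻¹ * (nxt Z a - a) else 0 with hG
  have hG0 : ∀ k a, 0 ≤ G k a := fun k a => by
    simp only [hG]
    split_ifs
    · have := hr k; have := le_nxt Z a; exact mul_nonneg (by positivity) (by linarith)
    · exact le_rfl
  have hk : ∀ k ∈ s, lineMass (setI R L (q ^ k)) T (q ^ k) w y μ
      ≤ ∑ a ∈ Z, ENNReal.ofReal (G k a) := by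
    intro k hk
    set r := q ^ k with hr'
    have hsub : Icc (-T) T ∩ {t : ℝ | (μ, y + t • w, r • w) ∈ setI R L r} ⊆
        ↑Z ∪ ⋃ a ∈ Z.filter (fun a => nxt Z a - a ≤ 2 * L * r), Ioo a (nxt Z a) := by
      rintro t ⟨ht, -, hP⟩
      have key : ∀ c : ℝ, y + t • w + c • r • w = y + (t + c * r) • w := fun c => by module
      have key' : ∀ c : ℝ, y + t • w - c • r • w = y + (t - c * r) • w := fun c => by module
      unfold Pattern at hP
      simp only [key, key'] at hP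
      have hconv : ∀ c : ℚ, 0 ≤ (c : ℝ) → (c : ℝ) ≤ L →
          t - c * r ∈ Icc (t - L * r) t ∧ t + c * r ∈ Icc t (t + L * r) := fun c h0 h1 => by
        have := mul_le_mul_of_nonneg_right h1 (hr k).le
        have := mul_nonneg h0 (hr k).le
        refine ⟨⟨?_, ?_⟩, ⟨?_, ?_⟩⟩ <;> linarith
      rcases pattern_line hF (hr k) (by linarith : 0 ≤ L) (hs k hk) ht hZ (by
        rcases hP with ⟨h1, h2, h3⟩ | ⟨h1, ⟨c, c0, c1, c2⟩, ⟨e, e0, e1, e2⟩⟩
        · exact Or.inl ⟨h1, fun n => (h2 n).elim fun c hc => ⟨_, (hconv c hc.1 hc.2.1).1, hc.2.2⟩,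
            fun n => (h3 n).elim fun c hc => ⟨_, (hconv c hc.1 hc.2.1).2, hc.2.2⟩⟩
        · exact Or.inr ⟨h1, ⟨_, (hconv c c0 c1).1, c2⟩, ⟨_, (hconv e e0 e1).2, e2⟩⟩) with
        h | ⟨a, ha, hgap, hmem⟩
      · exact Or.inl h
      · exact Or.inr (mem_biUnion (Finset.mem_filter.2 ⟨ha, hgap⟩) hmem)
    have hvol : volume (Icc (-T) T ∩ {t : ℝ | (μ, y + t • w, r • w) ∈ setI R L r})
        ≤ ∑ a ∈ Z.filter (fun a => nxt Z a - a ≤ 2 * L * r), ENNReal.ofReal (nxt Z a - a) :=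
      calc _ ≤ _ := measure_mono hsub
        _ ≤ volume (↑Z : Set ℝ)
            + volume (⋃ a ∈ Z.filter (fun a => nxt Z a - a ≤ 2 * L * r), Ioo a (nxt Z a)) :=
            measure_union_le _ _
        _ ≤ _ := by
          rw [Z.finite_toSet.measure_zero, zero_add]
          exact (measure_biUnion_finset_le _ _).trans_eq (by simp [Real.volume_Ioo])
    refine (mul_le_mul_right hvol _).trans (le_of_eq ?_)
    rw [Finset.mul_sum, Finset.sum_filter]
    refine Finset.sum_congr rfl fun a _ => ?_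
    simp only [hG, ← hr']
    split_ifs
    · rw [ENNReal.ofReal_mul (inv_nonneg.2 (hr k).le)]
    · simp
  simp only [tsum_fintype]
  rw [Finset.sum_coe_sort s (fun k => lineMass (setI R L (q ^ k)) T (q ^ k) w y μ)]
  refine (Finset.sum_le_sum hk).trans ?_
  rw [Finset.sum_comm]
  refine (Finset.sum_le_card_nsmul Z _ (ENNReal.ofReal (2 * L * (q / (q - 1)))) fun a _ => ?_).trans
    (by rw [nsmul_eq_mul, mul_comm])
  rw [← ENNReal.ofReal_sum_of_nonneg fun k _ => hG0 k a]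
  refine ENNReal.ofReal_le_ofReal ?_
  rw [← Finset.sum_filter]
  rcases (le_nxt Z a).eq_or_lt with h | h
  · rw [← h]; simp only [sub_self, mul_zero, Finset.sum_const_zero]
    exact mul_nonneg (by linarith) (div_nonneg (by linarith) (by linarith))
  · have hL2 : 0 < 2 * L := by linarith
    have := sum_geom_le hq (g := (nxt Z a - a) / (2 * L))
      (s.filter fun k => nxt Z a - a ≤ 2 * L * q ^ k) fun k hk => by
        rw [div_le_iff₀ hL2]; linarith [(Finset.mem_filter.1 hk).2]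
    calc ∑ k ∈ s.filter (fun k => nxt Z a - a ≤ 2 * L * q ^ k), (q ^ k)⁻¹ * (nxt Z a - a)
        = 2 * L * ∑ k ∈ s.filter (fun k => nxt Z a - a ≤ 2 * L * q ^ k),
            (q ^ k)⁻¹ * ((nxt Z a - a) / (2 * L)) := by
          rw [Finset.mul_sum]
          refine Finset.sum_congr rfl fun k _ => ?_
          field_simp
      _ ≤ _ := by gcongr

/-! ### Crossings -/

/-- The pairs counted by `scaleW` at scale `r`. -/
def setW (R : Rep d) (n : ℕ) (L r : ℝ) : Set (ℝ × E d × E d) :=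
  {p | Crossing R.f {z | p.1 < gn R.f n z} L r p.1 p.2.1 p.2.2}

lemma isOpen_ball_subset {g : E d → ℝ} (hg : ∀ μ, IsOpen {z | μ < g z}) (ρ : ℝ) :
    IsOpen {p : ℝ × E d | closedBall p.2 ρ ⊆ {z | p.1 < g z}} := by
  rw [Metric.isOpen_iff]
  rintro ⟨μ, p⟩ hp
  obtain ⟨m, hm⟩ := (isCompact_closedBall p ρ).elim_directed_cover
    (fun m : ℕ => {z | μ + 1 / ((m : ℝ) + 1) < g z}) (fun m => hg _)
    (fun z hz => by
      obtain ⟨m, hm⟩ := exists_nat_one_div_lt (sub_pos.2 (show μ < g z from hp hz))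
      exact mem_iUnion.2 ⟨m, by simp only [Set.mem_ofPred_eq]; linarith⟩)
    (directed_of_isDirected_le fun a b hab z (hz : _ < g z) => show _ < g z by
      have : (1 : ℝ) / ((b : ℝ) + 1) ≤ 1 / ((a : ℝ) + 1) :=
        one_div_le_one_div_of_le (by positivity) (by exact_mod_cast Nat.succ_le_succ hab)
      linarith)
  obtain ⟨η, hη, hsub⟩ :=
    (isCompact_closedBall p ρ).exists_thickening_subset_open (hg _) hm
  refine ⟨min η (1 / ((m : ℝ) + 1)), lt_min hη (by positivity), fun ⟨μ', p'⟩ hq z hz => ?_⟩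
  rw [mem_ball, Prod.dist_eq, max_lt_iff, lt_min_iff, lt_min_iff] at hq
  have hz' : z + (p - p') ∈ closedBall p ρ := by
    rw [mem_closedBall, dist_eq_norm] at hz ⊢
    rwa [show z + (p - p') - p = z - p' by abel]
  have := hsub (mem_thickening_iff.2 ⟨_, hz', by
    rw [dist_self_add_right, ← dist_eq_norm, dist_comm]; exact hq.2.1⟩)
  have h1 := hq.1.2
  rw [Real.dist_eq] at h1
  have := (abs_lt.1 h1).2
  simp only [Set.mem_ofPred_eq] at *
  linarith

lemma measurableSet_setW (R : Rep d) (n : ℕ) (L r : ℝ) : MeasurableSet (setW R n L r) := by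
  have hf := R.meas_f
  have hb : ∀ ρ, MeasurableSet {p : ℝ × E d × E d | closedBall p.2.1 ρ ⊆ {z | p.1 < gn R.f n z}} :=
    fun ρ => (by fun_prop : Measurable fun p : ℝ × E d × E d => (p.1, p.2.1))
      (isOpen_ball_subset (isOpen_gn R n) ρ).measurableSet
  exact (measurableSet_le (by fun_prop : Measurable fun p : ℝ × E d × E d => ‖p.2.2‖)
      measurable_const).inter
    ((measurableSet_lt measurable_fst
      (hf.comp (by fun_prop : Measurable fun p : ℝ × E d × E d => p.2.1))).inter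
    ((measurableSet_le (hf.comp (by fun_prop : Measurable fun p : ℝ × E d × E d => p.2.1 + p.2.2))
      measurable_fst).inter ((hb _).inter (hb _).compl)))

/-- `z` is at distance comparable to `r` from the complement of `O`. -/
def Placed (O : Set (E d)) (L r : ℝ) (z : E d) : Prop :=
  closedBall z (r / 20) ⊆ O ∧ ¬ closedBall z ((L + 1) * r) ⊆ O

lemma lineMass_setW_le (R : Rep d) (n : ℕ) {L r T μ : ℝ} {w y : E d} (hr : 0 < r) (hrT : r ≤ T)
    (hg : (y, w) ∈ R.good) {Z : Finset ℝ}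
    (hZ : ∀ t, t ∈ Z ↔ t ∈ Icc (-(2 * T)) (2 * T) ∧ R.f (y + t • w) = μ) :
    lineMass (setW R n L r) T r w y μ ≤
      ∑ z ∈ Z, {z : ℝ | Placed {x | μ < gn R.f n x} L r (y + z • w)}.indicator 1 z := by
  classical
  have hF := (R.lineGood y w hg).1
  set O := {x | μ < gn R.f n x}
  set Z' := Z.filter fun z => Placed O L r (y + z • w)
  have hsub : Icc (-T) T ∩ {t : ℝ | (μ, y + t • w, r • w) ∈ setW R n L r} ⊆
      ⋃ z ∈ Z', Ico (z - r) z := by
    rintro t ⟨ht, hn, h1, h2, h3, h4⟩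
    rw [show y + t • w + r • w = y + (t + r) • w by module] at h2
    obtain ⟨z, hz, hFz⟩ := exists_zero (F := fun t => R.f (y + t • w)) hF
      (by linarith : t ≤ t + r) (Icc_subset_uIcc' ⟨h2, h1.le⟩)
    have hzt : t < z := lt_of_le_of_ne hz.1 fun h => by subst h; exact h1.ne' hFz
    have hd : dist (y + z • w) (y + t • w) ≤ r / 10 := by
      rw [dist_add_left, dist_eq_norm, ← sub_smul, norm_smul, Real.norm_eq_abs,
        abs_of_pos (sub_pos.2 hzt)]
      refine le_trans ?_ hn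
      rw [norm_smul, Real.norm_eq_abs, abs_of_pos hr]
      exact mul_le_mul_of_nonneg_right (by linarith [hz.2]) (norm_nonneg w)
    have hZ' : z ∈ Z' := Finset.mem_filter.2
      ⟨(hZ z).2 ⟨⟨by linarith [ht.1], by linarith [hz.2, ht.2]⟩, hFz⟩,
        (closedBall_subset_closedBall' (by linarith)).trans h3,
        fun h => h4 ((closedBall_subset_closedBall' (by rw [dist_comm]; linarith)).trans h)⟩
    exact mem_biUnion hZ' ⟨by linarith [hz.2], hzt⟩
  refine (mul_le_mul_right ((measure_mono hsub).trans (measure_biUnion_finset_le _ _)) _).trans ?_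
  simp only [Real.volume_Ico, sub_sub_cancel, Finset.sum_const, nsmul_eq_mul]
  rw [mul_left_comm, ← ENNReal.ofReal_mul (inv_nonneg.2 hr.le), inv_mul_cancel₀ hr.ne',
    ENNReal.ofReal_one, mul_one]
  simp only [Set.indicator_apply, Set.mem_ofPred_eq, Pi.one_apply, Finset.sum_boole]
  exact le_rfl

lemma lineMass_setW_eq_zero (R : Rep d) (n : ℕ) {L r T μ : ℝ} {w y : E d} (hr : 0 < r)
    (hw : 1 / 10 < ‖w‖) : lineMass (setW R n L r) T r w y μ = 0 := by
  have : {t : ℝ | (μ, y + t • w, r • w) ∈ setW R n L r} = ∅ := by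
    refine Set.eq_empty_of_forall_notMem fun t ht => ?_
    have h := ht.1
    rw [norm_smul, Real.norm_eq_abs, abs_of_pos hr] at h
    nlinarith
  simp [lineMass, this]

/-- Boundedly many geometric scales place a given point. -/
lemma card_placed {O : Set (E d)} {L q : ℝ} (hq : 1 < q) {M : ℕ}
    (hM : 20 * (L + 1) < q ^ M) (z : E d) (s : Finset ℤ)
    (hs : ∀ k ∈ s, Placed O L (q ^ k) z) : s.card ≤ M := by
  rcases s.eq_empty_or_nonempty with rfl | hne
  · simp
  have hq0 : 0 < q := by linarith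
  have hsub : s ⊆ Finset.Ico (s.min' hne) (s.min' hne + (M : ℤ)) := by
    intro k hk
    refine Finset.mem_Ico.2 ⟨s.min'_le k hk, ?_⟩
    by_contra hkm
    push Not at hkm
    refine (hs _ (s.min'_mem hne)).2
      ((closedBall_subset_closedBall ?_).trans (hs k hk).1)
    have h1 := zpow_le_zpow_right₀ hq.le hkm
    rw [zpow_add₀ hq0.ne', zpow_natCast] at h1
    nlinarith [zpow_pos hq0 (s.min' hne)]
  simpa using Finset.card_le_card hsub

lemma countBound_setW (R : Rep d) (n : ℕ) {L q T : ℝ} (hq : 1 < q) {M : ℕ}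
    (hM : 20 * (L + 1) < q ^ M) {κ : Type*} (k : κ → ℤ) (hk : Function.Injective k)
    (hT : ∀ i, q ^ k i ≤ T) :
    CountBound R T (1 / 10) M
      (fun w y μ => ∑' i, lineMass (setW R n L (q ^ k i)) T (q ^ k i) w y μ) := by
  classical
  have hr : ∀ i : ℤ, 0 < q ^ i := fun i => zpow_pos (by linarith) i
  refine ⟨fun w y μ hw => ENNReal.tsum_eq_zero.2 fun i => lineMass_setW_eq_zero R n (hr _) hw,
    fun w y μ hg Z hZ => ?_⟩
  simp only
  rw [ENNReal.tsum_eq_iSup_sum]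
  refine iSup_le fun s => ?_
  refine (Finset.sum_le_sum fun i _ => lineMass_setW_le R n (hr _) (hT i) hg hZ).trans ?_
  rw [Finset.sum_comm]
  refine (Finset.sum_le_card_nsmul Z _ (M : ℝ≥0∞) fun z _ => ?_).trans
    (by rw [nsmul_eq_mul, mul_comm])
  simp only [Set.indicator_apply, Set.mem_ofPred_eq, Pi.one_apply, Finset.sum_boole]
  norm_cast
  rw [← Finset.card_image_of_injective _ hk]
  refine card_placed (O := {x | μ < gn R.f n x}) hq hM (y + z • w) _ fun j hj => ?_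
  obtain ⟨i, hi, rfl⟩ := Finset.mem_image.1 hj
  exact (Finset.mem_filter.1 hi).2

/-- A fixed point is not placed at small scales, uniformly in large `n`. -/
lemma eventually_not_placed (R : Rep d) {L : ℝ} (hL : 0 ≤ L) (μ : ℝ) (z : E d) :
    ∀ᶠ J : ℕ in atTop, ∀ n, J ≤ n → ∀ r, 0 < r → r < δs J →
      ¬ Placed {x | μ < gn R.f n x} L r z := by
  by_cases h : ∃ I, μ < gn R.f I z
  · obtain ⟨I, hI⟩ := h
    obtain ⟨ρ, hρ, hball⟩ := nhds_basis_closedBall.mem_iff.1 ((isOpen_gn R I μ).mem_nhds hI)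
    obtain ⟨m, hm⟩ := exists_nat_one_div_lt (show 0 < ρ / (L + 1) by positivity)
    filter_upwards [eventually_ge_atTop (max I m)] with J hJ n hn r hr hrJ hP
    refine hP.2 fun x hx => ?_
    have hr' : (L + 1) * r ≤ ρ := by
      have : δs J ≤ 1 / ((m : ℝ) + 1) :=
        one_div_le_one_div_of_le (by positivity)
          (by exact_mod_cast Nat.succ_le_succ (le_of_max_le_right hJ))
      rw [mul_comm]
      exact (le_div_iff₀ (by linarith)).1 (by linarith)
    exact (show μ < gn R.f I x from hball (closedBall_subset_closedBall hr' hx)).trans_le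
      (GmaxBasic.gn_mono R.nonneg R.int_f ((le_of_max_le_left hJ).trans hn) x)
  · push Not at h
    exact Eventually.of_forall fun J n _ r hr _ hP =>
      absurd (show μ < gn R.f n z from hP.1 (mem_closedBall_self (by positivity))) (not_lt.2 (h n))

end Sums

open Sums

theorem sums : SumsStmt := by
  intro d _ L q hL hq _
  classical
  obtain ⟨M, hM⟩ := pow_unbounded_of_one_lt (20 * (L + 1)) hq
  have hr : ∀ k : ℤ, 0 < q ^ k := fun k => zpow_pos (by linarith) k
  set CI : ℝ≥0∞ := ENNReal.ofReal (2 * L) * ENNReal.ofReal (2 * L * (q / (q - 1)))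
    * volume (closedBall (0 : E d) L) with hCI
  set CW : ℝ≥0∞ := ENNReal.ofReal (2 * (1 / 10)) * (M : ℝ≥0∞)
    * volume (closedBall (0 : E d) (1 / 10)) with hCW
  refine ⟨CI + CW, ?_, fun R => ?_⟩
  · exact ENNReal.add_ne_top.2
      ⟨ENNReal.mul_ne_top (by finiteness) measure_closedBall_lt_top.ne,
        ENNReal.mul_ne_top (by finiteness) measure_closedBall_lt_top.ne⟩
  have hI : ∑' k : ℤ, scaleI R L (q ^ k) ≤ CI * ∫⁻ x, ‖R.D x‖ₑ := by
    rw [ENNReal.tsum_eq_iSup_sum]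
    refine iSup_le fun s => ?_
    rw [← Finset.sum_coe_sort s, ← tsum_fintype (L := .unconditional _)]
    set T := L * (1 + ∑ k ∈ s, q ^ k)
    have hsum : 0 ≤ ∑ k ∈ s, q ^ k := Finset.sum_nonneg fun k _ => (hr k).le
    have hT : 0 < T := by positivity
    refine le_trans (le_of_eq ?_) (lintegral_space_le R hT ENNReal.ofReal_ne_top
      (countBound_setI R hL hq s fun k hk => ?_))
    · exact tsum_scale (fun k : s => measurableSet_setI R L (q ^ (k : ℤ))) hT (fun k => hr k) _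
    · exact mul_le_mul_of_nonneg_left (le_add_of_nonneg_of_le zero_le_one
        (Finset.single_le_sum (fun i _ => (hr i).le) hk)) (by linarith)
  have hW : ∀ n, ∑' k : ℤ, scaleW R n L (q ^ k) ≤ CW * ∫⁻ x, ‖R.D x‖ₑ := by
    intro n
    rw [ENNReal.tsum_eq_iSup_sum]
    refine iSup_le fun s => ?_
    rw [← Finset.sum_coe_sort s, ← tsum_fintype (L := .unconditional _)]
    set T := 1 + ∑ k ∈ s, q ^ k
    have hsum : 0 ≤ ∑ k ∈ s, q ^ k := Finset.sum_nonneg fun k _ => (hr k).le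
    have hT : 0 < T := by positivity
    refine le_trans (le_of_eq ?_) (lintegral_space_le R hT (ENNReal.natCast_ne_top M)
      (countBound_setW R n hq hM (fun k : s => (k : ℤ)) Subtype.val_injective fun k => ?_))
    · exact tsum_scale (fun k : s => measurableSet_setW R n L (q ^ (k : ℤ))) hT (fun k => hr k) _
    · exact le_add_of_nonneg_of_le zero_le_one (Finset.single_le_sum (fun i _ => (hr i).le) k.2)
  refine ⟨hI.trans (by gcongr; exact le_self_add), ?_,
    fun n => (hW n).trans (by gcongr; exact le_add_self), ?_⟩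
  · -- the tail of a convergent sum
    have hfin : ∑' k : ℤ, scaleI R L (q ^ k) ≠ ⊤ := ne_top_of_le_ne_top
      (ENNReal.mul_ne_top (ENNReal.mul_ne_top (by finiteness) measure_closedBall_lt_top.ne)
        R.int_D.hasFiniteIntegral.ne) hI
    rw [ENNReal.tendsto_atTop_zero]
    intro ε hε
    obtain ⟨s, hs⟩ := ((ENNReal.tendsto_tsum_compl_atTop_zero hfin).eventually_le_const hε).exists
    have hev : ∀ k ∈ s, ∀ᶠ J : ℕ in atTop, δs J ≤ q ^ k := fun k _ =>
      tendsto_one_div_add_atTop_nhds_zero_nat.eventually_le_const (hr k)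
    obtain ⟨J₀, hJ₀⟩ := eventually_atTop.1 ((eventually_all_finset s).2 hev)
    refine ⟨J₀, fun J hJ => le_trans ?_ hs⟩
    exact ENNReal.tsum_mono_subtype (fun k : ℤ => scaleI R L (q ^ k))
      (s := {k | q ^ k < δs J}) (t := {k | k ∉ s})
      fun k hk hks => absurd (hJ₀ J hJ k hks) (not_le.2 hk)
  · -- dominated convergence
    set Φ : ℕ → E d → E d → ℝ → ℝ≥0∞ := fun J w y μ => ⨆ n : {n : ℕ // J ≤ n},
      ∑' k : {k : ℤ // q ^ k < δs J},
        lineMass (setW R n L (q ^ (k : ℤ))) 1 (q ^ (k : ℤ)) w y μ with hΦ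
    have hone : ∀ (J : ℕ) (k : {k : ℤ // q ^ k < δs J}), q ^ (k : ℤ) ≤ 1 := fun J k =>
      k.2.le.trans (div_le_self zero_le_one (le_add_of_nonneg_left J.cast_nonneg))
    have hcb : ∀ J (n : {n : ℕ // J ≤ n}), CountBound R 1 (1 / 10) M (fun w y μ =>
        ∑' k : {k : ℤ // q ^ k < δs J},
          lineMass (setW R n L (q ^ (k : ℤ))) 1 (q ^ (k : ℤ)) w y μ) := fun J n =>
      countBound_setW R n hq hM (fun k : {k : ℤ // q ^ k < δs J} => (k : ℤ))
        Subtype.val_injective (hone J)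
    have hbound : ∀ J, CountBound R 1 (1 / 10) M (Φ J) := fun J =>
      ⟨fun w y μ hw => by
        simp only [hΦ, ENNReal.iSup_eq_zero]
        exact fun n => (hcb J n).1 w y μ hw,
        fun w y μ hg Z hZ => iSup_le fun n => (hcb J n).2 w y μ hg Z hZ⟩
    have hm : ∀ J, Measurable fun p : E d × E d × ℝ => Φ J p.1 p.2.1 p.2.2 := fun J =>
      Measurable.iSup fun n => Measurable.tsum fun k =>
        measurable_lineMass (measurableSet_setW R n L _) _ _
    have hlim := tendsto_space R one_pos (ENNReal.natCast_ne_top M) hm hbound (by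
      intro w y μ hg Z hZ
      have := (eventually_all_finset Z).2 fun z _ =>
        eventually_not_placed R (by linarith : 0 ≤ L) μ (y + z • w)
      filter_upwards [this] with J hJ
      simp only [hΦ, ENNReal.iSup_eq_zero, ENNReal.tsum_eq_zero]
      intro n k
      refine le_antisymm ((lineMass_setW_le R n (hr k) (hone J k) hg hZ).trans (le_of_eq ?_))
        zero_le
      refine Finset.sum_eq_zero fun z hz => ?_
      rw [Set.indicator_apply, if_neg]
      exact hJ z hz n n.2 _ (hr k) k.2)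
    refine tendsto_of_tendsto_of_tendsto_of_le_of_le tendsto_const_nhds
      (mul_zero (ENNReal.ofReal (2 * (1 : ℝ))⁻¹) ▸
        ENNReal.Tendsto.const_mul (a := ENNReal.ofReal (2 * (1 : ℝ))⁻¹) hlim
          (Or.inr ENNReal.ofReal_ne_top)) (fun J => zero_le) fun J => ?_
    refine iSup₂_le fun n hn => le_trans (le_of_eq (tsum_scale
      (fun k : {k : ℤ // q ^ k < δs J} => measurableSet_setW R n L (q ^ (k : ℤ))) one_pos
      (fun k => hr k) _)) ?_
    gcongr with w y μ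
    exact le_iSup (fun m : {n : ℕ // J ≤ n} => ∑' k : {k : ℤ // q ^ k < δs J},
      lineMass (setW R m L (q ^ (k : ℤ))) 1 (q ^ (k : ℤ)) w y μ) ⟨n, hn⟩

end Vale.Agent.P137
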